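import Vale.Agent.P247.H683.Push

/-!
# P247, package CO: closedness in a box
-/

open scoped ContDiff Topology
open Set MeasureTheory Filter Metric

noncomputable section

namespace Vale.Agent.P247.H683

open Vale.Agent.P247.H74 Vale.Agent.P247.H574

variable {D : Data} (b : Box D)

/-- the linear functional `[e, ·]` of the `z`-component -/
def ar (e : ℂ) : (ℂ × ℂ) →L[ℝ] ℝ :=
  (e.re • Complex.imCLM - e.im • Complex.reCLM).comp (ContinuousLinearMap.fst ℝ ℂ ℂ)

theorem ar_ap (e : ℂ) (p : ℂ × ℂ) : ar e p = e.re * p.1.im - e.im * p.1.re := rfl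

/-- the form `G d [e, z]` transported to `ℝ⁴` -/
def lf (G : ℂ × ℂ → ℝ) (e : ℂ) (x : R4) : R4 →L[ℝ] ℝ :=
  ext b G x • (ar e).comp (fderiv ℝ (inv b) x)

theorem ext_smooth {G : ℂ × ℂ → ℝ} (hG : ContDiff ℝ ∞ G) (hc : HasCompactSupport G)
    (hs : tsupport G ⊆ PD 2) : ContDiff ℝ ∞ (ext b G) := by
  refine contDiff_glue (isOpen_im b) (K_comp b hc hs).isClosed (image_mono hs) ?_
    fun x hx => ext_K b hx
  refine ContDiffOn.congr (f := fun x => G (inv b x)) ?_ fun x hx => ext_on b G hx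
  exact hG.comp_contDiffOn (inv_smooth b)

theorem lf_smooth {G : ℂ × ℂ → ℝ} (hG : ContDiff ℝ ∞ G) (hc : HasCompactSupport G)
    (hs : tsupport G ⊆ PD 2) (e : ℂ) : ContDiff ℝ ∞ (lf b G e) := by
  refine contDiff_glue (isOpen_im b) (K_comp b hc hs).isClosed (image_mono hs) ?_
    fun x hx => by rw [lf, ext_K b hx, zero_smul]
  refine ContDiffOn.smul (ext_smooth b hG hc hs).contDiffOn ?_
  exact contDiffOn_const.clm_comp ((inv_smooth b).fderiv_of_isOpen (isOpen_im b) (by simp))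

theorem lf_comp {G : ℂ × ℂ → ℝ} (hc : HasCompactSupport G)
    (hs : tsupport G ⊆ PD 2) (e : ℂ) : HasCompactSupport (lf b G e) :=
  HasCompactSupport.intro (K_comp b hc hs) fun x hx => by rw [lf, ext_K b hx, zero_smul]

theorem dd_off {G : ℂ × ℂ → ℝ} (hc : HasCompactSupport G)
    (hs : tsupport G ⊆ PD 2) (e : ℂ) {x : R4} (hx : x ∉ b.Θ '' tsupport G) (u v : R4) :
    dd (lf b G e) x u v = 0 := by
  have h1 : lf b G e =ᶠ[𝓝 x] fun _ => 0 := by
    filter_upwards [(K_comp b hc hs).isClosed.isOpen_compl.mem_nhds hx] with y hy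
    rw [lf, ext_K b hy, zero_smul]
  have h2 : fderiv ℝ (lf b G e) x = 0 := by
    rw [h1.fderiv_eq]
    exact (hasFDerivAt_const _ _).fderiv
  show fderiv ℝ (lf b G e) x u v - fderiv ℝ (lf b G e) x v u = 0
  rw [h2]
  simp

theorem dd_on {G : ℂ × ℂ → ℝ} (hG : ContDiff ℝ ∞ G) (e : ℂ) {x : R4}
    (hx : x ∈ b.Θ '' PD 2) (u v : R4) : dd (lf b G e) x u v =
      fderiv ℝ G (inv b x) (fderiv ℝ (inv b) x u) * ar e (fderiv ℝ (inv b) x v) -
      fderiv ℝ G (inv b x) (fderiv ℝ (inv b) x v) * ar e (fderiv ℝ (inv b) x u) := by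
  have hU := (isOpen_im b).mem_nhds hx
  have hi : ContDiffAt ℝ ∞ (inv b) x := (inv_smooth b).contDiffAt hU
  set h : R4 → ℝ := fun y => ar e (inv b y) with hh
  have hhs : ContDiffAt ℝ ∞ h x := (ar e).contDiff.contDiffAt.comp x hi
  have hev : ∀ᶠ y in 𝓝 x, (ar e).comp (fderiv ℝ (inv b) y) = fderiv ℝ h y := by
    filter_upwards [hU] with y hy
    have : DifferentiableAt ℝ (inv b) y :=
      ((inv_smooth b).contDiffAt ((isOpen_im b).mem_nhds hy)).differentiableAt (by simp)
    exact ((ar e).hasFDerivAt.comp y this.hasFDerivAt).fderiv.symm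
  have hl : lf b G e =ᶠ[𝓝 x] fun y => G (inv b y) • fderiv ℝ h y := by
    filter_upwards [hU, hev] with y hy hy'
    rw [lf, ext_on b G hy, hy']
  have hg : HasFDerivAt (fun y => G (inv b y)) ((fderiv ℝ G (inv b x)).comp
      (fderiv ℝ (inv b) x)) x :=
    ((hG.differentiable (by simp)) (inv b x)).hasFDerivAt.comp x
      (hi.differentiableAt (by simp)).hasFDerivAt
  have h2 : DifferentiableAt ℝ (fderiv ℝ h) x :=
    (hhs.fderiv_right (m := 1) (by norm_cast)).differentiableAt (by simp)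
  have h3 := (hg.smul h2.hasFDerivAt).congr_of_eventuallyEq hl
  have hsym : IsSymmSndFDerivAt ℝ h x := hhs.isSymmSndFDerivAt (by
    rw [minSmoothness_of_isRCLikeNormedField]
    exact WithTop.coe_le_coe.2 le_top)
  have h4 : ∀ u v, fderiv ℝ (lf b G e) x u v = G (inv b x) * fderiv ℝ (fderiv ℝ h) x u v +
      fderiv ℝ G (inv b x) (fderiv ℝ (inv b) x u) * fderiv ℝ h x v := fun u v => by
    rw [h3.fderiv]
    rfl
  have h5 : ∀ v, fderiv ℝ h x v = ar e (fderiv ℝ (inv b) x v) := fun v => by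
    rw [← hev.self_of_nhds]
    rfl
  show fderiv ℝ (lf b G e) x u v - fderiv ℝ (lf b G e) x v u = _
  rw [h4, h4, hsym.eq u v, h5, h5]
  ring

/-- bound for the vertical part -/
theorem closed_bound {S : ICur D} {μ : Measure R4} {Cd : ℝ} (hCd : 0 ≤ Cd)
    (hdom : ∀ φ, CF φ → |S.T φ| ≤ Cd * ∫ x, ‖φ x‖ ∂μ)
    {M : ℝ} (hM : 0 ≤ M) (lo : ∀ p ∈ PD 2, ∀ q ∈ PD 2, ‖p - q‖ ≤ M * ‖b.Θ p - b.Θ q‖)
    {G : ℂ × ℂ → ℝ} (hG : ContDiff ℝ ∞ G) (hc : HasCompactSupport G)
    (hs : tsupport G ⊆ PD 2) {N : ℝ} (hN : 0 ≤ N) (hGN : ∀ p w, |fderiv ℝ G p (0, w)| ≤ N * ‖w‖)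
    {V : Set R4} (hV : MeasurableSet V) (hVf : μ V ≠ ⊤) (hGV : b.Θ '' tsupport G ⊆ V) (e : ℂ)
    (he : ‖e‖ ≤ 1) :
    |S.T (pf b fun p => fderiv ℝ G p (e, 0))| ≤ Cd * (4 * N * M ^ 2 * μ.real V) := by
  set g : ℂ × ℂ → ℝ := fun p => fderiv ℝ G p (e, 0) with hg
  have hgc : Continuous g := (hG.continuous_fderiv (by simp)).clm_apply continuous_const
  have hgs : tsupport g ⊆ tsupport G := by
    refine closure_minimal (fun p hp => ?_) (isClosed_tsupport G)
    by_contra h
    apply hp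
    rw [hg]
    simp only
    rw [fderiv_of_notMem_tsupport ℝ h]
    rfl
  have hgcs : HasCompactSupport g := hc.of_isClosed_subset (isClosed_tsupport g) hgs
  have hpf : CF (pf b g) := pf_cf b hgc hgcs (hgs.trans hs)
  have hl := lf_smooth b hG hc hs e
  have hlc := lf_comp b hc hs e
  have hdl : CF (dd (lf b G e)) := by
    refine ⟨?_, ?_, fun x u => ?_⟩
    · refine f2_cont fun u v => ?_
      have h1 : Continuous (fderiv ℝ (lf b G e)) := hl.continuous_fderiv (by simp)
      exact (ap_cont h1 u v).sub (ap_cont h1 v u)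
    · exact HasCompactSupport.intro (K_comp b hc hs) fun x hx =>
        f2_ext fun u v => dd_off b hc hs e hx u v
    · exact sub_self _
  have hvt : CF (dd (lf b G e) + (-1 : ℝ) • pf b g) := cf_add hdl (cf_smul _ hpf)
  have hT : S.T (dd (lf b G e) + (-1 : ℝ) • pf b g) = - S.T (pf b g) := by
    rw [S.add _ _ hdl (cf_smul _ hpf), S.smul _ _ hpf, S.closed _ hl hlc]
    ring
  have hbd : ∀ x, ‖(dd (lf b G e) + (-1 : ℝ) • pf b g) x‖ ≤
      V.indicator (fun _ => 4 * N * M ^ 2) x := by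
    intro x
    by_cases hx : x ∈ b.Θ '' tsupport G
    · rw [indicator_of_mem (hGV hx)]
      have hx2 : x ∈ b.Θ '' PD 2 := image_mono hs hx
      refine f2_norm_le (by positivity) fun u v => ?_
      show |(dd (lf b G e) x + (-1 : ℝ) • pf b g x) u v| ≤ _
      rw [add_ap, smul_ap, dd_on b hG e hx2, pf_ap, ext_on b g hx2, hg]
      simp only
      set p := inv b x
      set U := fderiv ℝ (inv b) x u with hU
      set W := fderiv ℝ (inv b) x v with hW
      have hUP : P1 b x u = U.1 := rfl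
      have hWP : P1 b x v = W.1 := rfl
      rw [hUP, hWP, ar_ap, ar_ap]
      have hUn : ‖U‖ ≤ M * ‖u‖ := (ContinuousLinearMap.le_opNorm _ _).trans
        (mul_le_mul_of_nonneg_right (dinv_bound b hM lo hx2) (norm_nonneg _))
      have hWn : ‖W‖ ≤ M * ‖v‖ := (ContinuousLinearMap.le_opNorm _ _).trans
        (mul_le_mul_of_nonneg_right (dinv_bound b hM lo hx2) (norm_nonneg _))
      have hdec : ∀ q : ℂ × ℂ, fderiv ℝ G p q = fderiv ℝ G p (1, 0) * q.1.re +
          fderiv ℝ G p (Complex.I, 0) * q.1.im + fderiv ℝ G p (0, q.2) := by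
        intro q
        have : q = q.1.re • ((1 : ℂ), (0 : ℂ)) + q.1.im • (Complex.I, (0 : ℂ)) + (0, q.2) := by
          ext <;> simp
        conv_lhs => rw [this]
        rw [map_add, map_add, map_smul, map_smul, smul_eq_mul, smul_eq_mul]
        ring
      rw [hdec U, hdec W, hdec (e, 0)]
      have h0 : fderiv ℝ G p (0, (0 : ℂ)) = 0 := by
        have : ((0 : ℂ), (0 : ℂ)) = 0 := rfl
        rw [this, map_zero]
      simp only [h0]
      have hid : (fderiv ℝ G p (1, 0) * U.1.re + fderiv ℝ G p (Complex.I, 0) * U.1.im +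
            fderiv ℝ G p (0, U.2)) * (e.re * W.1.im - e.im * W.1.re) -
          (fderiv ℝ G p (1, 0) * W.1.re + fderiv ℝ G p (Complex.I, 0) * W.1.im +
            fderiv ℝ G p (0, W.2)) * (e.re * U.1.im - e.im * U.1.re) +
          -1 * ((fderiv ℝ G p (1, 0) * e.re + fderiv ℝ G p (Complex.I, 0) * e.im + 0) *
            (U.1.re * W.1.im - U.1.im * W.1.re)) =
          fderiv ℝ G p (0, U.2) * (e.re * W.1.im - e.im * W.1.re) -
            fderiv ℝ G p (0, W.2) * (e.re * U.1.im - e.im * U.1.re) := by ring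
      rw [hid]
      have har : ∀ w : ℂ, |e.re * w.im - e.im * w.re| ≤ 2 * ‖w‖ := by
        intro w
        have h1 := Complex.abs_re_le_norm e
        have h2 := Complex.abs_im_le_norm e
        have h3 := Complex.abs_re_le_norm w
        have h4 := Complex.abs_im_le_norm w
        calc |e.re * w.im - e.im * w.re| ≤ |e.re * w.im| + |e.im * w.re| := abs_sub _ _
          _ = |e.re| * |w.im| + |e.im| * |w.re| := by rw [abs_mul, abs_mul]
          _ ≤ 1 * ‖w‖ + 1 * ‖w‖ := by
            gcongr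
            · exact h1.trans he
            · exact h2.trans he
          _ = 2 * ‖w‖ := by ring
      have g1 : |fderiv ℝ G p (0, U.2)| ≤ N * ‖U‖ :=
        (hGN p U.2).trans (mul_le_mul_of_nonneg_left (norm_snd_le U) hN)
      have g2 : |fderiv ℝ G p (0, W.2)| ≤ N * ‖W‖ :=
        (hGN p W.2).trans (mul_le_mul_of_nonneg_left (norm_snd_le W) hN)
      have g3 : |e.re * W.1.im - e.im * W.1.re| ≤ 2 * ‖W‖ :=
        (har W.1).trans (mul_le_mul_of_nonneg_left (norm_fst_le W) (by norm_num))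
      have g4 : |e.re * U.1.im - e.im * U.1.re| ≤ 2 * ‖U‖ :=
        (har U.1).trans (mul_le_mul_of_nonneg_left (norm_fst_le U) (by norm_num))
      calc _ ≤ |fderiv ℝ G p (0, U.2) * (e.re * W.1.im - e.im * W.1.re)| +
            |fderiv ℝ G p (0, W.2) * (e.re * U.1.im - e.im * U.1.re)| := abs_sub _ _
        _ = |fderiv ℝ G p (0, U.2)| * |e.re * W.1.im - e.im * W.1.re| +
            |fderiv ℝ G p (0, W.2)| * |e.re * U.1.im - e.im * U.1.re| := by
              rw [abs_mul, abs_mul]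
        _ ≤ (N * ‖U‖) * (2 * ‖W‖) + (N * ‖W‖) * (2 * ‖U‖) := by gcongr
        _ = 4 * N * (‖U‖ * ‖W‖) := by ring
        _ ≤ 4 * N * ((M * ‖u‖) * (M * ‖v‖)) := by gcongr
        _ = 4 * N * M ^ 2 * ‖u‖ * ‖v‖ := by ring
    · have h0 : (dd (lf b G e) + (-1 : ℝ) • pf b g) x = 0 := by
        refine f2_ext fun u v => ?_
        show (dd (lf b G e) x + (-1 : ℝ) • pf b g x) u v = 0
        have hx' : x ∉ b.Θ '' tsupport g := fun h => hx (image_mono hgs h)
        rw [add_ap, smul_ap, dd_off b hc hs e hx, pf_ap, ext_K b hx']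
        ring
      rw [h0, f2_norm_zero]
      exact indicator_nonneg (fun _ _ => by positivity) x
  have h1 := hdom _ hvt
  rw [hT, abs_neg] at h1
  refine h1.trans (mul_le_mul_of_nonneg_left ?_ hCd)
  have h2 : Integrable (V.indicator fun _ => 4 * N * M ^ 2) μ := by
    rw [integrable_indicator_iff hV]
    exact integrableOn_const hVf
  calc _ ≤ ∫ x, V.indicator (fun _ => 4 * N * M ^ 2) x ∂μ :=
        integral_mono_of_nonneg (Eventually.of_forall fun x => f2_nonneg _) h2
          (Eventually.of_forall hbd)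
    _ = 4 * N * M ^ 2 * μ.real V := by
        rw [integral_indicator hV, setIntegral_const, smul_eq_mul]
        ring

end Vale.Agent.P247.H683
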