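import Vale.Agent.P247.H683.Slice

/-!
# P247, package CO: the slice estimate, main inequality
-/

open scoped ContDiff Topology
open Set MeasureTheory Filter Metric

noncomputable section

namespace Vale.Agent.P247.H683

open Vale.Agent.P247.H74 Vale.Agent.P247.H574

theorem integrable_sq' {H : ℝ × ℝ → ℝ} (hH : Integrable H) :
    Integrable fun z : ℂ => H (2 * z.re, 2 * z.im) := by
  have h2 := Complex.volume_preserving_equiv_real_prod.integrable_comp_emb
      Complex.measurableEquivRealProd.measurableEmbedding (g := H)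
  have h3 : Integrable fun w : ℂ => H (w.re, w.im) := h2.2 hH
  have h4 := h3.comp_smul (R := (2 : ℝ)) (by norm_num)
  refine h4.congr (Eventually.of_forall fun q => ?_)
  simp

/-- `z ↦ (2 re z, 2 im z)` -/
def Lc : ℂ →L[ℝ] ℝ × ℝ := ((2 : ℝ) • Complex.reCLM).prod ((2 : ℝ) • Complex.imCLM)

theorem Lc_ap (z : ℂ) : Lc z = (2 * z.re, 2 * z.im) := rfl

theorem nrm_Dc : ∃ N > 0, ∀ z w, |fderiv ℝ c2 z w| ≤ N * ‖w‖ := by
  have h1 : Continuous (fderiv ℝ c2) := c2.contDiff.continuous_fderiv (n := 1) (by simp)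
  obtain ⟨N, hN⟩ := (c2.hasCompactSupport.fderiv ℝ).exists_bound_of_continuous h1
  refine ⟨|N| + 1, by positivity, fun z w => ?_⟩
  refine ((fderiv ℝ c2 z).le_opNorm w).trans ?_
  refine mul_le_mul_of_nonneg_right ?_ (norm_nonneg _)
  linarith [hN z, le_abs_self N]

theorem pf_norm {D : Data} (b : Box D) {M : ℝ} (hM : 0 ≤ M)
    (lo : ∀ p ∈ PD 2, ∀ q ∈ PD 2, ‖p - q‖ ≤ M * ‖b.Θ p - b.Θ q‖) {f : ℂ × ℂ → ℝ}
    (hs : tsupport f ⊆ PD 2) (hf1 : ∀ p, |f p| ≤ 1) {V : Set R4} (hV : b.Θ '' tsupport f ⊆ V)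
    (x : R4) : ‖pf b f x‖ ≤ V.indicator (fun _ => 2 * M ^ 2) x := by
  by_cases hx : x ∈ b.Θ '' tsupport f
  · rw [indicator_of_mem (hV hx)]
    have hx2 : x ∈ b.Θ '' PD 2 := image_mono hs hx
    have hd := dinv_bound b hM lo hx2
    refine f2_norm_le (by positivity) fun u v => ?_
    rw [pf_ap, ext_on b f hx2, abs_mul]
    have h1 : ∀ u, ‖P1 b x u‖ ≤ M * ‖u‖ := fun u =>
      (norm_fst_le (fderiv ℝ (inv b) x u)).trans ((ContinuousLinearMap.le_opNorm _ _).trans
        (mul_le_mul_of_nonneg_right hd (norm_nonneg _)))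
    have h2 := fun u => (Complex.abs_re_le_norm (P1 b x u)).trans (h1 u)
    have h3 := fun u => (Complex.abs_im_le_norm (P1 b x u)).trans (h1 u)
    calc |f (inv b x)| * |(P1 b x u).re * (P1 b x v).im - (P1 b x u).im * (P1 b x v).re|
        ≤ 1 * (|(P1 b x u).re * (P1 b x v).im| + |(P1 b x u).im * (P1 b x v).re|) := by
          gcongr
          · exact hf1 _
          · exact abs_sub _ _
      _ = |(P1 b x u).re| * |(P1 b x v).im| + |(P1 b x u).im| * |(P1 b x v).re| := by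
          rw [abs_mul, abs_mul, one_mul]
      _ ≤ (M * ‖u‖) * (M * ‖v‖) + (M * ‖u‖) * (M * ‖v‖) := by
          gcongr
          · exact h2 u
          · exact h3 v
          · exact h3 u
          · exact h2 v
      _ = 2 * M ^ 2 * ‖u‖ * ‖v‖ := by ring
  · have h0 : pf b f x = 0 := by
      refine f2_ext fun u v => ?_
      rw [pf_ap, ext_K b hx]
      exact zero_mul _
    rw [h0, f2_norm_zero]
    exact indicator_nonneg (fun _ _ => by positivity) x

/-- the slice of `tp a c` -/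
theorem slice_tp (a c : ℂ → ℝ) (ν : Measure ℂ) (z : ℂ) :
    ∫ y, tp a c (z, y) ∂ν = a z * ∫ y, c y ∂ν := by
  simp only [tp]
  rw [integral_const_mul]

/-- the gradient of the slice function -/
theorem grad_slice {D : Data} {S : ICur D} {μ : Measure R4} {Cd : ℝ} (hCd : 0 ≤ Cd)
    (hdom : ∀ φ, CF φ → |S.T φ| ≤ Cd * ∫ x, ‖φ x‖ ∂μ) (b : Box D)
    {M : ℝ} (hM : 0 ≤ M) (lo : ∀ p ∈ PD 2, ∀ q ∈ PD 2, ‖p - q‖ ≤ M * ‖b.Θ p - b.Θ q‖)
    {V : Set R4} (hV : MeasurableSet V) (hVf : μ V ≠ ⊤) (hPV : b.Θ '' PD 1 ⊆ V)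
    {N : ℝ} (hN : 0 < N) (hNc : ∀ z w, |fderiv ℝ c2 z w| ≤ N * ‖w‖)
    {ν : ℂ → Measure ℂ}
    (hint : ∀ f : ℂ × ℂ → ℝ, Continuous f → HasCompactSupport f → tsupport f ⊆ PD 1 →
      IntegrableOn (fun z => ∫ y, f (z, y) ∂(ν z)) (ball 0 1) ∧
      ∀ φ, IsPush b f φ → S.T φ = ∫ z in ball (0 : ℂ) 1, ∫ y, f (z, y) ∂(ν z))
    {e : ℂ} (he : ‖e‖ ≤ 1) {e' : ℝ × ℝ} (hee : Lc e = (2 : ℝ) • e') :
    GradLe (fun q => ∫ y, tp c3 c2 ((⟨q.1 / 2, q.2 / 2⟩ : ℂ), y) ∂(ν ⟨q.1 / 2, q.2 / 2⟩)) e'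
      (2 * (Cd * (4 * N * M ^ 2 * μ.real V))) := by
  intro ψ hψ hψc hψs hψ1
  set φ : ℂ → ℝ := fun z => ψ (Lc z) with hφ
  have hφs : ContDiff ℝ ∞ φ := hψ.comp Lc.contDiff
  have hφ0 : ∀ z : ℂ, 3 / 4 ≤ ‖z‖ → φ =ᶠ[𝓝 z] fun _ => 0 := by
    intro z hz
    have h1 : Lc z ∉ tsupport ψ := by
      intro h
      have h2 := hψs h
      rw [Sq, mem_prod, Lc_ap] at h2
      have h3 : ‖z‖ ^ 2 < (3 / 4) ^ 2 := by
        rw [Complex.sq_norm, Complex.normSq_apply]
        have h4 := h2.1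
        have h5 := h2.2
        simp only [mem_Ioo] at h4 h5
        nlinarith [h4.1, h4.2, h5.1, h5.2]
      have := abs_lt_of_sq_lt_sq h3 (by norm_num)
      rw [abs_norm] at this
      linarith
    have h2 : ∀ᶠ q in 𝓝 (Lc z), ψ q = 0 := by
      filter_upwards [(isClosed_tsupport ψ).isOpen_compl.mem_nhds h1] with q hq
      exact image_eq_zero_of_notMem_tsupport hq
    exact Lc.continuous.continuousAt.eventually h2
  have hφd : ∀ z : ℂ, 3 / 4 ≤ ‖z‖ → fderiv ℝ φ z = 0 := fun z hz => by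
    rw [(hφ0 z hz).fderiv_eq]
    exact (hasFDerivAt_const _ _).fderiv
  have hφ00 : ∀ z : ℂ, 7 / 8 ≤ ‖z‖ → φ z = 0 := fun z hz =>
    (hφ0 z (by linarith)).self_of_nhds
  set G : ℂ × ℂ → ℝ := tp φ c2 with hG
  have hGs : ContDiff ℝ ∞ G := (hφs.comp contDiff_fst).mul (c2.contDiff.comp contDiff_snd)
  have hGd : ∀ p q : ℂ × ℂ, fderiv ℝ G p q = fderiv ℝ φ p.1 q.1 * c2 p.2 +
      φ p.1 * fderiv ℝ c2 p.2 q.2 := by
    intro p q
    have h1 : HasFDerivAt (fun p : ℂ × ℂ => φ p.1)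
        ((fderiv ℝ φ p.1).comp (ContinuousLinearMap.fst ℝ ℂ ℂ)) p :=
      ((hφs.differentiable (by simp)) p.1).hasFDerivAt.comp p hasFDerivAt_fst
    have h2 : HasFDerivAt (fun p : ℂ × ℂ => c2 p.2)
        ((fderiv ℝ c2 p.2).comp (ContinuousLinearMap.snd ℝ ℂ ℂ)) p :=
      (((c2.contDiff (n := 1)).differentiable (by simp)) p.2).hasFDerivAt.comp p hasFDerivAt_snd
    have h3 := h1.mul h2
    have h4 : fderiv ℝ G p = _ := h3.fderiv
    rw [h4]
    simp
    ring
  have hGc := tp_comp hφ00 c2_off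
  have hG1 : tsupport G ⊆ PD 1 := (tp_supp hφ00 c2_off).trans sub_PD1
  have hcb := closed_bound b hCd hdom hM lo hGs hGc (hG1.trans PD12) hN.le
    (fun p w => by
      rw [hGd]
      simp only [map_zero, zero_mul, zero_add]
      rw [abs_mul]
      calc |φ p.1| * |fderiv ℝ c2 p.2 w| ≤ 1 * (N * ‖w‖) := by
            gcongr
            · exact hψ1 _
            · exact hNc _ _
        _ = N * ‖w‖ := one_mul _) hV hVf ((image_mono hG1).trans hPV) e he
  set f : ℂ × ℂ → ℝ := fun p => fderiv ℝ G p (e, 0) with hf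
  have hftp : f = tp (fun z => fderiv ℝ φ z e) c2 := by
    funext p
    rw [hf]
    simp only [hGd, map_zero, mul_zero, add_zero, tp]
  have hfd0 : ∀ z : ℂ, 7 / 8 ≤ ‖z‖ → fderiv ℝ φ z e = 0 := fun z hz => by
    rw [hφd z (by linarith)]; rfl
  have hfc : Continuous f := (hGs.continuous_fderiv (by simp)).clm_apply continuous_const
  have hfcs : HasCompactSupport f := by rw [hftp]; exact tp_comp hfd0 c2_off
  have hfs : tsupport f ⊆ PD 1 := by rw [hftp]; exact (tp_supp hfd0 c2_off).trans sub_PD1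
  have hT := (hint f hfc hfcs hfs).2 _ (pf_push b hfc hfcs (hfs.trans PD12))
  rw [int_sq]
  have hTe : 4 * ∫ z : ℂ, (fun q : ℝ × ℝ => (∫ y, tp c3 c2 ((⟨q.1 / 2, q.2 / 2⟩ : ℂ), y)
      ∂(ν ⟨q.1 / 2, q.2 / 2⟩)) * fderiv ℝ ψ q e') (2 * z.re, 2 * z.im) = 2 * S.T (pf b f) := by
    rw [hT, setIntegral_eq_integral_of_forall_compl_eq_zero]
    · rw [← integral_const_mul, ← integral_const_mul]
      refine integral_congr_ae (Eventually.of_forall fun z => ?_)
      have hz : (⟨2 * z.re / 2, 2 * z.im / 2⟩ : ℂ) = z := by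
        apply Complex.ext <;> simp
      simp only [hz]
      have hd : fderiv ℝ φ z e = 2 * fderiv ℝ ψ (2 * z.re, 2 * z.im) e' := by
        have h1 : HasFDerivAt φ ((fderiv ℝ ψ (Lc z)).comp Lc) z :=
          ((hψ.differentiable (by simp)) (Lc z)).hasFDerivAt.comp z Lc.hasFDerivAt
        rw [h1.fderiv, ContinuousLinearMap.comp_apply, hee, map_smul, smul_eq_mul, Lc_ap]
      rw [hftp, slice_tp, slice_tp, hd]
      by_cases hz3 : ‖z‖ ≤ 3 / 4
      · rw [bump_on c3 hz3]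
        ring
      · have h0 : fderiv ℝ φ z e = 0 := by
          rw [hφd z (not_le.1 hz3).le]; rfl
        have h1 : fderiv ℝ ψ (2 * z.re, 2 * z.im) e' = 0 := by linarith
        rw [h1]
        ring
    · intro z hz
      rw [mem_ball_zero_iff, not_lt] at hz
      rw [hftp, slice_tp, hfd0 z (by linarith), zero_mul]
  rw [hTe, abs_mul, abs_two]
  exact mul_le_mul_of_nonneg_left hcb (by norm_num)

/-- the main inequality -/
theorem core {Cd : ℝ} (hCd : 0 ≤ Cd) : ∃ C₁ > 0, ∀ {D : Data} {S : ICur D} {μ : Measure R4}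
    (_ : ∀ φ, CF φ → |S.T φ| ≤ Cd * ∫ x, ‖φ x‖ ∂μ) (b : Box D)
    {M : ℝ} (_ : 0 ≤ M) (_ : ∀ p ∈ PD 2, ∀ q ∈ PD 2, ‖p - q‖ ≤ M * ‖b.Θ p - b.Θ q‖)
    {V : Set R4} (_ : MeasurableSet V) (_ : μ V ≠ ⊤) (_ : b.Θ '' PD 1 ⊆ V),
    S.T (pf b f2) ≤ (C₁ * (M ^ 2 * μ.real V)) ^ 2 := by
  obtain ⟨N, hN, hNc⟩ := nrm_Dc
  refine ⟨8 * Cd + 8 * Cd * N + 1, by positivity, fun {D} {S} {μ} hdom b {M} hM lo {V} hV hVf hPV => ?_⟩
  obtain ⟨ν, hν, hint⟩ := S.int b
  have hg1 := grad_slice hCd hdom b hM lo hV hVf hPV hN hNc hint (e := 1) (e' := (1, 0))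
    (by simp) (by rw [Lc_ap]; simp)
  have hg2 := grad_slice hCd hdom b hM lo hV hVf hPV hN hNc hint (e := Complex.I) (e' := (0, 1))
    (by simp) (by rw [Lc_ap]; simp)
  set F : ℂ → ℝ := fun z => ∫ y, tp c3 c2 (z, y) ∂(ν z) with hF
  have hfc : Continuous (tp c3 c2) := (c3.continuous.comp continuous_fst).mul
    (c2.continuous.comp continuous_snd)
  have hfcs : HasCompactSupport (tp c3 c2) := tp_comp c3_off c2_off
  have hfs : tsupport (tp c3 c2) ⊆ PD 1 := (tp_supp c3_off c2_off).trans sub_PD1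
  have hF0 : ∀ z ∉ ball (0 : ℂ) 1, F z = 0 := by
    intro z hz
    rw [mem_ball_zero_iff, not_lt] at hz
    rw [hF]
    simp only
    rw [slice_tp, c3_off z (by linarith), zero_mul]
  have hFnn : ∀ z, 0 ≤ F z := fun z => integral_nonneg fun y => mul_nonneg c3.nonneg c2.nonneg
  have hFint : Integrable F := by
    have h1 := (hint _ hfc hfcs hfs).1
    refine (integrableOn_iff_integrable_of_support_subset ?_).1 h1
    intro z hz
    by_contra h
    exact hz (hF0 z h)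
  have hFT : ∫ z, F z = S.T (pf b (tp c3 c2)) := by
    rw [(hint _ hfc hfcs hfs).2 _ (pf_push b hfc hfcs (hfs.trans PD12)),
      setIntegral_eq_integral_of_forall_compl_eq_zero hF0]
  have hFb : ∫ z, F z ≤ Cd * (2 * M ^ 2 * μ.real V) := by
    rw [hFT]
    refine (le_abs_self _).trans ((hdom _ (pf_cf b hfc hfcs (hfs.trans PD12))).trans ?_)
    refine mul_le_mul_of_nonneg_left ?_ hCd
    have h2 : Integrable (V.indicator fun _ => 2 * M ^ 2) μ := by
      rw [integrable_indicator_iff hV]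
      exact integrableOn_const hVf
    calc _ ≤ ∫ x, V.indicator (fun _ => 2 * M ^ 2) x ∂μ :=
          integral_mono_of_nonneg (Eventually.of_forall fun x => f2_nonneg _) h2
            (Eventually.of_forall (pf_norm b hM lo (hfs.trans PD12) (fun p => by
              rw [tp, abs_mul, abs_of_nonneg c3.nonneg, abs_of_nonneg c2.nonneg]
              exact mul_le_one₀ c3.le_one c2.nonneg c2.le_one) ((image_mono hfs).trans hPV)))
      _ = 2 * M ^ 2 * μ.real V := by
          rw [integral_indicator hV, setIntegral_const, smul_eq_mul]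
          ring
  set g : ℝ × ℝ → ℝ := fun q => F (⟨q.1 / 2, q.2 / 2⟩ : ℂ) with hg
  have hgint : Integrable g := integrable_sq hFint
  have hre : ∀ z : ℂ, (⟨2 * z.re / 2, 2 * z.im / 2⟩ : ℂ) = z := fun z => by
    apply Complex.ext <;> simp
  have hgab : ∫ q, |g q| = 4 * ∫ z, F z := by
    rw [int_sq]
    congr 1
    refine integral_congr_ae (Eventually.of_forall fun z => ?_)
    simp only [hg, hre]
    exact abs_of_nonneg (hFnn z)
  have hpl := planar hgint hg1 hg2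
  set B : ℝ := (∫ x, |g x|) + 2 * (Cd * (4 * N * M ^ 2 * μ.real V)) with hB
  have hmr : 0 ≤ μ.real V := measureReal_nonneg
  have hB0 : 0 ≤ B := by
    have : 0 ≤ ∫ x, |g x| := integral_nonneg fun _ => abs_nonneg _
    positivity
  have hB1 : B ≤ (8 * Cd + 8 * Cd * N + 1) * (M ^ 2 * μ.real V) := by
    rw [hB, hgab]
    have : 0 ≤ M ^ 2 * μ.real V := by positivity
    nlinarith
  -- square integrability
  have hmsq : MeasurableSet sq := measurableSet_Icc.prod measurableSet_Icc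
  have hgsm : AEStronglyMeasurable (fun q => g q ^ 2) (volume.restrict sq) :=
    (hgint.aestronglyMeasurable.pow 2).restrict
  have hg2i : IntegrableOn (fun q => g q ^ 2) sq := by
    refine ⟨hgsm, ?_⟩
    rw [hasFiniteIntegral_iff_ofReal (Eventually.of_forall fun q => sq_nonneg _)]
    exact hpl.trans_lt ENNReal.ofReal_lt_top
  have hg2b : ∫ q in sq, g q ^ 2 ≤ B ^ 2 := by
    rw [integral_eq_lintegral_of_nonneg_ae (Eventually.of_forall fun q => sq_nonneg _) hgsm]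
    exact ENNReal.toReal_le_of_le_ofReal (by positivity) hpl
  set H : ℝ × ℝ → ℝ := sq.indicator fun q => g q ^ 2 with hH
  have hHi : Integrable H := (integrable_indicator_iff hmsq).2 hg2i
  have hHb : ∫ q, H q ≤ B ^ 2 := by
    rw [hH, integral_indicator hmsq]
    exact hg2b
  have hHnn : ∀ q, 0 ≤ H q := fun q => indicator_nonneg (fun _ _ => sq_nonneg _) q
  have hHz := integrable_sq' hHi
  rw [int_sq] at hHb
  -- the slice function
  have hT2 := (hint _ f2_cont' f2_comp f2_supp)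
  have hT2' := hT2.2 _ (pf_push b f2_cont' f2_comp (f2_supp.trans PD12))
  rw [hT2']
  have hle : ∫ z in ball (0 : ℂ) 1, ∫ y, f2 (z, y) ∂(ν z) ≤
      ∫ z in ball (0 : ℂ) 1, H (2 * z.re, 2 * z.im) := by
    refine integral_mono_ae hT2.1 hHz.integrableOn ?_
    filter_upwards [hν] with z hz
    rw [f2, slice_tp]
    by_cases hz4 : ‖z‖ ≤ 1 / 4
    · have h1 : ((2 * z.re, 2 * z.im) : ℝ × ℝ) ∈ sq := by
        rw [sq, mem_prod]
        have h2 := abs_le.1 ((Complex.abs_re_le_norm z).trans hz4)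
        have h3 := abs_le.1 ((Complex.abs_im_le_norm z).trans hz4)
        constructor <;> constructor <;> simp only <;> linarith [h2.1, h2.2, h3.1, h3.2]
      rw [hH, indicator_of_mem h1]
      simp only [hg, hre, hF]
      rw [slice_tp, bump_on c3 (hz4.trans (by
        show (1 / 4 : ℝ) ≤ 3 / 4
        norm_num)), one_mul]
      have h5 := intM_sq hz (f := c1) (g := c2) (fun p => c1.le_one) (fun p => c2.nonneg) c12
        (fun p hp => bump_off c2 (by
          rw [mem_ball_zero_iff, not_lt] at hp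
          show (1 / 2 : ℝ) ≤ ‖p‖
          linarith))
      refine le_trans ?_ h5
      have h6 : 0 ≤ ∫ y, c1 y ∂(ν z) := integral_nonneg fun _ => c1.nonneg
      calc c1 z * ∫ y, c1 y ∂(ν z) ≤ 1 * ∫ y, c1 y ∂(ν z) :=
            mul_le_mul_of_nonneg_right c1.le_one h6
        _ = _ := one_mul _
    · rw [bump_off c1 (not_le.1 hz4).le, zero_mul]
      exact hHnn _
  have hle2 : ∫ z in ball (0 : ℂ) 1, H (2 * z.re, 2 * z.im) ≤
      ∫ z : ℂ, H (2 * z.re, 2 * z.im) :=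
    setIntegral_le_integral hHz (Eventually.of_forall fun z => hHnn _)
  have hHz0 : 0 ≤ ∫ z : ℂ, H (2 * z.re, 2 * z.im) := integral_nonneg fun z => hHnn _
  calc _ ≤ ∫ z : ℂ, H (2 * z.re, 2 * z.im) := hle.trans hle2
    _ ≤ B ^ 2 := by linarith
    _ ≤ _ := pow_le_pow_left₀ hB0 hB1 2

end Vale.Agent.P247.H683
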