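import Vale.Agent.P247.H683.Inst
import Vale.Agent.P247.H74.K2A.K2A

/-!
# P247, package CO: positivity and domination for integral currents
-/

open scoped ContDiff Topology
open Set MeasureTheory Filter Metric

noncomputable section

namespace Vale.Agent.P247.H683

open Vale.Agent.P247.H74 Vale.Agent.P247.H574

theorem cf_add {φ ψ : R4 → F2} (h : CF φ) (h' : CF ψ) : CF (φ + ψ) where
  cont := cont_add h.cont h'.cont
  supp := supp_add h.supp h'.supp
  alt := fun x u => by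
    show (φ x + ψ x) u u = 0
    rw [add_ap, h.alt, h'.alt, add_zero]

theorem cf_smul (c : ℝ) {φ : R4 → F2} (h : CF φ) : CF (c • φ) where
  cont := cont_csmul c h.cont
  supp := supp_csmul c h.supp
  alt := fun x u => by
    show (c • φ x) u u = 0
    rw [smul_ap, h.alt, mul_zero]

theorem cf_mul {f : R4 → ℝ} (hf : Continuous f) (hc : HasCompactSupport f) {φ : R4 → F2}
    (hφ : Continuous φ) (ha : ∀ x u, φ x u u = 0) : CF fun x => f x • φ x where
  cont := cont_smul hf hφ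
  supp := supp_smul hc
  alt := fun x u => by rw [smul_ap, ha, mul_zero]

theorem cf2_apply (a : CForm) (x u v : R4) : cf2 a x u v = a.val x u v := by
  show a.κ u v + (fderiv ℝ a.lam x u v - fderiv ℝ a.lam x v u) = _
  rw [CForm.val]
  ring

theorem cf2_cont (a : CForm) : Continuous (cf2 a) := by
  have h1 : Continuous (fderiv ℝ a.lam) := a.lam_smooth.continuous_fderiv (by simp)
  refine f2_cont fun u v => ?_
  simp only [cf2_apply, CForm.val]
  exact (continuous_const.add (ap_cont h1 u v)).sub (ap_cont h1 v u)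

theorem cf2_self (a : CForm) (x u : R4) : cf2 a x u u = 0 := by
  rw [cf2_apply]
  simp [CForm.val, a.κ_self]

variable {D : Data} (S : ICur D)

theorem T_zero : S.T 0 = 0 := by
  have h : CF (0 : R4 → F2) := ⟨continuous_zero, HasCompactSupport.zero, fun x u => rfl⟩
  have h1 := S.smul 0 0 h
  have h2 : (0 : ℝ) • (0 : R4 → F2) = 0 := by
    funext x
    exact f2_ext fun u v => zero_mul _
  rw [h2, zero_mul] at h1
  exact h1

theorem T_mono {φ ψ : R4 → F2} (h : CF φ) (h' : CF ψ)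
    (hle : ∀ x u, φ x u (D.J x u) ≤ ψ x u (D.J x u)) : S.T φ ≤ S.T ψ := by
  have h1 := cf_smul (-1) h
  have := S.pos (ψ + (-1 : ℝ) • φ) (cf_add h' h1) fun x u => by
    show 0 ≤ (ψ x + (-1 : ℝ) • φ x) u (D.J x u)
    rw [add_ap, smul_ap]
    linarith [hle x u]
  rw [S.add _ _ h' h1, S.smul _ _ h] at this
  linarith

/-- domination by the mass measure -/
theorem dom (D : Data) : ∃ C > 0, ∀ (S : ICur D) (μ : Measure R4), IsMass S μ →
    ∀ φ, CF φ → |S.T φ| ≤ C * ∫ x, ‖φ x‖ ∂μ := by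
  obtain ⟨c, hc, hct⟩ := K2A.tame_bound D
  obtain ⟨B, hB1, hB⟩ := K2H.exists_bound D
  have hB0 : 0 < B := by linarith
  refine ⟨B / c, by positivity, fun S μ hμ φ hφ => ?_⟩
  have hn : Continuous fun x => ‖φ x‖ := norm_cont hφ.cont
  have hnc : HasCompactSupport fun x => ‖φ x‖ := supp_norm hφ.supp
  have hF : CF fun x => ‖φ x‖ • cf2 D.om x := cf_mul hn hnc (cf2_cont D.om) (cf2_self D.om)
  have hT : S.T (fun x => ‖φ x‖ • cf2 D.om x) = ∫ x, ‖φ x‖ ∂μ := hμ.2 _ hn hnc
  have hF' : CF ((B / c) • fun x => ‖φ x‖ • cf2 D.om x) := cf_smul _ hF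
  have hT' : S.T ((B / c) • fun x => ‖φ x‖ • cf2 D.om x) = B / c * ∫ x, ‖φ x‖ ∂μ := by
    rw [S.smul _ _ hF, hT]
  have key : ∀ x u, |φ x u (D.J x u)| ≤
      ((B / c) • fun x => ‖φ x‖ • cf2 D.om x) x u (D.J x u) := by
    intro x u
    have h1 : |φ x u (D.J x u)| ≤ ‖φ x‖ * (B * ‖u‖ ^ 2) := by
      rw [← Real.norm_eq_abs]
      refine ((φ x).le_opNorm₂ u (D.J x u)).trans ?_
      have h2 : ‖D.J x u‖ ≤ B * ‖u‖ := ((D.J x).le_opNorm u).trans
        (mul_le_mul_of_nonneg_right (hB x).1 (norm_nonneg _))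
      calc ‖φ x‖ * ‖u‖ * ‖D.J x u‖ ≤ ‖φ x‖ * ‖u‖ * (B * ‖u‖) :=
            mul_le_mul_of_nonneg_left h2 (by positivity)
        _ = ‖φ x‖ * (B * ‖u‖ ^ 2) := by ring
    refine h1.trans ?_
    show _ ≤ ((B / c) • (‖φ x‖ • cf2 D.om x)) u (D.J x u)
    rw [smul_ap, smul_ap, cf2_apply]
    have h3 := hct x u
    have h4 : B * ‖u‖ ^ 2 ≤ B / c * D.om.val x u (D.J x u) := by
      rw [div_mul_eq_mul_div, le_div_iff₀ hc]
      nlinarith
    calc ‖φ x‖ * (B * ‖u‖ ^ 2) ≤ ‖φ x‖ * (B / c * D.om.val x u (D.J x u)) :=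
          mul_le_mul_of_nonneg_left h4 (f2_nonneg _)
      _ = B / c * (‖φ x‖ * D.om.val x u (D.J x u)) := by ring
  rw [abs_le]
  constructor
  · have h1 := T_mono S (cf_smul (-1) hF') hφ fun x u => by
      have := (abs_le.1 (key x u)).1
      show ((-1 : ℝ) • ((B / c) • fun x => ‖φ x‖ • cf2 D.om x) x) u (D.J x u) ≤ _
      rw [smul_ap]
      linarith
    rw [S.smul _ _ hF', hT'] at h1
    linarith
  · have h1 := T_mono S hφ hF' fun x u => (le_abs_self _).trans (key x u)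
    rwa [hT'] at h1

/-- points of the support have positive mass -/
theorem mass_pos {S : ICur D} {μ : Measure R4} (hμ : IsMass S μ) {x : R4} (hx : x ∈ S.supp)
    {ε : ℝ} (hε : 0 < ε) : 0 < μ (ball x ε) := by
  obtain ⟨C, hC, h⟩ := dom D
  obtain ⟨φ, hφ, hs, hT⟩ := hx ε hε
  rw [pos_iff_ne_zero]
  intro h0
  apply hT
  have h1 := h S μ hμ φ hφ
  have h2 : ∫ x, ‖φ x‖ ∂μ = 0 := by
    rw [← setIntegral_eq_integral_of_forall_compl_eq_zero (s := ball x ε)
      (fun y hy => by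
        have : y ∉ tsupport φ := fun h => hy (hs h)
        rw [image_eq_zero_of_notMem_tsupport this]
        exact f2_norm_zero)]
    exact setIntegral_measure_zero _ h0
  rw [h2, mul_zero] at h1
  exact abs_eq_zero.1 (le_antisymm h1 (abs_nonneg _))

end Vale.Agent.P247.H683
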