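import Mathlib

/-!
# P247, package CO: the density lemma
-/

open scoped ContDiff Topology ENNReal
open Set MeasureTheory Filter Metric

noncomputable section

namespace Vale.Agent.P247.H683

/-- Fubini form of the covering argument -/
theorem cover {μ : Measure (Fin 4 → ℝ)} [IsLocallyFiniteMeasure μ] (x : Fin 4 → ℝ) {ρ r : ℝ}
    (hr : 0 < r) (hρ : r ≤ ρ / 4) {B : ℝ} (hB : 0 ≤ B)
    (h : ∀ y ∈ ball x (ρ / 2), μ (ball y r) ≤ ENNReal.ofReal B) :
    μ (ball x (ρ / 4)) ≤ ENNReal.ofReal (ρ ^ 4 * B / (2 * r) ^ 4) := by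
  have hρ0 : 0 < ρ := by linarith
  set E : Set ((Fin 4 → ℝ) × (Fin 4 → ℝ)) := {p | dist p.1 x < ρ / 4 ∧ dist p.2 p.1 < r} with hE
  have hEm : MeasurableSet E := by
    have h1 : IsOpen E := (isOpen_lt (continuous_fst.dist continuous_const) continuous_const).inter
      (isOpen_lt (continuous_snd.dist continuous_fst) continuous_const)
    exact h1.measurableSet
  have h1 : (μ.prod volume) E = ∫⁻ z, volume (Prod.mk z ⁻¹' E) ∂μ := Measure.prod_apply hEm
  have h2 : (μ.prod volume) E = ∫⁻ y, μ ((fun z => (z, y)) ⁻¹' E) ∂volume :=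
    Measure.prod_apply_symm hEm
  have hv : ∀ z : Fin 4 → ℝ, volume (ball z r) = ENNReal.ofReal ((2 * r) ^ 4) := fun z => by
    rw [Real.volume_pi_ball z hr, Fintype.card_fin]
  have h3 : ENNReal.ofReal ((2 * r) ^ 4) * μ (ball x (ρ / 4)) ≤ (μ.prod volume) E := by
    rw [h1, ← setLIntegral_const]
    refine le_trans (setLIntegral_mono' measurableSet_ball fun z hz => ?_)
      (setLIntegral_le_lintegral (ball x (ρ / 4)) _)
    rw [← hv z]
    refine measure_mono fun y hy => ?_
    exact ⟨hz, hy⟩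
  have h4 : (μ.prod volume) E ≤ ENNReal.ofReal B * ENNReal.ofReal (ρ ^ 4) := by
    rw [h2]
    have h5 : volume (ball x (ρ / 2)) = ENNReal.ofReal (ρ ^ 4) := by
      rw [Real.volume_pi_ball x (by positivity), Fintype.card_fin]
      congr 1
      ring
    rw [← h5, ← setLIntegral_const, ← lintegral_indicator measurableSet_ball]
    refine lintegral_mono fun y => ?_
    by_cases hy : y ∈ ball x (ρ / 2)
    · rw [indicator_of_mem hy]
      refine le_trans (measure_mono fun z hz => ?_) (h y hy)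
      rw [mem_ball, dist_comm]
      exact hz.2
    · rw [indicator_of_notMem hy]
      have : (fun z => (z, y)) ⁻¹' E = ∅ := by
        rw [eq_empty_iff_forall_notMem]
        rintro z ⟨hz1, hz2⟩
        apply hy
        rw [mem_ball]
        have := dist_triangle y z x
        simp only at hz1 hz2
        linarith
      rw [this, measure_empty]
  have h6 := h3.trans h4
  rw [← ENNReal.ofReal_mul hB] at h6
  have h7 : (0 : ℝ) < (2 * r) ^ 4 := by positivity
  rw [ENNReal.ofReal_div_of_pos h7, ENNReal.le_div_iff_mul_le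
    (Or.inl (by simpa using h7)) (Or.inl ENNReal.ofReal_ne_top), mul_comm]
  rwa [mul_comm (ρ ^ 4) B]

theorem density {μ : Measure (Fin 4 → ℝ)} [IsLocallyFiniteMeasure μ] {κ C ρ₀ : ℝ} (hκ : 1 < κ)
    (hC : 0 < C)
    (h : ∀ x ρ, 0 < ρ → ρ ≤ ρ₀ → ρ ^ 2 * μ.real (ball x (ρ / κ)) ≤ C * μ.real (ball x ρ) ^ 2)
    (x : Fin 4 → ℝ) {ρ : ℝ} (hρ : 0 < ρ) (hρρ : ρ ≤ ρ₀)
    (hd : μ.real (ball x ρ) < 1 / (8 * C * κ ^ 4) * ρ ^ 2) : μ (ball x (ρ / 4)) = 0 := by
  have hκ0 : 0 < κ := by linarith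
  set c : ℝ := 1 / (8 * C * κ ^ 4) with hc
  have hc0 : 0 < c := by positivity
  set η : ℝ := 1 / (2 * κ ^ 2) with hη
  have hη0 : 0 < η := by positivity
  have hη1 : η ≤ 1 := by
    rw [hη, div_le_one (by positivity)]
    nlinarith
  set r : ℕ → ℝ := fun k => ρ / 2 / κ ^ k with hr
  have hr0 : ∀ k, 0 < r k := fun k => by positivity
  have hrρ : ∀ k, r k ≤ ρ / 2 := fun k =>
    div_le_self (by positivity) (one_le_pow₀ hκ.le)
  have hfin : ∀ y s, μ (ball y s) ≠ ⊤ := fun y s => measure_ball_lt_top.ne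
  have key : ∀ k, ∀ y ∈ ball x (ρ / 2), μ.real (ball y (r k)) ≤ 4 * c * η ^ k * r k ^ 2 := by
    intro k
    induction k with
    | zero =>
      intro y hy
      have h1 : ball y (r 0) ⊆ ball x ρ := by
        refine ball_subset_ball' ?_
        have : r 0 = ρ / 2 := by simp [hr]
        rw [this]
        rw [mem_ball] at hy
        linarith
      refine (measureReal_mono h1 (hfin _ _)).trans (hd.le.trans ?_)
      simp only [hr, pow_zero, mul_one, div_one]
      linarith
    | succ k ih =>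
      intro y hy
      have h1 := h y (r k) (hr0 k) ((hrρ k).trans (by linarith))
      have h2 : r k / κ = r (k + 1) := by
        simp only [hr, pow_succ]
        field_simp
      have h2' : r k = κ * r (k + 1) := by
        rw [← h2]; field_simp
      rw [h2] at h1
      have h3 := ih y hy
      have h4 : μ.real (ball y (r k)) ^ 2 ≤ (4 * c * η ^ k * r k ^ 2) ^ 2 :=
        pow_le_pow_left₀ measureReal_nonneg h3 2
      have h5 : r k ^ 2 * μ.real (ball y (r (k + 1))) ≤
          r k ^ 2 * (C * (4 * c * η ^ k) ^ 2 * r k ^ 2) := by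
        calc _ ≤ C * (4 * c * η ^ k * r k ^ 2) ^ 2 := h1.trans (mul_le_mul_of_nonneg_left h4 hC.le)
          _ = _ := by ring
      have h6 := le_of_mul_le_mul_left h5 (by have := hr0 k; positivity)
      refine h6.trans ?_
      rw [h2']
      have h7 : η ^ k ≤ 1 := pow_le_one₀ hη0.le hη1
      have h8 : C * (4 * c) * κ ^ 2 = η := by
        rw [hc, hη]; field_simp; ring
      calc C * (4 * c * η ^ k) ^ 2 * (κ * r (k + 1)) ^ 2 =
            (C * (4 * c) * κ ^ 2) * (4 * c * η ^ k * r (k + 1) ^ 2) * η ^ k := by ring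
        _ ≤ (C * (4 * c) * κ ^ 2) * (4 * c * η ^ k * r (k + 1) ^ 2) * 1 := by
            refine mul_le_mul_of_nonneg_left h7 ?_
            positivity
        _ = 4 * c * η ^ (k + 1) * r (k + 1) ^ 2 := by rw [h8]; ring
  have hev : ∀ᶠ k : ℕ in atTop, μ (ball x (ρ / 4)) ≤ ENNReal.ofReal (c * ρ ^ 2 * (1 / 2) ^ k) := by
    have h1 : ∀ᶠ k : ℕ in atTop, 2 ≤ κ ^ k :=
      (tendsto_pow_atTop_atTop_of_one_lt hκ).eventually_ge_atTop 2
    filter_upwards [h1] with k hk
    have h2 : r k ≤ ρ / 4 := by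
      have : ρ / 2 / κ ^ k ≤ ρ / 2 / 2 := div_le_div_of_nonneg_left (by positivity) (by norm_num) hk
      simp only [hr]
      linarith
    have hB : 0 ≤ 4 * c * η ^ k * r k ^ 2 := by positivity
    refine (cover x (hr0 k) h2 hB fun y hy => ?_).trans (le_of_eq ?_)
    · rw [← ENNReal.ofReal_toReal (hfin y (r k))]
      exact ENNReal.ofReal_le_ofReal (key k y hy)
    · congr 1
      have h3 : η ^ k = (1 / 2) ^ k / (κ ^ k) ^ 2 := by
        rw [hη, ← pow_mul, mul_comm k 2, pow_mul, ← div_pow]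
        congr 1
        field_simp
      rw [h3]
      simp only [hr]
      have : κ ^ k ≠ 0 := by positivity
      field_simp
      ring
  have hlim : Tendsto (fun k : ℕ => ENNReal.ofReal (c * ρ ^ 2 * (1 / 2) ^ k)) atTop (𝓝 0) := by
    have h1 : Tendsto (fun k : ℕ => c * ρ ^ 2 * (1 / 2 : ℝ) ^ k) atTop (𝓝 (c * ρ ^ 2 * 0)) :=
      (tendsto_pow_atTop_nhds_zero_of_lt_one (by norm_num) (by norm_num)).const_mul _
    have h2 := ENNReal.tendsto_ofReal h1
    simpa using h2
  exact le_antisymm (ge_of_tendsto hlim hev) bot_le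

end Vale.Agent.P247.H683
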