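import Vale.Agent.P247.H683.Mass
import Vale.Agent.P247.H575.BXA
import Vale.Agent.P247.H743.JD

/-!
# P247, package CO: unconditional form
-/

open scoped ContDiff Topology
open Set MeasureTheory Filter Metric

noncomputable section

namespace Vale.Agent.P247.H683

open Vale.Agent.P247.H74 Vale.Agent.P247.H574

theorem BXS (hJD : JD_statement) : BXS_statement := by
  intro D K δ hK hδ
  obtain ⟨C, hC, h⟩ := H575.BXA hJD D K hK
  obtain ⟨ε₀, hε₀, h⟩ := h δ hδ
  refine ⟨C, hC, ε₀, hε₀, fun ε hε hle x₀ v w hv hw hvw => ?_⟩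
  obtain ⟨Ξ, hΞ, hb⟩ := h ε hε hle x₀ v w hv hw hvw
  exact ⟨Ξ, hΞ.smooth, hΞ.close, hb⟩

/-- `CO`, unconditionally -/
theorem CO_thm : CO_statement := CO (BXS H743.JD)

end Vale.Agent.P247.H683
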