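import Vale.Agent.P247.H574.Sta2

/-!
# P247, package CO: topological facts on bilinear forms
-/

open scoped ContDiff Topology
open Set MeasureTheory Filter Metric

noncomputable section

namespace Vale.Agent.P247.H683

open Vale.Agent.P247.H74 Vale.Agent.P247.H574

theorem f2_add : ContinuousAdd F2 :=
  (ContinuousLinearMap.topologicalAddGroup (F := R4 →L[ℝ] ℝ) (E := R4)
    (σ := RingHom.id ℝ)).toContinuousAdd

theorem f2_sub : ContinuousSub F2 := by
  have h := (ContinuousLinearMap.topologicalAddGroup (F := R4 →L[ℝ] ℝ) (E := R4)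
    (σ := RingHom.id ℝ))
  exact @IsTopologicalAddGroup.to_continuousSub F2 _ _ h

theorem f2_smul : ContinuousSMul ℝ F2 :=
  ContinuousLinearMap.continuousSMul

theorem cont_add {φ ψ : R4 → F2} (h : Continuous φ) (h' : Continuous ψ) : Continuous (φ + ψ) := by
  have := f2_add
  exact h.add h'

theorem cont_sub {φ ψ : R4 → F2} (h : Continuous φ) (h' : Continuous ψ) : Continuous (φ - ψ) := by
  have := f2_sub
  exact h.sub h'

theorem cont_smul {φ : R4 → F2} {c : R4 → ℝ} (hc : Continuous c) (h : Continuous φ) :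
    Continuous (fun x => c x • φ x) := by
  have := f2_smul
  exact hc.smul h

theorem cont_csmul {φ : R4 → F2} (c : ℝ) (h : Continuous φ) : Continuous (c • φ) :=
  cont_smul continuous_const h

@[simp] theorem add_ap (a b : F2) (u v : R4) : (a + b) u v = a u v + b u v := rfl
@[simp] theorem sub_ap (a b : F2) (u v : R4) : (a - b) u v = a u v - b u v := rfl
@[simp] theorem smul_ap (c : ℝ) (a : F2) (u v : R4) : (c • a) u v = c * a u v := rfl

theorem f2_ext {a b : F2} (h : ∀ u v, a u v = b u v) : a = b :=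
  ContinuousLinearMap.ext fun u => ContinuousLinearMap.ext fun v => h u v

theorem supp_add {φ ψ : R4 → F2} (h : HasCompactSupport φ) (h' : HasCompactSupport ψ) :
    HasCompactSupport (φ + ψ) := by
  refine HasCompactSupport.intro (h.isCompact.union h'.isCompact) fun x hx => ?_
  rw [mem_union, not_or] at hx
  refine f2_ext fun u v => ?_
  show (φ x + ψ x) u v = 0
  rw [add_ap, image_eq_zero_of_notMem_tsupport hx.1, image_eq_zero_of_notMem_tsupport hx.2]
  exact add_zero _

theorem supp_smul {φ : R4 → F2} {c : R4 → ℝ} (hc : HasCompactSupport c) :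
    HasCompactSupport (fun x => c x • φ x) := by
  refine HasCompactSupport.intro hc.isCompact fun x hx => ?_
  refine f2_ext fun u v => ?_
  rw [smul_ap, image_eq_zero_of_notMem_tsupport hx]
  exact zero_mul _

theorem supp_csmul {φ : R4 → F2} (c : ℝ) (h : HasCompactSupport φ) :
    HasCompactSupport (c • φ) := by
  refine HasCompactSupport.intro h.isCompact fun x hx => ?_
  refine f2_ext fun u v => ?_
  show (c • φ x) u v = 0
  rw [smul_ap, image_eq_zero_of_notMem_tsupport hx]
  exact mul_zero _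

/-- `a ∧ b` -/
def wd (a b : R4 →L[ℝ] ℝ) : F2 := a.smulRight b - b.smulRight a

@[simp] theorem wd_ap (a b : R4 →L[ℝ] ℝ) (u v : R4) : wd a b u v = a u * b v - b u * a v := rfl

theorem wd_norm (a b : R4 →L[ℝ] ℝ) : ‖wd a b‖ ≤ 2 * ‖a‖ * ‖b‖ := by
  refine ContinuousLinearMap.opNorm_le_bound _ (by positivity) fun u => ?_
  refine ContinuousLinearMap.opNorm_le_bound _ (by positivity) fun v => ?_
  rw [wd_ap, Real.norm_eq_abs]
  have h1 := a.le_opNorm u
  have h2 := b.le_opNorm v
  have h3 := b.le_opNorm u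
  have h4 := a.le_opNorm v
  have h5 : ‖a u‖ * ‖b v‖ ≤ ‖a‖ * ‖u‖ * (‖b‖ * ‖v‖) := by gcongr
  have h6 : ‖b u‖ * ‖a v‖ ≤ ‖b‖ * ‖u‖ * (‖a‖ * ‖v‖) := by gcongr
  calc |a u * b v - b u * a v| ≤ |a u * b v| + |b u * a v| := abs_sub _ _
    _ = ‖a u‖ * ‖b v‖ + ‖b u‖ * ‖a v‖ := by rw [abs_mul, abs_mul]; rfl
    _ ≤ 2 * ‖a‖ * ‖b‖ * ‖u‖ * ‖v‖ := by nlinarith

theorem f2_contOn {φ : R4 → F2} {s : Set R4} (h : ∀ u v, ContinuousOn (fun x => φ x u v) s) :
    ContinuousOn φ s :=
  continuousOn_clm_apply.2 fun u => continuousOn_clm_apply.2 fun v => h u v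

theorem f2_cont {φ : R4 → F2} (h : ∀ u v, Continuous (fun x => φ x u v)) :
    Continuous φ :=
  continuous_clm_apply.2 fun u => continuous_clm_apply.2 fun v => h u v

theorem ap_contOn {φ : R4 → F2} {s : Set R4} (h : ContinuousOn φ s) (u v : R4) :
    ContinuousOn (fun x => φ x u v) s :=
  continuousOn_clm_apply.1 (continuousOn_clm_apply.1 h u) v

theorem ap_cont {φ : R4 → F2} (h : Continuous φ) (u v : R4) :
    Continuous (fun x => φ x u v) :=
  continuous_clm_apply.1 (continuous_clm_apply.1 h u) v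

theorem wd_cont {a b : R4 → R4 →L[ℝ] ℝ} {s : Set R4} (ha : ContinuousOn a s)
    (hb : ContinuousOn b s) : ContinuousOn (fun x => wd (a x) (b x)) s := by
  refine f2_contOn fun u v => ?_
  simp only [wd_ap]
  have h1 := fun u => continuousOn_clm_apply.1 ha u
  have h2 := fun u => continuousOn_clm_apply.1 hb u
  exact ((h1 u).mul (h2 v)).sub ((h2 u).mul (h1 v))

theorem f2_norm : Continuous (fun a : F2 => ‖a‖) := by
  have h := @continuous_norm F2 ContinuousLinearMap.toSeminormedAddCommGroup.toSeminormedAddGroup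
  exact h

theorem f2_norm_zero : ‖(0 : F2)‖ = 0 := by
  have h := @norm_zero F2 ContinuousLinearMap.toSeminormedAddCommGroup.toSeminormedAddGroup
  exact h

theorem f2_nonneg (a : F2) : 0 ≤ ‖a‖ := by
  have h := @norm_nonneg F2 ContinuousLinearMap.toSeminormedAddCommGroup.toSeminormedAddGroup a
  exact h

theorem f2_bound (a : F2) (u v : R4) : |a u v| ≤ ‖a‖ * ‖u‖ * ‖v‖ := a.le_opNorm₂ u v

theorem f2_norm_le {a : F2} {C : ℝ} (hC : 0 ≤ C) (h : ∀ u v, |a u v| ≤ C * ‖u‖ * ‖v‖) :
    ‖a‖ ≤ C := by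
  refine ContinuousLinearMap.opNorm_le_bound _ hC fun u => ?_
  exact ContinuousLinearMap.opNorm_le_bound _ (by positivity) fun v => h u v

theorem norm_cont {φ : R4 → F2} (h : Continuous φ) : Continuous (fun x => ‖φ x‖) :=
  f2_norm.comp h

theorem supp_norm {φ : R4 → F2} (h : HasCompactSupport φ) :
    HasCompactSupport (fun x => ‖φ x‖) := by
  refine HasCompactSupport.intro h.isCompact fun x hx => ?_
  rw [image_eq_zero_of_notMem_tsupport hx]
  exact f2_norm_zero

end Vale.Agent.P247.H683
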