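import Vale.Agent.P247.H683.Two
import Vale.Agent.P247.H683.Dens

/-!
# P247, package CO: the mass inequality and the density bound
-/

open scoped ContDiff Topology
open Set MeasureTheory Filter Metric

noncomputable section

namespace Vale.Agent.P247.H683

open Vale.Agent.P247.H74 Vale.Agent.P247.H574

theorem om_up (D : Data) : ∃ B > 0, ∀ x u, D.om.val x u (D.J x u) ≤ B * ‖u‖ ^ 2 := by
  obtain ⟨B₂, hB21, hB2⟩ := K2H.exists_bound D
  obtain ⟨B₁, hB1⟩ := K2H.bdd_of_per (g := fun x => ‖cf2 D.om x‖) (norm_cont (cf2_cont D.om))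
    (fun n x => by
      have : cf2 D.om (fun i => x i + n i) = cf2 D.om x := f2_ext fun u v => by
        rw [cf2_apply, cf2_apply, H447.val_per]
      rw [this])
  have hB10 : 0 ≤ B₁ := (norm_nonneg _).trans (hB1 0)
  refine ⟨B₁ * B₂ + 1, by positivity, fun x u => ?_⟩
  rw [← cf2_apply]
  refine (le_abs_self _).trans ((f2_bound _ _ _).trans ?_)
  have h1 : ‖cf2 D.om x‖ ≤ B₁ := (le_abs_self _).trans (hB1 x)
  have h2 : ‖D.J x u‖ ≤ B₂ * ‖u‖ := ((D.J x).le_opNorm u).trans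
    (mul_le_mul_of_nonneg_right (hB2 x).1 (norm_nonneg _))
  calc ‖cf2 D.om x‖ * ‖u‖ * ‖D.J x u‖ ≤ B₁ * ‖u‖ * (B₂ * ‖u‖) := by gcongr
    _ ≤ (B₁ * B₂ + 1) * ‖u‖ ^ 2 := by nlinarith [sq_nonneg ‖u‖]

/-- a cut-off function: `1` on `ball x (r / 2)`, `0` off `ball x r` -/
def cut (x₀ : R4) (r : ℝ) (x : R4) : ℝ := max 0 (min 1 (2 - 2 * dist x x₀ / r))

theorem cut_cont (x₀ : R4) (r : ℝ) : Continuous (cut x₀ r) :=
  continuous_const.max (continuous_const.min (continuous_const.sub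
    ((continuous_const.mul (continuous_id.dist continuous_const)).div_const _)))

theorem cut_nn (x₀ : R4) (r : ℝ) (x : R4) : 0 ≤ cut x₀ r x := le_max_left _ _

theorem cut_le (x₀ : R4) (r : ℝ) (x : R4) : cut x₀ r x ≤ 1 :=
  max_le zero_le_one (min_le_left _ _)

theorem cut_one {x₀ : R4} {r : ℝ} (hr : 0 < r) {x : R4} (hx : x ∈ ball x₀ (r / 2)) :
    cut x₀ r x = 1 := by
  rw [mem_ball] at hx
  have h1 : 2 * dist x x₀ / r ≤ 1 := by
    rw [div_le_one hr]; linarith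
  rw [cut, min_eq_left (by linarith), max_eq_right zero_le_one]

theorem cut_zero {x₀ : R4} {r : ℝ} (hr : 0 < r) {x : R4} (hx : x ∉ ball x₀ r) :
    cut x₀ r x = 0 := by
  rw [mem_ball, not_lt] at hx
  have h1 : 2 ≤ 2 * dist x x₀ / r := by
    rw [le_div_iff₀ hr]; linarith
  rw [cut]
  exact max_eq_left ((min_le_right _ _).trans (by linarith))

theorem cut_comp {x₀ : R4} {r : ℝ} (hr : 0 < r) : HasCompactSupport (cut x₀ r) :=
  HasCompactSupport.intro (isCompact_closedBall x₀ r) fun _ hx =>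
    cut_zero hr fun h => hx (ball_subset_closedBall h)

theorem ball8 : ball (0 : ℂ × ℂ) (1 / 8) ⊆ PD 2 := by
  intro p hp
  rw [mem_ball_zero_iff] at hp
  refine ⟨?_, ?_⟩
  · rw [mem_ball_zero_iff]; linarith [norm_fst_le p]
  · rw [mem_ball_zero_iff]; linarith [norm_snd_le p]

theorem mass_ineq (hBX : BXS_statement) (D : Data) : ∃ κ > 1, ∃ C > 0, ∃ ρ₀ > 0,
    ∀ (S : ICur D) (μ : Measure R4), IsMass S μ → ∀ (x₀ : R4) (ρ : ℝ), 0 < ρ → ρ ≤ ρ₀ →
      ρ ^ 2 * μ.real (ball x₀ (ρ / κ)) ≤ C * μ.real (ball x₀ ρ) ^ 2 := by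
  obtain ⟨c, hc, ε₀, hε₀, hp⟩ := pairs hBX D
  obtain ⟨Cd, hCd, hdom⟩ := dom D
  obtain ⟨C₁, hC₁, hcore⟩ := core hCd.le
  obtain ⟨B, hB, hom⟩ := om_up D
  obtain ⟨ct, hct, hct'⟩ := K2A.tame_bound D
  refine ⟨16 * c ^ 2 + 1, by nlinarith [sq_nonneg c, pow_pos hc 2], 12 * B * C₁ ^ 2 * c ^ 8,
    by positivity, c * ε₀, by positivity, fun S μ hμ x₀ ρ hρ hρρ => ?_⟩
  set ε : ℝ := ρ / c with hεd
  have hε : 0 < ε := by positivity
  have hρε : ρ = c * ε := by rw [hεd]; field_simp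
  have hεε : ε ≤ ε₀ := by
    rw [hεd, div_le_iff₀ hc]; linarith
  obtain ⟨b, b', P⟩ := hp ε hε hεε x₀
  have hlf : IsLocallyFiniteMeasure μ := hμ.1
  have hM : 0 < c / ε := by positivity
  set V : Set R4 := ball x₀ ρ with hV
  have hVm : MeasurableSet V := measurableSet_ball
  have hVf : μ V ≠ ⊤ := measure_ball_lt_top.ne
  have h0 : (0 : ℂ × ℂ) ∈ PD 2 := ball8 (mem_ball_self (by norm_num))
  have hsub : ∀ b : Box D, b.Θ 0 = x₀ → (∀ p ∈ PD 2, ∀ q ∈ PD 2,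
      ‖b.Θ p - b.Θ q‖ ≤ c * ε * ‖p - q‖) → b.Θ '' PD 1 ⊆ V := by
    rintro b hb hup _ ⟨p, hp, rfl⟩
    have h1 := hup p (PD12 hp) 0 h0
    rw [sub_zero, hb] at h1
    rw [hV, mem_ball, dist_eq_norm, hρε]
    have h2 : ‖p‖ < 1 := by
      rw [Prod.norm_def]
      exact max_lt (by simpa using hp.1) (by simpa using hp.2)
    calc ‖b.Θ p - x₀‖ ≤ c * ε * ‖p‖ := h1
      _ < c * ε * 1 := mul_lt_mul_of_pos_left h2 (by positivity)
      _ = c * ε := mul_one _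
  have hc1 := hcore (hdom S μ hμ) b hM.le P.lo hVm hVf (hsub b P.c0 P.up)
  have hc2 := hcore (hdom S μ hμ) b' hM.le P.lo' hVm hVf (hsub b' P.c0' P.up')
  set r : ℝ := 1 / 8 / (c / ε) with hr
  have hr0 : 0 < r := by positivity
  have hb1 : ball x₀ r ⊆ b.Θ '' ball 0 (1 / 8) := by
    have := ball_sub b hM P.lo (r := 1 / 8) (by norm_num) (by norm_num)
    rwa [P.c0] at this
  have hb2 : ball x₀ r ⊆ b'.Θ '' ball 0 (1 / 8) := by
    have := ball_sub b' hM P.lo' (r := 1 / 8) (by norm_num) (by norm_num)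
    rwa [P.c0'] at this
  have hχ : CF fun x => cut x₀ r x • cf2 D.om x :=
    cf_mul (cut_cont x₀ r) (cut_comp hr0) (cf2_cont D.om) (cf2_self D.om)
  have hTχ := hμ.2 _ (cut_cont x₀ r) (cut_comp hr0)
  have hpf1 : CF (pf b f2) := pf_cf b f2_cont' f2_comp (f2_supp.trans PD12)
  have hpf2 : CF (pf b' f2) := pf_cf b' f2_cont' f2_comp (f2_supp.trans PD12)
  have hA : CF ((6 * B * (c * ε) ^ 2) • (pf b f2 + pf b' f2)) := cf_smul _ (cf_add hpf1 hpf2)
  have hpt : ∀ x u, (fun x => cut x₀ r x • cf2 D.om x) x u (D.J x u) ≤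
      ((6 * B * (c * ε) ^ 2) • (pf b f2 + pf b' f2)) x u (D.J x u) := by
    intro x u
    show (cut x₀ r x • cf2 D.om x) u (D.J x u) ≤
      ((6 * B * (c * ε) ^ 2) • (pf b f2 x + pf b' f2 x)) u (D.J x u)
    rw [smul_ap, smul_ap, add_ap, cf2_apply]
    by_cases hx : x ∈ ball x₀ r
    · obtain ⟨p, hp, hpx⟩ := hb1 hx
      obtain ⟨p', hp', hpx'⟩ := hb2 hx
      have h1 := pf_pos b P.m f2_nn x u
      have h2 := pf_pos b' P.m' f2_nn x u
      have e1 : ext b f2 x = 1 := by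
        rw [← hpx, ext_Θ b f2 (ball8 hp)]
        exact f2_one (by rw [mem_ball_zero_iff] at hp; exact hp.le)
      have e2 : ext b' f2 x = 1 := by
        rw [← hpx', ext_Θ b' f2 (ball8 hp')]
        exact f2_one (by rw [mem_ball_zero_iff] at hp'; exact hp'.le)
      rw [e1, one_mul] at h1
      rw [e2, one_mul] at h2
      obtain ⟨X, hX⟩ := (b.imm p (ball8 hp)).2 u
      obtain ⟨X', hX'⟩ := (b'.imm p' (ball8 hp')).2 u
      have h3 := P.tr p (ball8 hp) p' (ball8 hp') X X' (hX.trans hX'.symm)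
      have e3 : P1 b x u = X.1 := by rw [← hpx, ← hX, P1_Θ b (ball8 hp)]
      have e4 : P1 b' x u = X'.1 := by rw [← hpx', ← hX', P1_Θ b' (ball8 hp')]
      rw [hX] at h3
      rw [e3] at h1
      rw [e4] at h2
      have h4 := hom x u
      have h5 : 0 ≤ D.om.val x u (D.J x u) :=
        (by positivity : 0 ≤ ct * ‖u‖ ^ 2).trans (hct' x u)
      have h6 : ‖u‖ ^ 2 ≤ (c * ε * (‖X.1‖ + ‖X'.1‖)) ^ 2 := pow_le_pow_left₀ (norm_nonneg _) h3 2
      have h7 : (‖X.1‖ + ‖X'.1‖) ^ 2 ≤ 2 * (‖X.1‖ ^ 2 + ‖X'.1‖ ^ 2) := by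
        nlinarith [sq_nonneg (‖X.1‖ - ‖X'.1‖)]
      calc cut x₀ r x * D.om.val x u (D.J x u) ≤ 1 * D.om.val x u (D.J x u) :=
            mul_le_mul_of_nonneg_right (cut_le _ _ _) h5
        _ ≤ B * ‖u‖ ^ 2 := by rw [one_mul]; exact h4
        _ ≤ B * (c * ε * (‖X.1‖ + ‖X'.1‖)) ^ 2 := mul_le_mul_of_nonneg_left h6 hB.le
        _ = B * (c * ε) ^ 2 * (‖X.1‖ + ‖X'.1‖) ^ 2 := by ring
        _ ≤ B * (c * ε) ^ 2 * (2 * (‖X.1‖ ^ 2 + ‖X'.1‖ ^ 2)) :=
            mul_le_mul_of_nonneg_left h7 (by positivity)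
        _ = 6 * B * (c * ε) ^ 2 * (‖X.1‖ ^ 2 / 3 + ‖X'.1‖ ^ 2 / 3) := by ring
        _ ≤ _ := mul_le_mul_of_nonneg_left (add_le_add h1 h2) (by positivity)
    · rw [cut_zero hr0 hx, zero_mul]
      exact mul_nonneg (by positivity) (add_nonneg (pf_nn b P.m f2_nn x u)
        (pf_nn b' P.m' f2_nn x u))
  have hT := T_mono S hχ hA hpt
  rw [hTχ, S.smul _ _ (cf_add hpf1 hpf2), S.add _ _ hpf1 hpf2] at hT
  have hμr : μ.real (ball x₀ (ρ / (16 * c ^ 2 + 1))) ≤ ∫ x, cut x₀ r x ∂μ := by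
    have h1 : ball x₀ (ρ / (16 * c ^ 2 + 1)) ⊆ ball x₀ (r / 2) := by
      refine ball_subset_ball ?_
      have : r / 2 = ρ / (16 * c ^ 2) := by
        rw [hr, hρε]; field_simp; norm_num
      rw [this]
      exact div_le_div_of_nonneg_left hρ.le (by positivity) (by linarith)
    have h2 : Integrable (cut x₀ r) μ := (cut_cont x₀ r).integrable_of_hasCompactSupport
      (cut_comp hr0)
    have h3 : ∫ x, (ball x₀ (ρ / (16 * c ^ 2 + 1))).indicator (fun _ => (1 : ℝ)) x ∂μ =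
        μ.real (ball x₀ (ρ / (16 * c ^ 2 + 1))) := by
      rw [integral_indicator measurableSet_ball, setIntegral_const, smul_eq_mul, mul_one]
    rw [← h3]
    refine integral_mono ?_ h2 fun x => ?_
    · rw [integrable_indicator_iff measurableSet_ball]
      exact integrableOn_const measure_ball_lt_top.ne
    · by_cases hx : x ∈ ball x₀ (ρ / (16 * c ^ 2 + 1))
      · rw [indicator_of_mem hx, cut_one hr0 (h1 hx)]
      · rw [indicator_of_notMem hx]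
        exact cut_nn _ _ _
  set m : ℝ := μ.real V with hm
  have hm0 : 0 ≤ m := measureReal_nonneg
  have h1 : μ.real (ball x₀ (ρ / (16 * c ^ 2 + 1))) ≤
      6 * B * (c * ε) ^ 2 * ((C₁ * ((c / ε) ^ 2 * m)) ^ 2 + (C₁ * ((c / ε) ^ 2 * m)) ^ 2) :=
    (hμr.trans hT).trans (mul_le_mul_of_nonneg_left (add_le_add hc1 hc2) (by positivity))
  calc ρ ^ 2 * μ.real (ball x₀ (ρ / (16 * c ^ 2 + 1))) ≤ ρ ^ 2 *
        (6 * B * (c * ε) ^ 2 * ((C₁ * ((c / ε) ^ 2 * m)) ^ 2 + (C₁ * ((c / ε) ^ 2 * m)) ^ 2)) :=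
        mul_le_mul_of_nonneg_left h1 (by positivity)
    _ = 12 * B * C₁ ^ 2 * c ^ 8 * m ^ 2 := by
        rw [hρε]
        field_simp
        ring

/-- `CO`: lower density bound -/
theorem CO (hBX : BXS_statement) : CO_statement := by
  intro D S μ hμ
  obtain ⟨κ, hκ, C, hC, ρ₀, hρ₀, h⟩ := mass_ineq hBX D
  have hlf : IsLocallyFiniteMeasure μ := hμ.1
  refine ⟨1 / (8 * C * κ ^ 4), by positivity, ρ₀, hρ₀, fun x hx ρ hρ hρρ => ?_⟩
  by_contra hcon
  rw [not_le] at hcon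
  have h1 : μ.real (ball x ρ) < 1 / (8 * C * κ ^ 4) * ρ ^ 2 := by
    rw [Measure.real]
    exact (ENNReal.lt_ofReal_iff_toReal_lt measure_ball_lt_top.ne).1 hcon
  have h2 := density hκ hC (h S μ hμ) x hρ hρρ h1
  exact (mass_pos hμ hx (by positivity : 0 < ρ / 4)).ne' h2

end Vale.Agent.P247.H683
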