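import Vale.Agent.P247.H683.PSAlg
import Vale.Agent.P247.H324.MG.WG4
import Vale.Agent.P247.H324.MG.Belt

/-!
# P247, PUI: weighted vectors of centred power sums of sheets
-/

open scoped ContDiff Topology
open Set MeasureTheory Filter Metric

noncomputable section

namespace Vale.Agent.P247.H683.PS

open Vale.Agent.P247.H324

variable {k : ℕ}

/-- `k` sheets over `U` -/
structure SH (U : Set ℂ) (ν α : ℂ × ℂ → ℂ) (Y : Fin k → ℂ → ℂ) (D : Fin k → ℂ → ℂ →L[ℝ] ℂ) :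
    Prop where
  chain : ∀ F : ℂ → ℂ, ContDiff ℝ ∞ F →
    WG U (fun z => ∑ i, F (Y i z)) fun z => ∑ i, (fderiv ℝ F (Y i z)).comp (D i z)
  cont : ∀ F : ℂ → ℂ, Continuous F → ContinuousOn (fun z => ∑ i, F (Y i z)) U
  eq : ∀ᵐ z ∂(volume.restrict U), ∀ i, pzb (D i z) = ν (z, Y i z) * pz (D i z) + α (z, Y i z)

/-- the values of the sheets at `z` -/
def vY (Y : Fin k → ℂ → ℂ) (z : ℂ) : Fin k → ℂ := fun i => Y i z

/-- power sums -/
def Pow (y : Fin k → ℂ) : Fin k → ℂ := fun j => ∑ i, y i ^ ((j : ℕ) + 1)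

/-- the derivative of the sheets at `z` -/
def vD (D : Fin k → ℂ → ℂ →L[ℝ] ℂ) (z : ℂ) : ℂ →L[ℝ] (Fin k → ℂ) :=
  ContinuousLinearMap.pi fun i => D i z

theorem hasFDerivAt_pw (n : ℕ) (y : ℂ) : HasFDerivAt (𝕜 := ℝ) (fun y : ℂ => y ^ (n + 1))
    ((ContinuousLinearMap.toSpanSingleton ℂ (((n + 1 : ℕ) : ℂ) * y ^ n)).restrictScalars ℝ) y := by
  have h1 : HasDerivAt (fun y : ℂ => y ^ (n + 1)) (((n + 1 : ℕ) : ℂ) * y ^ n) y := by
    simpa using hasDerivAt_pow (n + 1) y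
  exact h1.hasFDerivAt.restrictScalars ℝ

theorem hasFDerivAt_Pow (y : Fin k → ℂ) : HasFDerivAt (𝕜 := ℝ) Pow
    (ContinuousLinearMap.pi fun j : Fin k => ∑ i, ((fderiv ℝ (fun y : ℂ => y ^ ((j : ℕ) + 1)) (y i)).comp
      (ContinuousLinearMap.proj (R := ℝ) (φ := fun _ : Fin k => ℂ) i))) y := by
  rw [hasFDerivAt_pi']
  intro j
  have h0 : ∀ i ∈ (Finset.univ : Finset (Fin k)), HasFDerivAt (𝕜 := ℝ) (fun y : Fin k → ℂ => y i ^ ((j : ℕ) + 1))
      ((fderiv ℝ (fun y : ℂ => y ^ ((j : ℕ) + 1)) (y i)).comp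
      (ContinuousLinearMap.proj (R := ℝ) (φ := fun _ : Fin k => ℂ) i)) y := by
    intro i _
    have h1 := hasFDerivAt_pw (j : ℕ) (y i)
    have h2 : HasFDerivAt (𝕜 := ℝ) (fun y : ℂ => y ^ ((j : ℕ) + 1))
        (fderiv ℝ (fun y : ℂ => y ^ ((j : ℕ) + 1)) (y i)) (y i) := h1.differentiableAt.hasFDerivAt
    exact h2.comp y (ContinuousLinearMap.proj (R := ℝ) (φ := fun _ : Fin k => ℂ) i).hasFDerivAt
  have h3 := HasFDerivAt.fun_sum h0
  exact h3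

/-- symmetric chain rule -/
theorem SH.sym {U : Set ℂ} {ν α : ℂ × ℂ → ℂ} {Y : Fin k → ℂ → ℂ} {D : Fin k → ℂ → ℂ →L[ℝ] ℂ}
    (h : SH U ν α Y D) (hU : IsOpen U) {E : Type*} [NormedAddCommGroup E] [NormedSpace ℝ E]
    [CompleteSpace E] {Ψ : (Fin k → ℂ) → E} (hΨ : ContDiff ℝ 1 Ψ) {Θ : (Fin k → ℂ) → E}
    (hΘ : ∀ y, Θ y = Ψ (Pow y)) :
    WG U (fun z => Θ (vY Y z)) fun z => (fderiv ℝ Θ (vY Y z)).comp (vD D z) := by
  have h1 : ∀ j : Fin k, WG U (fun z => ∑ i, Y i z ^ ((j : ℕ) + 1))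
      fun z => ∑ i, (fderiv ℝ (fun y : ℂ => y ^ ((j : ℕ) + 1)) (Y i z)).comp (D i z) :=
    fun j => h.chain (fun y => y ^ ((j : ℕ) + 1)) (contDiff_id.pow _)
  have h2 := WG.sum hU Finset.univ (fun j _ => (h1 j).clm
    (ContinuousLinearMap.single ℝ (fun _ : Fin k => ℂ) j))
  have e1 : (fun z => ∑ j : Fin k, ContinuousLinearMap.single ℝ (fun _ : Fin k => ℂ) j
      (∑ i, Y i z ^ ((j : ℕ) + 1))) = fun z => Pow (vY Y z) := by
    funext z
    exact Finset.univ_sum_single (Pow (vY Y z))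
  have hcont : ContinuousOn (fun z => Pow (vY Y z)) U := by
    refine continuousOn_pi.2 fun j => ?_
    exact h.cont (fun y => y ^ ((j : ℕ) + 1)) (by fun_prop)
  rw [e1] at h2
  have h3 := h2.chain hU hcont (Φ := fun q : ℂ × (Fin k → ℂ) => Ψ q.2) (W := univ) isOpen_univ
    (hΨ.comp contDiff_snd).contDiffOn (fun _ _ => mem_univ _)
  refine h3.congr hU.measurableSet (fun z _ => (hΘ _).symm) fun z _ => ?_
  refine ContinuousLinearMap.ext fun v => ?_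
  have hΨd : HasFDerivAt Ψ (fderiv ℝ Ψ (Pow (vY Y z))) (Pow (vY Y z)) :=
    ((hΨ.differentiable (by simp)) _).hasFDerivAt
  have h4 : HasFDerivAt (fun q : ℂ × (Fin k → ℂ) => Ψ q.2)
      ((fderiv ℝ Ψ (Pow (vY Y z))).comp (ContinuousLinearMap.snd ℝ ℂ (Fin k → ℂ)))
      (z, Pow (vY Y z)) :=
    HasFDerivAt.comp (z, Pow (vY Y z)) (g := Ψ) (f := Prod.snd) hΨd hasFDerivAt_snd
  have h5 : HasFDerivAt Θ _ (vY Y z) :=
    (hΨd.comp (vY Y z) (hasFDerivAt_Pow (vY Y z))).congr_of_eventuallyEq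
      (Eventually.of_forall fun y => hΘ y)
  show ((fderiv ℝ (fun q : ℂ × (Fin k → ℂ) => Ψ q.2) (z, Pow (vY Y z))).comp (gr _)) v = _
  rw [h4.fderiv, h5.fderiv]
  show (fderiv ℝ Ψ (Pow (vY Y z))) _ = (fderiv ℝ Ψ (Pow (vY Y z))) _
  congr 1
  funext j
  show (∑ i : Fin k, (ContinuousLinearMap.single ℝ (fun _ : Fin k => ℂ) i).comp
      (∑ i_1, (fderiv ℝ (fun y : ℂ => y ^ ((i : ℕ) + 1)) (Y i_1 z)).comp (D i_1 z))) v j =
    (∑ i, (fderiv ℝ (fun y : ℂ => y ^ ((j : ℕ) + 1)) (Y i z)).comp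
      (ContinuousLinearMap.proj (R := ℝ) (φ := fun _ : Fin k => ℂ) i)) (vD D z v)
  rw [_root_.sum_apply, Finset.sum_apply, _root_.sum_apply]
  rw [Finset.sum_eq_single j]
  · rw [ContinuousLinearMap.comp_apply, ContinuousLinearMap.single_apply, Pi.single_eq_same,
      _root_.sum_apply]
    rfl
  · intro j' _ hj'
    rw [ContinuousLinearMap.comp_apply, ContinuousLinearMap.single_apply]
    exact Pi.single_eq_of_ne hj'.symm _
  · intro h
    exact absurd (Finset.mem_univ j) h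

end Vale.Agent.P247.H683.PS
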