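import Vale.Agent.P247.H683.PS
import Vale.Agent.P247.H324.MG.Belt2

/-!
# P247, PUI: dichotomy for the weighted vector of centred power sums
-/

open scoped ContDiff Topology ENNReal
open Set MeasureTheory Filter Metric

noncomputable section

namespace Vale.Agent.P247.H683.PS

open Vale.Agent.P247.H324

variable {k : ℕ}

/-- power sums with arbitrary index -/
def Sx (p : Fin k → ℂ) : ℕ → ℂ
  | 0 => k
  | r + 1 => if h : r < k then p ⟨r, h⟩ else 0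

/-- `Th` in terms of the power sums -/
def Psi (p : Fin k → ℂ) : Fin k → ℂ := fun l =>
  (∑ r ∈ Finset.range ((l : ℕ) + 1 + 1), Sx p r * (-((k : ℂ)⁻¹ * Sx p 1)) ^ ((l : ℕ) + 1 - r) *
    (((l : ℕ) + 1).choose r : ℂ)) ^ ex k l

theorem Sx_Pow (y : Fin k → ℂ) {r : ℕ} (hr : r ≤ k) : Sx (Pow y) r = ∑ i, y i ^ r := by
  match r with
  | 0 => simp [Sx]
  | r + 1 =>
    have : r < k := hr
    simp [Sx, Pow, this]

theorem Sx_smooth (r : ℕ) : ContDiff ℝ 1 fun p : Fin k → ℂ => Sx p r := by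
  match r with
  | 0 => exact contDiff_const
  | r + 1 =>
    by_cases h : r < k
    · simp only [Sx, h, dite_true]
      exact contDiff_apply ℝ ℂ _
    · simp only [Sx, h, dite_false]
      exact contDiff_const

theorem Psi_smooth : ContDiff ℝ 1 (Psi (k := k)) := by
  refine contDiff_pi.2 fun l => ?_
  refine ContDiff.pow (ContDiff.sum fun r _ => ?_) _
  refine ((Sx_smooth r).mul (ContDiff.pow ?_ _)).mul contDiff_const
  exact (contDiff_const.mul (Sx_smooth 1)).neg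

theorem Th_Psi (y : Fin k → ℂ) : Th y = Psi (Pow y) := by
  funext l
  have hk : 0 < k := Fin.pos l
  show (∑ i, (y i - mn y) ^ ((l : ℕ) + 1)) ^ ex k l = _
  unfold Psi
  congr 1
  have e1 : (k : ℂ)⁻¹ * Sx (Pow y) 1 = mn y := by
    rw [Sx_Pow y hk]
    simp [mn]
  rw [e1]
  have e2 : ∀ i, (y i - mn y) ^ ((l : ℕ) + 1) = ∑ r ∈ Finset.range ((l : ℕ) + 1 + 1),
      y i ^ r * (-mn y) ^ ((l : ℕ) + 1 - r) * (((l : ℕ) + 1).choose r : ℂ) := by
    intro i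
    rw [sub_eq_add_neg, add_pow]
  simp_rw [e2]
  rw [Finset.sum_comm]
  refine Finset.sum_congr rfl fun r hr => ?_
  have hrk : r ≤ k := by
    have := Finset.mem_range.1 hr
    have := l.2
    omega
  rw [Sx_Pow y hrk, Finset.sum_mul, Finset.sum_mul]

theorem fderiv_Th (y : Fin k → ℂ) : fderiv ℝ Th y = (dTh y).restrictScalars ℝ :=
  ((hasFDerivAt_Th y).restrictScalars ℝ).fderiv

/-- the derivative of the vector -/
def dV (Y : Fin k → ℂ → ℂ) (D : Fin k → ℂ → ℂ →L[ℝ] ℂ) (z : ℂ) : ℂ →L[ℝ] (Fin k → ℂ) :=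
  ((dTh (vY Y z)).restrictScalars ℝ).comp (vD D z)

theorem SH.wg {U : Set ℂ} {ν α : ℂ × ℂ → ℂ} {Y : Fin k → ℂ → ℂ} {D : Fin k → ℂ → ℂ →L[ℝ] ℂ}
    (h : SH U ν α Y D) (hU : IsOpen U) : WG U (fun z => Th (vY Y z)) (dV Y D) := by
  have h1 := h.sym hU Psi_smooth (Θ := Th) Th_Psi
  refine h1.congr hU.measurableSet (fun _ _ => rfl) fun z _ => ?_
  show (fderiv ℝ Th (vY Y z)).comp (vD D z) = _
  rw [fderiv_Th]
  rfl

theorem SH.pow_cont {U : Set ℂ} {ν α : ℂ × ℂ → ℂ} {Y : Fin k → ℂ → ℂ}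
    {D : Fin k → ℂ → ℂ →L[ℝ] ℂ} (h : SH U ν α Y D) : ContinuousOn (fun z => Pow (vY Y z)) U := by
  refine continuousOn_pi.2 fun j => ?_
  exact h.cont (fun y => y ^ ((j : ℕ) + 1)) (by fun_prop)

theorem SH.th_cont {U : Set ℂ} {ν α : ℂ × ℂ → ℂ} {Y : Fin k → ℂ → ℂ}
    {D : Fin k → ℂ → ℂ →L[ℝ] ℂ} (h : SH U ν α Y D) : ContinuousOn (fun z => Th (vY Y z)) U := by
  have : (fun z => Th (vY Y z)) = fun z => Psi (Pow (vY Y z)) := funext fun z => Th_Psi _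
  rw [this]
  exact Psi_smooth.continuous.comp_continuousOn h.pow_cont

theorem SH.mn_cont {U : Set ℂ} {ν α : ℂ × ℂ → ℂ} {Y : Fin k → ℂ → ℂ}
    {D : Fin k → ℂ → ℂ →L[ℝ] ℂ} (h : SH U ν α Y D) : ContinuousOn (fun z => mn (vY Y z)) U := by
  have := h.cont (fun y => y) continuous_id
  exact continuousOn_const.mul this

theorem pz_dV (Y : Fin k → ℂ → ℂ) (D : Fin k → ℂ → ℂ →L[ℝ] ℂ) (z : ℂ) :
    pz (dV Y D z) = dTh (vY Y z) fun i => pz (D i z) := by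
  have e1 : ∀ v, dV Y D z v = dTh (vY Y z) (fun i => D i z v) := fun v => rfl
  rw [pz, e1, e1, ← map_smul, ← map_sub, ← map_smul]
  rfl

theorem pzb_dV (Y : Fin k → ℂ → ℂ) (D : Fin k → ℂ → ℂ →L[ℝ] ℂ) (z : ℂ) :
    pzb (dV Y D z) = dTh (vY Y z) fun i => pzb (D i z) := by
  have e1 : ∀ v, dV Y D z v = dTh (vY Y z) (fun i => D i z v) := fun v => rfl
  rw [pzb, e1, e1, ← map_smul, ← map_add, ← map_smul]
  rfl

/-- the constant -/
def Ck (k : ℕ) : ℝ := (alg_main (k := k)).choose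

theorem Ck_nonneg (k : ℕ) : 0 ≤ Ck k := (alg_main (k := k)).choose_spec.1

theorem Ck_spec (y w : Fin k → ℂ) (a : ℂ) (T : ℝ) (hT : 0 ≤ T)
    (h : ∀ i, ‖w i - a‖ ≤ T * ‖hh y‖) : ‖dTh y w‖ ≤ Ck k * T * ‖Th y‖ :=
  (alg_main (k := k)).choose_spec.2 y w a T hT h

/-- the pointwise inequality -/
theorem ineq {ν α : ℂ × ℂ → ℂ} {Y : Fin k → ℂ → ℂ} {D : Fin k → ℂ → ℂ →L[ℝ] ℂ} {z : ℂ} {L T : ℝ}
    (hL : 0 ≤ L) (hT : 0 ≤ T)
    (heq : ∀ i, pzb (D i z) = ν (z, Y i z) * pz (D i z) + α (z, Y i z))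
    (hν : ∀ i, ‖ν (z, Y i z) - ν (z, mn (vY Y z))‖ ≤ L * ‖Y i z - mn (vY Y z)‖)
    (hα : ∀ i, ‖α (z, Y i z) - α (z, mn (vY Y z))‖ ≤ L * ‖Y i z - mn (vY Y z)‖)
    (hD : ∀ i, ‖D i z‖ ≤ T) :
    ‖pzb (dV Y D z) - ν (z, mn (vY Y z)) • pz (dV Y D z)‖ ≤
      Ck k * (L * (1 + T)) * ‖Th (vY Y z)‖ := by
  rw [pz_dV, pzb_dV, ← map_smul, ← map_sub]
  refine Ck_spec _ _ (α (z, mn (vY Y z))) _ (by positivity) fun i => ?_
  show ‖pzb (D i z) - ν (z, mn (vY Y z)) * pz (D i z) - α (z, mn (vY Y z))‖ ≤ _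
  rw [heq i]
  have e1 : ν (z, Y i z) * pz (D i z) + α (z, Y i z) - ν (z, mn (vY Y z)) * pz (D i z) -
      α (z, mn (vY Y z)) = (ν (z, Y i z) - ν (z, mn (vY Y z))) * pz (D i z) +
      (α (z, Y i z) - α (z, mn (vY Y z))) := by ring
  rw [e1]
  have h1 : ‖Y i z - mn (vY Y z)‖ ≤ ‖hh (vY Y z)‖ := norm_le_pi_norm (hh (vY Y z)) i
  have h2 : ‖pz (D i z)‖ ≤ T := (norm_pz_le _).trans (hD i)
  calc _ ≤ ‖(ν (z, Y i z) - ν (z, mn (vY Y z))) * pz (D i z)‖ +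
        ‖α (z, Y i z) - α (z, mn (vY Y z))‖ := norm_add_le _ _
    _ ≤ L * ‖hh (vY Y z)‖ * T + L * ‖hh (vY Y z)‖ := by
        rw [norm_mul]
        refine add_le_add (mul_le_mul ((hν i).trans ?_) h2 (norm_nonneg _) (by positivity))
          ((hα i).trans ?_)
        · gcongr
        · gcongr
    _ = _ := by ring

theorem ineqE {ν α : ℂ × ℂ → ℂ} {Y : Fin k → ℂ → ℂ} {D : Fin k → ℂ → ℂ →L[ℝ] ℂ} {z : ℂ} {L : ℝ}
    {g : ℝ≥0∞} (hL : 0 ≤ L)
    (heq : ∀ i, pzb (D i z) = ν (z, Y i z) * pz (D i z) + α (z, Y i z))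
    (hν : ∀ i, ‖ν (z, Y i z) - ν (z, mn (vY Y z))‖ ≤ L * ‖Y i z - mn (vY Y z)‖)
    (hα : ∀ i, ‖α (z, Y i z) - α (z, mn (vY Y z))‖ ≤ L * ‖Y i z - mn (vY Y z)‖)
    (hD : ∀ i, ‖D i z‖ₑ ≤ g) :
    ‖pzb (dV Y D z) - ν (z, mn (vY Y z)) • pz (dV Y D z)‖ₑ ≤
      (ENNReal.ofReal (Ck k * L) * (1 + g)) * ‖Th (vY Y z)‖ₑ := by
  have h1 := ineq hL (norm_nonneg (fun i => D i z)) heq hν hα
    (fun i => norm_le_pi_norm (fun i => D i z) i)
  have h2 : ENNReal.ofReal ‖(fun i => D i z)‖ ≤ g := by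
    rcases eq_or_ne g ⊤ with hg | hg
    · rw [hg]; exact le_top
    · rw [ENNReal.ofReal_le_iff_le_toReal hg]
      refine (pi_norm_le_iff_of_nonneg ENNReal.toReal_nonneg).2 fun i => ?_
      have := hD i
      rwa [← ofReal_norm, ENNReal.ofReal_le_iff_le_toReal hg] at this
  rw [← ofReal_norm, ← ofReal_norm]
  have hC := Ck_nonneg k
  calc ENNReal.ofReal ‖pzb (dV Y D z) - ν (z, mn (vY Y z)) • pz (dV Y D z)‖
      ≤ ENNReal.ofReal ((Ck k * L) * (1 + ‖(fun i => D i z)‖) * ‖Th (vY Y z)‖) :=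
        ENNReal.ofReal_le_ofReal (h1.trans (le_of_eq (by ring)))
    _ = (ENNReal.ofReal (Ck k * L) * (1 + ENNReal.ofReal ‖(fun i => D i z)‖)) *
        ENNReal.ofReal ‖Th (vY Y z)‖ := by
        rw [ENNReal.ofReal_mul (by positivity), ENNReal.ofReal_mul (by positivity),
          ENNReal.ofReal_add zero_le_one (norm_nonneg _), ENNReal.ofReal_one]
    _ ≤ _ := by gcongr

/-- from the square to the first power -/
theorem morrey {R K ε c : ℝ} {g : ℂ → ℝ≥0∞} (hR1 : R ≤ 1) (hR : 0 < R) (hε : 0 < ε) (hε1 : ε ≤ 1)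
    (hK : 0 ≤ K) (hc : 0 ≤ c) (hg : AEMeasurable g (volume.restrict (ball 0 R)))
    (hM : ∀ x ρ, 0 < ρ → ∫⁻ z in ball x ρ ∩ ball 0 R, g z ^ 2 ≤ ENNReal.ofReal (K * ρ ^ (2 * ε)))
    (x : ℂ) (ρ : ℝ) (hρ : 0 < ρ) :
    ∫⁻ w in ball x ρ ∩ ball 0 R, ENNReal.ofReal c * (1 + g w) ≤
      ENNReal.ofReal ((c * (8 + K)) * ρ ^ (1 + ε)) := by
  set S := ball x ρ ∩ ball (0:ℂ) R with hS
  have hSm : MeasurableSet S := measurableSet_ball.inter measurableSet_ball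
  have hpi := Real.pi_lt_four
  have hpi0 := Real.pi_pos
  have hb : ∀ (y : ℂ) (t : ℝ), 0 ≤ t → volume (ball y t) ≤ ENNReal.ofReal (4 * t ^ 2) := by
    intro y t ht
    rw [Complex.volume_ball, ENNReal.ofReal_mul (by norm_num), ENNReal.ofReal_pow ht, mul_comm]
    gcongr
    rw [← ENNReal.ofReal_coe_nnreal]
    exact ENNReal.ofReal_le_ofReal hpi.le
  have v1 : volume S ≤ ENNReal.ofReal (4 * ρ ^ 2) :=
    (measure_mono inter_subset_left).trans (hb x ρ hρ.le)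
  have v2 : volume S ≤ ENNReal.ofReal 4 := by
    refine (measure_mono inter_subset_right).trans ((hb 0 R hR.le).trans ?_)
    refine ENNReal.ofReal_le_ofReal ?_
    nlinarith
  have v3 : volume S ≤ ENNReal.ofReal (4 * ρ ^ (1 + ε)) := by
    by_cases h1 : ρ ≤ 1
    · refine v1.trans (ENNReal.ofReal_le_ofReal ?_)
      have := Real.rpow_le_rpow_of_exponent_ge hρ h1 (show 1 + ε ≤ 2 by linarith)
      rw [Real.rpow_two] at this
      linarith
    · refine v2.trans (ENNReal.ofReal_le_ofReal ?_)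
      have := Real.one_le_rpow (x := ρ) (by linarith) (show 0 ≤ 1 + ε by linarith)
      linarith
  set l : ℝ := ρ ^ (1 - ε) with hl
  have hl0 : 0 < l := Real.rpow_pos_of_pos hρ _
  have hpt : ∀ t : ℝ≥0∞, t ≤ ENNReal.ofReal l⁻¹ + ENNReal.ofReal l * t ^ 2 := by
    intro t
    by_cases h1 : t ≤ ENNReal.ofReal l⁻¹
    · exact h1.trans le_self_add
    · rw [not_le] at h1
      refine le_trans ?_ le_add_self
      have h2 : 1 ≤ ENNReal.ofReal l * t := by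
        calc (1 : ℝ≥0∞) = ENNReal.ofReal (l * l⁻¹) := by
              rw [mul_inv_cancel₀ hl0.ne', ENNReal.ofReal_one]
          _ = ENNReal.ofReal l * ENNReal.ofReal l⁻¹ := ENNReal.ofReal_mul hl0.le
          _ ≤ _ := by gcongr
      calc t = 1 * t := (one_mul t).symm
        _ ≤ ENNReal.ofReal l * t * t := by gcongr
        _ = _ := by ring
  have hg' : AEMeasurable g (volume.restrict S) :=
    hg.mono_measure (Measure.restrict_mono_set _ inter_subset_right)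
  have i1 : ∫⁻ w in S, g w ≤ ENNReal.ofReal ((4 + K) * ρ ^ (1 + ε)) := by
    calc ∫⁻ w in S, g w ≤ ∫⁻ w in S, (ENNReal.ofReal l⁻¹ + ENNReal.ofReal l * g w ^ 2) :=
          lintegral_mono fun w => hpt _
      _ = ENNReal.ofReal l⁻¹ * volume S + ENNReal.ofReal l * ∫⁻ w in S, g w ^ 2 := by
          rw [lintegral_add_left measurable_const, lintegral_const, Measure.restrict_apply_univ,
            lintegral_const_mul' _ _ ENNReal.ofReal_ne_top]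
      _ ≤ ENNReal.ofReal l⁻¹ * ENNReal.ofReal (4 * ρ ^ 2) + ENNReal.ofReal l *
          ENNReal.ofReal (K * ρ ^ (2 * ε)) := by
          gcongr
          exact hM x ρ hρ
      _ = ENNReal.ofReal ((4 + K) * ρ ^ (1 + ε)) := by
          rw [← ENNReal.ofReal_mul (by positivity), ← ENNReal.ofReal_mul hl0.le,
            ← ENNReal.ofReal_add (by positivity) (by positivity)]
          congr 1
          have e1 : l⁻¹ * ρ ^ 2 = ρ ^ (1 + ε) := by
            rw [hl, ← Real.rpow_neg hρ.le, ← Real.rpow_two, ← Real.rpow_add hρ]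
            congr 1; ring
          have e2 : l * ρ ^ (2 * ε) = ρ ^ (1 + ε) := by
            rw [hl, ← Real.rpow_add hρ]
            congr 1; ring
          calc l⁻¹ * (4 * ρ ^ 2) + l * (K * ρ ^ (2 * ε)) =
              4 * (l⁻¹ * ρ ^ 2) + K * (l * ρ ^ (2 * ε)) := by ring
            _ = _ := by rw [e1, e2]; ring
  calc ∫⁻ w in S, ENNReal.ofReal c * (1 + g w) = ENNReal.ofReal c * (volume S + ∫⁻ w in S, g w) := by
        rw [lintegral_const_mul' _ _ ENNReal.ofReal_ne_top, lintegral_add_left measurable_const,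
          lintegral_const, Measure.restrict_apply_univ, one_mul]
    _ ≤ ENNReal.ofReal c * (ENNReal.ofReal (4 * ρ ^ (1 + ε)) +
        ENNReal.ofReal ((4 + K) * ρ ^ (1 + ε))) := by gcongr
    _ = _ := by
        rw [← ENNReal.ofReal_add (by positivity) (by positivity), ← ENNReal.ofReal_mul hc]
        congr 1; ring

/-- **the dichotomy**: sheets over a punctured disc are equal near the puncture, or the weighted
vector of centred power sums has a leading coefficient -/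
theorem SH.dich {R K ε A α₀ H L : ℝ} {ν α : ℂ × ℂ → ℂ} {Y : Fin k → ℂ → ℂ}
    {D : Fin k → ℂ → ℂ →L[ℝ] ℂ} {μ : ℂ → ℂ} {g : ℂ → ℝ≥0∞}
    (h : SH (ball 0 R \ {0}) ν α Y D) (hR : 0 < R) (hR1 : R ≤ 1) (hε : 0 < ε) (hε1 : ε ≤ 1)
    (hK : 0 ≤ K) (hα : 0 < α₀) (hα1 : α₀ < 1) (hL : 0 ≤ L)
    (hμ : ∀ x ∈ ball (0:ℂ) R, ∀ y ∈ ball (0:ℂ) R, ‖μ x - μ y‖ ≤ H * ‖x - y‖ ^ α₀)
    (hμ0 : μ 0 = 0) (hμν : ∀ z ∈ ball (0:ℂ) R \ {0}, μ z = ν (z, mn (vY Y z)))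
    (hν : ∀ z ∈ ball (0:ℂ) R \ {0}, ∀ i, ‖ν (z, Y i z) - ν (z, mn (vY Y z))‖ ≤ L * ‖Y i z - mn (vY Y z)‖)
    (hα' : ∀ z ∈ ball (0:ℂ) R \ {0}, ∀ i, ‖α (z, Y i z) - α (z, mn (vY Y z))‖ ≤ L * ‖Y i z - mn (vY Y z)‖)
    (hb : ∀ z ∈ ball (0:ℂ) R \ {0}, ∀ i, ‖Y i z‖ ≤ A)
    (hg : AEMeasurable g (volume.restrict (ball 0 R)))
    (hD : ∀ z ∈ ball (0:ℂ) R \ {0}, ∀ i, ‖D i z‖ₑ ≤ g z)
    (hM : ∀ x ρ, 0 < ρ → ∫⁻ z in ball x ρ ∩ ball 0 R, g z ^ 2 ≤ ENNReal.ofReal (K * ρ ^ (2 * ε))) :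
    (∃ r > 0, ∀ z ∈ ball (0:ℂ) r \ {0}, Th (vY Y z) = 0) ∨
      ∃ (M : ℕ) (a : Fin k → ℂ), a ≠ 0 ∧
        Tendsto (fun z => (z ^ M)⁻¹ • Th (vY Y z)) (𝓝[≠] 0) (𝓝 a) := by
  have hU : IsOpen (ball (0:ℂ) R \ {0}) := isOpen_ball.sdiff isClosed_singleton
  have hres : volume.restrict (ball (0 : ℂ) R) = volume.restrict (ball (0 : ℂ) R \ {0}) := by
    refine Measure.restrict_congr_set ?_
    refine (sdiff_null_ae_eq_self ?_).symm
    simp
  -- bound of `Th`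
  obtain ⟨B, hB⟩ : ∃ B, ∀ z ∈ ball (0:ℂ) R \ {0}, ‖Th (vY Y z)‖ ≤ B := by
    obtain ⟨B, hB⟩ := ((isCompact_closedBall (0 : Fin k → ℂ) |A|).exists_bound_of_continuousOn
      (f := Th) (by
        have : Th (k := k) = fun y => Psi (Pow y) := funext Th_Psi
        rw [this]
        refine (Psi_smooth.continuous.comp ?_).continuousOn
        unfold Pow
        fun_prop))
    refine ⟨B, fun z hz => hB _ ?_⟩
    rw [mem_closedBall_zero_iff]
    exact (pi_norm_le_iff_of_nonneg (abs_nonneg _)).2 fun i => (hb z hz i).trans (le_abs_self _)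
  set c : ℝ := Ck k * L with hc
  have hc0 : 0 ≤ c := mul_nonneg (Ck_nonneg k) hL
  set G : ℂ → ℝ≥0∞ := fun z => ENNReal.ofReal c * (1 + g z) with hG
  have hGm : AEMeasurable G (volume.restrict (ball 0 R)) := (hg.const_add 1).const_mul _
  have hMG : ∀ x ρ, 0 < ρ → ∫⁻ w in ball x ρ ∩ ball 0 R, G w ≤
      ENNReal.ofReal ((c * (8 + K)) * ρ ^ (1 + ε)) := by
    exact fun x ρ hρ => morrey hR1 hR hε hε1 hK hc0 hg hM x ρ hρ
  refine spm_belt hR hε (u := fun z => Th (vY Y z)) (u' := dV Y D) (μ := μ) (G := G)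
    (K := c * (8 + K)) (A := B) (by positivity) hα hα1 hμ hμ0 hGm hMG h.th_cont hB
    (h.wg hU) ?_
  rw [hres]
  have heq := h.eq
  filter_upwards [heq, ae_restrict_mem hU.measurableSet] with z hz hzU
  rw [hμν z hzU]
  exact ineqE hL hz (hν z hzU) (hα' z hzU) (hD z hzU)

end Vale.Agent.P247.H683.PS
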