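import Mathlib

/-!
# P247, PUI: weighted vectors of centred power sums (algebra)
-/

open scoped ContDiff Topology
open Set Filter Metric

noncomputable section

namespace Vale.Agent.P247.H683.PS

variable {k : ℕ}

/-- mean -/
def mn (y : Fin k → ℂ) : ℂ := (k : ℂ)⁻¹ * ∑ i, y i

/-- deviations from the mean -/
def hh (y : Fin k → ℂ) : Fin k → ℂ := fun i => y i - mn y

/-- centred power sums -/
def cps (y : Fin k → ℂ) (l : ℕ) : ℂ := ∑ i, (y i - mn y) ^ l

/-- the weights -/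
def ex (k : ℕ) (l : Fin k) : ℕ := k.factorial / (l + 1)

/-- the weighted vector of centred power sums -/
def Th (y : Fin k → ℂ) : Fin k → ℂ := fun l => cps y (l + 1) ^ ex k l

theorem ex_mul (l : Fin k) : (l + 1) * ex k l = k.factorial :=
  Nat.mul_div_cancel' (Nat.dvd_factorial (Nat.succ_pos _) l.2)

theorem ex_pos (l : Fin k) : 0 < ex k l := by
  have h := ex_mul l
  have h2 := Nat.factorial_pos k
  rcases Nat.eq_zero_or_pos (ex k l) with h0 | h0
  · rw [h0, mul_zero] at h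
    omega
  · exact h0

/-- power sums detect zero -/
theorem psum_ne (h : Fin k → ℂ) (h0 : h ≠ 0) : ∃ l : Fin k, ∑ i, h i ^ ((l : ℕ) + 1) ≠ 0 := by
  classical
  by_contra hcon
  push Not at hcon
  obtain ⟨i0, hi0⟩ : ∃ i, h i ≠ 0 := by
    by_contra h1
    push Not at h1
    exact h0 (funext h1)
  set s : Finset ℂ := ((Finset.univ.image h).erase (h i0)).erase 0 with hs
  have hscard : s.card + 1 ≤ k := by
    have h1 : s.card ≤ ((Finset.univ.image h).erase (h i0)).card := Finset.card_erase_le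
    have h2 : ((Finset.univ.image h).erase (h i0)).card + 1 = (Finset.univ.image h).card :=
      Finset.card_erase_add_one (Finset.mem_image_of_mem h (Finset.mem_univ i0))
    have h3 : (Finset.univ.image h).card ≤ k := by
      have := Finset.card_image_le (s := (Finset.univ : Finset (Fin k))) (f := h)
      simpa using this
    omega
  set f : Polynomial ℂ := Polynomial.X * ∏ v ∈ s, (Polynomial.X - Polynomial.C v) with hf
  have hdeg : f.natDegree < k + 1 := by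
    have h1 : f.natDegree ≤ 1 + s.card := by
      refine Polynomial.natDegree_mul_le.trans ?_
      refine add_le_add Polynomial.natDegree_X_le ?_
      rw [Polynomial.natDegree_finsetProd_X_sub_C_eq_card]
    omega
  have h1 : ∑ i, f.eval (h i) = 0 := by
    simp_rw [Polynomial.eval_eq_sum_range' hdeg]
    rw [Finset.sum_comm]
    refine Finset.sum_eq_zero fun j hj => ?_
    rw [← Finset.mul_sum]
    rcases Nat.eq_zero_or_pos j with h2 | h2
    · subst h2
      have : f.coeff 0 = 0 := by rw [hf, Polynomial.coeff_X_mul_zero]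
      rw [this, zero_mul]
    · obtain ⟨j', rfl⟩ : ∃ j', j = j' + 1 := ⟨j - 1, by omega⟩
      have h3 : j' < k := by
        have := Finset.mem_range.1 hj
        omega
      rw [hcon ⟨j', h3⟩, mul_zero]
  have h2 : ∑ i, f.eval (h i) = ∑ i ∈ Finset.univ.filter (fun i => h i = h i0), f.eval (h i0) := by
    rw [Finset.sum_filter]
    refine Finset.sum_congr rfl fun i _ => ?_
    by_cases h3 : h i = h i0
    · rw [if_pos h3, h3]
    · rw [if_neg h3]
      by_cases h4 : h i = 0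
      · rw [h4, hf, Polynomial.eval_mul, Polynomial.eval_X, zero_mul]
      · have h5 : h i ∈ s := by
          rw [hs, Finset.mem_erase, Finset.mem_erase]
          exact ⟨h4, h3, Finset.mem_image_of_mem h (Finset.mem_univ i)⟩
        rw [hf, Polynomial.eval_mul, Polynomial.eval_prod, Finset.prod_eq_zero h5 (by simp), mul_zero]
  rw [h2, Finset.sum_const, nsmul_eq_mul] at h1
  have h3 : ((Finset.univ.filter (fun i => h i = h i0)).card : ℂ) ≠ 0 := by
    rw [Nat.cast_ne_zero, ← Nat.pos_iff_ne_zero, Finset.card_pos]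
    exact ⟨i0, by simp⟩
  have h4 : f.eval (h i0) ≠ 0 := by
    rw [hf, Polynomial.eval_mul, Polynomial.eval_X, Polynomial.eval_prod]
    refine mul_ne_zero hi0 (Finset.prod_ne_zero_iff.2 fun v hv => ?_)
    rw [Polynomial.eval_sub, Polynomial.eval_X, Polynomial.eval_C, sub_ne_zero]
    rw [hs, Finset.mem_erase, Finset.mem_erase] at hv
    exact fun h5 => hv.2.1 h5.symm
  exact mul_ne_zero h3 h4 h1

/-- weighted power sums -/
def Pw (h : Fin k → ℂ) : Fin k → ℂ := fun l => (∑ i, h i ^ ((l : ℕ) + 1)) ^ ex k l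

theorem Th_eq (y : Fin k → ℂ) : Th y = Pw (hh y) := rfl

theorem Pw_cont : Continuous (Pw (k := k)) := by
  refine continuous_pi fun l => ?_
  unfold Pw
  fun_prop

theorem Pw_ne {h : Fin k → ℂ} (h0 : h ≠ 0) : Pw h ≠ 0 := by
  obtain ⟨l, hl⟩ := psum_ne h h0
  intro h1
  exact pow_ne_zero _ hl (congrFun h1 l)

theorem Pw_smul (t : ℂ) (h : Fin k → ℂ) : Pw (t • h) = t ^ k.factorial • Pw h := by
  funext l
  show (∑ i, (t * h i) ^ ((l : ℕ) + 1)) ^ ex k l = t ^ k.factorial * (∑ i, h i ^ ((l : ℕ) + 1)) ^ ex k l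
  have : ∑ i, (t * h i) ^ ((l : ℕ) + 1) = t ^ ((l : ℕ) + 1) * ∑ i, h i ^ ((l : ℕ) + 1) := by
    rw [Finset.mul_sum]
    exact Finset.sum_congr rfl fun i _ => mul_pow _ _ _
  rw [this, mul_pow, ← pow_mul, ex_mul]

theorem Pw_zero : Pw (0 : Fin k → ℂ) = 0 := by
  funext l
  show (∑ i : Fin k, (0 : ℂ) ^ ((l : ℕ) + 1)) ^ ex k l = 0
  rw [Finset.sum_eq_zero fun i _ => by simp]
  exact zero_pow (ex_pos l).ne'

/-- the lower bound, by compactness -/
theorem Pw_lower : ∃ c > 0, ∀ h : Fin k → ℂ, c * ‖h‖ ^ k.factorial ≤ ‖Pw h‖ := by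
  rcases Nat.eq_zero_or_pos k with hk | hk
  · subst hk
    refine ⟨1, one_pos, fun h => ?_⟩
    have : h = 0 := Subsingleton.elim _ _
    rw [this, norm_zero, Nat.factorial_zero, pow_one, mul_zero]
    exact norm_nonneg _
  have : Nonempty (Fin k) := ⟨⟨0, hk⟩⟩
  have hne : (sphere (0 : Fin k → ℂ) 1).Nonempty := ⟨fun _ => 1, by
    rw [mem_sphere_zero_iff_norm]
    simp⟩
  obtain ⟨u, hu, hmin⟩ := (isCompact_sphere (0 : Fin k → ℂ) 1).exists_isMinOn hne
    (Pw_cont.norm.continuousOn)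
  have hu0 : u ≠ 0 := by
    intro h0
    rw [h0] at hu
    simp at hu
  refine ⟨‖Pw u‖, norm_pos_iff.2 (Pw_ne hu0), fun h => ?_⟩
  by_cases h0 : h = 0
  · rw [h0, norm_zero, zero_pow (Nat.factorial_pos k).ne', mul_zero]
    exact norm_nonneg _
  · have hn : (‖h‖ : ℂ) ≠ 0 := by
      rw [Ne, Complex.ofReal_eq_zero]
      exact norm_ne_zero_iff.2 h0
    have e1 : h = (‖h‖ : ℂ) • ((‖h‖ : ℂ)⁻¹ • h) := by
      rw [smul_smul, mul_inv_cancel₀ hn, one_smul]
    have e2 : ‖(‖h‖ : ℂ)⁻¹ • h‖ = 1 := by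
      rw [norm_smul, norm_inv, Complex.norm_real, norm_norm, inv_mul_cancel₀ (norm_ne_zero_iff.2 h0)]
    have e3 : ‖Pw u‖ ≤ ‖Pw ((‖h‖ : ℂ)⁻¹ • h)‖ := hmin (mem_sphere_zero_iff_norm.2 e2)
    conv_rhs => rw [e1, Pw_smul, norm_smul, norm_pow, Complex.norm_real, norm_norm]
    rw [mul_comm]
    exact mul_le_mul_of_nonneg_left e3 (by positivity)

theorem Th_zero_iff (y : Fin k → ℂ) : Th y = 0 ↔ ∀ i, y i = mn y := by
  rw [Th_eq]
  constructor
  · intro h i
    by_contra h1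
    refine Pw_ne (h := hh y) (fun h2 => h1 ?_) h
    have := congrFun h2 i
    exact sub_eq_zero.1 this
  · intro h
    have : hh y = 0 := funext fun i => sub_eq_zero.2 (h i)
    rw [this, Pw_zero]

/-! ### derivative -/

/-- the mean as a linear map -/
def mnL : (Fin k → ℂ) →L[ℂ] ℂ := (k : ℂ)⁻¹ • ∑ i, ContinuousLinearMap.proj (R := ℂ) i

theorem mnL_ap (y : Fin k → ℂ) : mnL y = mn y := by
  simp [mnL, mn]

/-- the derivative of `Th` -/
def dTh (y : Fin k → ℂ) : (Fin k → ℂ) →L[ℂ] (Fin k → ℂ) := ContinuousLinearMap.pi fun l =>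
  ((ex k l : ℂ) * cps y (l + 1) ^ (ex k l - 1)) •
    ∑ i, ((((l : ℕ) + 1 : ℕ) : ℂ) * (y i - mn y) ^ (l : ℕ)) •
      (ContinuousLinearMap.proj (R := ℂ) (φ := fun _ : Fin k => ℂ) i - mnL)

theorem dTh_ap (y w : Fin k → ℂ) (l : Fin k) : dTh y w l =
    ((ex k l : ℂ) * cps y (l + 1) ^ (ex k l - 1)) *
    ∑ i, ((((l : ℕ) + 1 : ℕ) : ℂ) * (y i - mn y) ^ (l : ℕ)) * (w i - mn w) := by
  simp only [dTh, ContinuousLinearMap.coe_pi', _root_.smul_apply, smul_eq_mul]
  congr 1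
  rw [_root_.sum_apply]
  refine Finset.sum_congr rfl fun i _ => ?_
  simp [mnL_ap]

theorem hasFDerivAt_Th (y : Fin k → ℂ) : HasFDerivAt (𝕜 := ℂ) Th (dTh y) y := by
  rw [hasFDerivAt_pi']
  intro l
  have h1 : ∀ i, HasFDerivAt (𝕜 := ℂ) (fun y : Fin k → ℂ => y i - mn y)
      (ContinuousLinearMap.proj (R := ℂ) (φ := fun _ : Fin k => ℂ) i - mnL) y := by
    intro i
    have h2 : HasFDerivAt (𝕜 := ℂ) (fun y : Fin k → ℂ => mn y) mnL y := by
      have := (mnL (k := k)).hasFDerivAt (x := y)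
      refine this.congr_of_eventuallyEq (Eventually.of_forall fun z => ?_)
      exact (mnL_ap z).symm
    exact (ContinuousLinearMap.proj (R := ℂ) (φ := fun _ : Fin k => ℂ) i).hasFDerivAt.sub h2
  have h3 : HasFDerivAt (𝕜 := ℂ) (fun y : Fin k → ℂ => cps y (l + 1))
      (∑ i, ((((l : ℕ) + 1 : ℕ) : ℂ) * (y i - mn y) ^ (l : ℕ)) •
      (ContinuousLinearMap.proj (R := ℂ) (φ := fun _ : Fin k => ℂ) i - mnL)) y := by
    have : HasFDerivAt (𝕜 := ℂ) (fun y : Fin k → ℂ => ∑ i, (y i - mn y) ^ ((l : ℕ) + 1)) _ y :=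
      HasFDerivAt.fun_sum fun i _ => (h1 i).pow ((l : ℕ) + 1)
    refine this.congr_fderiv ?_
    refine Finset.sum_congr rfl fun i _ => ?_
    simp [nsmul_eq_mul]
  have h4 := h3.pow (ex k l)
  refine HasFDerivAt.congr_fderiv (f := fun y : Fin k → ℂ => cps y (l + 1) ^ ex k l) h4 ?_
  refine ContinuousLinearMap.ext fun w => ?_
  simp only [dTh, nsmul_eq_mul]
  rfl

theorem norm_mn_le {w : Fin k → ℂ} {T : ℝ} (h : ∀ i, ‖w i‖ ≤ T) (hT : 0 ≤ T) : ‖mn w‖ ≤ T := by
  rcases Nat.eq_zero_or_pos k with hk | hk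
  · subst hk
    simp [mn, hT]
  rw [mn, norm_mul, norm_inv, Complex.norm_natCast, inv_mul_le_iff₀ (by positivity)]
  calc ‖∑ i, w i‖ ≤ ∑ i : Fin k, ‖w i‖ := norm_sum_le _ _
    _ ≤ ∑ _i : Fin k, T := Finset.sum_le_sum fun i _ => h i
    _ = k * T := by simp

theorem mn_sub_const (hk : 0 < k) (w : Fin k → ℂ) (a : ℂ) : mn (fun i => w i - a) = mn w - a := by
  have : (k : ℂ) ≠ 0 := by exact_mod_cast hk.ne'
  simp only [mn, Finset.sum_sub_distrib, Finset.sum_const, Finset.card_univ, Fintype.card_fin,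
    nsmul_eq_mul]
  field_simp

/-- the algebraic main estimate -/
theorem alg_main : ∃ C : ℝ, 0 ≤ C ∧ ∀ (y w : Fin k → ℂ) (a : ℂ) (T : ℝ), 0 ≤ T →
    (∀ i, ‖w i - a‖ ≤ T * ‖hh y‖) → ‖dTh y w‖ ≤ C * T * ‖Th y‖ := by
  obtain ⟨c, hc, hlow⟩ := Pw_lower (k := k)
  refine ⟨2 * k.factorial * (k : ℝ) ^ k.factorial * c⁻¹, by positivity, fun y w a T hT h => ?_⟩
  set H := ‖hh y‖ with hH
  have hH0 : 0 ≤ H := norm_nonneg _
  have hy : ∀ i, ‖y i - mn y‖ ≤ H := fun i => norm_le_pi_norm (hh y) i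
  have hmain : ‖dTh y w‖ ≤ 2 * k.factorial * (k : ℝ) ^ k.factorial * T * H ^ k.factorial := by
    refine (pi_norm_le_iff_of_nonneg (by positivity)).2 fun l => ?_
    have hk : 0 < k := Fin.pos l
    have hk1 : (1 : ℝ) ≤ k := by exact_mod_cast hk
    have hw : ∀ i, ‖w i - mn w‖ ≤ 2 * T * H := by
      intro i
      have e1 : w i - mn w = (w i - a) - mn (fun i => w i - a) := by
        rw [mn_sub_const hk]; ring
      rw [e1]
      have e2 := norm_mn_le (w := fun i => w i - a) h (by positivity)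
      calc _ ≤ ‖w i - a‖ + ‖mn (fun i => w i - a)‖ := norm_sub_le _ _
        _ ≤ T * H + T * H := add_le_add (h i) e2
        _ = 2 * T * H := by ring
    have hcps : ‖cps y (l + 1)‖ ≤ k * H ^ ((l : ℕ) + 1) := by
      rw [cps]
      calc _ ≤ ∑ i : Fin k, ‖(y i - mn y) ^ ((l : ℕ) + 1)‖ := norm_sum_le _ _
        _ ≤ ∑ _i : Fin k, H ^ ((l : ℕ) + 1) := Finset.sum_le_sum fun i _ => by
            rw [norm_pow]
            exact pow_le_pow_left₀ (norm_nonneg _) (hy i) _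
        _ = k * H ^ ((l : ℕ) + 1) := by simp
    have hsum : ‖∑ i, ((((l : ℕ) + 1 : ℕ) : ℂ) * (y i - mn y) ^ (l : ℕ)) * (w i - mn w)‖ ≤
        k * (((l : ℕ) + 1 : ℕ) * H ^ (l : ℕ) * (2 * T * H)) := by
      calc _ ≤ ∑ i : Fin k, ‖((((l : ℕ) + 1 : ℕ) : ℂ) * (y i - mn y) ^ (l : ℕ)) * (w i - mn w)‖ :=
            norm_sum_le _ _
        _ ≤ ∑ _i : Fin k, (((l : ℕ) + 1 : ℕ) * H ^ (l : ℕ) * (2 * T * H)) := by
            refine Finset.sum_le_sum fun i _ => ?_
            rw [norm_mul, norm_mul, norm_pow, Complex.norm_natCast]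
            gcongr
            · exact hy i
            · exact hw i
        _ = _ := by simp
    rw [dTh_ap, norm_mul, norm_mul, norm_pow, Complex.norm_natCast]
    obtain ⟨n, hn⟩ : ∃ n, ex k l = n + 1 := ⟨ex k l - 1, by have := ex_pos l; omega⟩
    have hfac : ((l : ℕ) + 1) * (n + 1) = k.factorial := by rw [← hn]; exact ex_mul l
    rw [hn, Nat.add_sub_cancel]
    have hfacR : (((l : ℕ) + 1 : ℕ) : ℝ) * ((n + 1 : ℕ) : ℝ) = (k.factorial : ℝ) := by
      rw [← Nat.cast_mul, hfac]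
    have hnle : n + 1 ≤ k.factorial := by
      rw [← hfac]
      exact Nat.le_mul_of_pos_left _ (Nat.succ_pos _)
    calc ((n + 1 : ℕ) : ℝ) * ‖cps y (l + 1)‖ ^ n *
          ‖∑ i, ((((l : ℕ) + 1 : ℕ) : ℂ) * (y i - mn y) ^ (l : ℕ)) * (w i - mn w)‖
        ≤ ((n + 1 : ℕ) : ℝ) * (k * H ^ ((l : ℕ) + 1)) ^ n *
          (k * (((l : ℕ) + 1 : ℕ) * H ^ (l : ℕ) * (2 * T * H))) := by gcongr
      _ = 2 * ((((l : ℕ) + 1 : ℕ) : ℝ) * ((n + 1 : ℕ) : ℝ)) * (k : ℝ) ^ (n + 1) * T *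
          H ^ (((l : ℕ) + 1) * (n + 1)) := by
          rw [mul_pow, ← pow_mul]
          ring
      _ = 2 * k.factorial * (k : ℝ) ^ (n + 1) * T * H ^ k.factorial := by
          rw [hfacR, hfac]
      _ ≤ 2 * k.factorial * (k : ℝ) ^ k.factorial * T * H ^ k.factorial := by
          gcongr
  refine hmain.trans ?_
  have h1 : H ^ k.factorial ≤ c⁻¹ * ‖Th y‖ := by
    rw [Th_eq, le_inv_mul_iff₀ hc]
    exact hlow _
  calc 2 * k.factorial * (k : ℝ) ^ k.factorial * T * H ^ k.factorial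
      ≤ 2 * k.factorial * (k : ℝ) ^ k.factorial * T * (c⁻¹ * ‖Th y‖) := by gcongr
    _ = _ := by ring

end Vale.Agent.P247.H683.PS
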