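import Mathlib

/-!
# A planar inequality: functions with gradient a bounded measure are square integrable
-/

open scoped ContDiff Topology
open Set MeasureTheory Filter Metric

noncomputable section

namespace Vale.Agent.P247.H683

theorem one_dim {v v' : ℝ → ℝ} (hv : ∀ x, HasDerivAt v (v' x) x) (hv' : Continuous v')
    {a b : ℝ} (hab : a < b) {x : ℝ} (hx : x ∈ Icc a b) :
    |v x| ≤ (∫ y in Icc a b, |v y|) / (b - a) + ∫ y in Icc a b, |v' y| := by
  have hvc : Continuous v := continuous_iff_continuousAt.2 fun x => (hv x).continuousAt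
  have hL : 0 < b - a := sub_pos.2 hab
  have key : ∀ y ∈ Icc a b, |v x| ≤ |v y| + ∫ y in Icc a b, |v' y| := by
    intro y hy
    have h1 : ∫ t in y..x, v' t = v x - v y :=
      intervalIntegral.integral_eq_sub_of_hasDerivAt (fun t _ => hv t)
        (hv'.intervalIntegrable _ _)
    have h2 : |∫ t in y..x, v' t| ≤ ∫ t in Icc a b, |v' t| := by
      have h3 : ‖∫ t in y..x, v' t‖ ≤ ∫ t in Set.uIoc y x, ‖v' t‖ :=
        intervalIntegral.norm_integral_le_integral_norm_uIoc
      refine h3.trans ?_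
      refine setIntegral_mono_set ?_ ?_ ?_
      · exact (hv'.abs.integrableOn_Icc)
      · exact Eventually.of_forall fun t => abs_nonneg _
      · refine LE.le.eventuallyLE ?_
        intro t ht
        rw [Set.mem_uIoc] at ht
        rcases ht with ht | ht
        · exact ⟨hy.1.trans ht.1.le, ht.2.trans hx.2⟩
        · exact ⟨hx.1.trans ht.1.le, ht.2.trans hy.2⟩
    rw [h1] at h2
    have h4 : |v x| - |v y| ≤ |v x - v y| := abs_sub_abs_le_abs_sub _ _
    linarith
  have h5 : ∫ y in Icc a b, |v x| ≤ ∫ y in Icc a b, (|v y| + ∫ y in Icc a b, |v' y|) := by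
    refine setIntegral_mono_on ?_ ?_ measurableSet_Icc fun y hy => key y hy
    · exact continuous_const.integrableOn_Icc
    · exact (hvc.abs.add continuous_const).integrableOn_Icc
  rw [setIntegral_const, integral_add (hvc.abs.integrableOn_Icc)
    (continuous_const.integrableOn_Icc), setIntegral_const] at h5
  have hvol : (volume.real (Icc a b)) = b - a := by
    rw [Measure.real, Real.volume_Icc, ENNReal.toReal_ofReal hL.le]
  rw [hvol, smul_eq_mul, smul_eq_mul] at h5
  rw [div_add' _ _ _ hL.ne', le_div_iff₀ hL]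
  linarith

theorem gn_smooth {u : ℝ × ℝ → ℝ} (hu : ContDiff ℝ 1 u) {a b : ℝ} (hab : a < b) :
    ∫ p in Icc a b ×ˢ Icc a b, u p ^ 2 ≤
      ((∫ p in Icc a b ×ˢ Icc a b, |u p|) / (b - a) +
        ∫ p in Icc a b ×ˢ Icc a b, |fderiv ℝ u p (1, 0)|) *
      ((∫ p in Icc a b ×ˢ Icc a b, |u p|) / (b - a) +
        ∫ p in Icc a b ×ˢ Icc a b, |fderiv ℝ u p (0, 1)|) := by
  have hL : 0 < b - a := sub_pos.2 hab
  have hud : Differentiable ℝ u := hu.differentiable (by simp)
  have hf : Continuous (fderiv ℝ u) := hu.continuous_fderiv (by simp)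
  have h1c : Continuous fun p => fderiv ℝ u p (1, 0) := hf.clm_apply continuous_const
  have h2c : Continuous fun p => fderiv ℝ u p (0, 1) := hf.clm_apply continuous_const
  have hK : IsCompact (Icc a b ×ˢ Icc a b : Set (ℝ × ℝ)) := isCompact_Icc.prod isCompact_Icc
  have hint : ∀ f : ℝ × ℝ → ℝ, Continuous f → IntegrableOn f (Icc a b ×ˢ Icc a b) :=
    fun f hf => hf.continuousOn.integrableOn_compact hK
  set P : ℝ → ℝ := fun t => (∫ s in Icc a b, |u (s, t)|) / (b - a) +
    ∫ s in Icc a b, |fderiv ℝ u (s, t) (1, 0)| with hP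
  set R : ℝ → ℝ := fun s => (∫ t in Icc a b, |u (s, t)|) / (b - a) +
    ∫ t in Icc a b, |fderiv ℝ u (s, t) (0, 1)| with hR
  have hcont : ∀ f : ℝ × ℝ → ℝ, Continuous f →
      (Continuous fun t => ∫ s in Icc a b, f (s, t)) ∧
      (Continuous fun s => ∫ t in Icc a b, f (s, t)) := by
    intro f hf
    constructor
    · exact continuous_parametric_integral_of_continuous (by fun_prop) isCompact_Icc
    · exact continuous_parametric_integral_of_continuous (by fun_prop) isCompact_Icc
  have hPc : Continuous P := ((hcont _ hu.continuous.abs).1.div_const _).add (hcont _ h1c.abs).1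
  have hRc : Continuous R := ((hcont _ hu.continuous.abs).2.div_const _).add (hcont _ h2c.abs).2
  have hPb : ∀ s ∈ Icc a b, ∀ t, |u (s, t)| ≤ P t := by
    intro s hs t
    refine one_dim (v := fun s => u (s, t)) (v' := fun s => fderiv ℝ u (s, t) (1, 0)) ?_ ?_ hab hs
    · intro x
      have h1 : HasDerivAt (fun s : ℝ => (s, t)) ((1 : ℝ), (0 : ℝ)) x :=
        (hasDerivAt_id x).prodMk (hasDerivAt_const x t)
      exact (hud (x, t)).hasFDerivAt.comp_hasDerivAt x h1
    · exact h1c.comp (by fun_prop)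
  have hRb : ∀ s, ∀ t ∈ Icc a b, |u (s, t)| ≤ R s := by
    intro s t ht
    refine one_dim (v := fun t => u (s, t)) (v' := fun t => fderiv ℝ u (s, t) (0, 1)) ?_ ?_ hab ht
    · intro x
      have h1 : HasDerivAt (fun t : ℝ => (s, t)) ((0 : ℝ), (1 : ℝ)) x :=
        (hasDerivAt_const x s).prodMk (hasDerivAt_id x)
      exact (hud (s, x)).hasFDerivAt.comp_hasDerivAt x h1
    · exact h2c.comp (by fun_prop)
  have h3 : ∫ p in Icc a b ×ˢ Icc a b, u p ^ 2 ≤ ∫ p in Icc a b ×ˢ Icc a b, R p.1 * P p.2 := by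
    refine setIntegral_mono_on (hint _ (hu.continuous.pow 2)) (hint _ ?_)
      (measurableSet_Icc.prod measurableSet_Icc) ?_
    · exact (hRc.comp continuous_fst).mul (hPc.comp continuous_snd)
    · rintro ⟨s, t⟩ ⟨hs, ht⟩
      have := mul_le_mul (hRb s t ht) (hPb s hs t) (abs_nonneg _)
        ((abs_nonneg _).trans (hRb s t ht))
      rwa [← abs_mul, ← pow_two, abs_of_nonneg (sq_nonneg _)] at this
  have h4 : ∫ p in Icc a b ×ˢ Icc a b, R p.1 * P p.2
      = (∫ s in Icc a b, R s) * ∫ t in Icc a b, P t := by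
    rw [Measure.volume_eq_prod]
    exact setIntegral_prod_mul R P (Icc a b) (Icc a b)
  have hsw : ∀ f : ℝ × ℝ → ℝ, Continuous f →
      (∫ s in Icc a b, ∫ t in Icc a b, f (s, t)) = ∫ p in Icc a b ×ˢ Icc a b, f p ∧
      (∫ t in Icc a b, ∫ s in Icc a b, f (s, t)) = ∫ p in Icc a b ×ˢ Icc a b, f p := by
    intro f hf
    have h5 : (∫ s in Icc a b, ∫ t in Icc a b, f (s, t)) = ∫ p in Icc a b ×ˢ Icc a b, f p := by
      have := setIntegral_prod (μ := (volume : Measure ℝ)) (ν := (volume : Measure ℝ)) f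
        (s := Icc a b) (t := Icc a b) (by rw [← Measure.volume_eq_prod]; exact hint f hf)
      rw [Measure.volume_eq_prod]
      exact this.symm
    refine ⟨h5, ?_⟩
    rw [← h5]
    exact (integral_integral_swap (μ := volume.restrict (Icc a b))
      (ν := volume.restrict (Icc a b)) (f := fun t s => f (s, t)) (by
        have h6 := (hint (fun p => f (p.2, p.1)) (hf.comp (by fun_prop)))
        rw [IntegrableOn, Measure.volume_eq_prod, ← Measure.prod_restrict] at h6
        exact h6))
  have hintP : ∫ t in Icc a b, P t = (∫ p in Icc a b ×ˢ Icc a b, |u p|) / (b - a) +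
      ∫ p in Icc a b ×ˢ Icc a b, |fderiv ℝ u p (1, 0)| := by
    rw [hP, integral_add (((hcont _ hu.continuous.abs).1.div_const _).integrableOn_Icc)
      ((hcont _ h1c.abs).1.integrableOn_Icc), integral_div,
      (hsw (fun p => |u p|) hu.continuous.abs).2, (hsw (fun p => |fderiv ℝ u p (1, 0)|) h1c.abs).2]
  have hintR : ∫ t in Icc a b, R t = (∫ p in Icc a b ×ˢ Icc a b, |u p|) / (b - a) +
      ∫ p in Icc a b ×ˢ Icc a b, |fderiv ℝ u p (0, 1)| := by
    rw [hR, integral_add (((hcont _ hu.continuous.abs).2.div_const _).integrableOn_Icc)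
      ((hcont _ h2c.abs).2.integrableOn_Icc), integral_div,
      (hsw (fun p => |u p|) hu.continuous.abs).1, (hsw (fun p => |fderiv ℝ u p (0, 1)|) h2c.abs).1]
  rw [h4, hintP, hintR, mul_comm] at h3
  exact h3

end Vale.Agent.P247.H683
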