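import Vale.Agent.P247.H683.Planar

/-!
# The planar inequality for functions whose gradient is a bounded measure
-/

open scoped ContDiff Topology Convolution
open Set MeasureTheory Filter Metric ContinuousLinearMap

noncomputable section

namespace Vale.Agent.P247.H683

/-- the open square -/
def Sq : Set (ℝ × ℝ) := Ioo (-1 : ℝ) 1 ×ˢ Ioo (-1 : ℝ) 1

/-- the small closed square -/
def sq : Set (ℝ × ℝ) := Icc (-(1 / 2) : ℝ) (1 / 2) ×ˢ Icc (-(1 / 2) : ℝ) (1 / 2)

/-- the distributional derivative of `g` in direction `e` on the open square has mass at most `K` -/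
def GradLe (g : ℝ × ℝ → ℝ) (e : ℝ × ℝ) (K : ℝ) : Prop := ∀ φ : ℝ × ℝ → ℝ, ContDiff ℝ ∞ φ →
  HasCompactSupport φ → tsupport φ ⊆ Sq → (∀ p, |φ p| ≤ 1) → |∫ p, g p * fderiv ℝ φ p e| ≤ K

section

variable {η : ℝ × ℝ → ℝ} (hη : ContDiff ℝ ∞ η) (hc : HasCompactSupport η)

include hη hc in
theorem fderiv_conv {f : ℝ × ℝ → ℝ} (hf : LocallyIntegrable f) (x e : ℝ × ℝ) :
    fderiv ℝ (η ⋆[lsmul ℝ ℝ, volume] f) x e = ∫ q, fderiv ℝ η (x - q) e * f q := by
  have h1 := (hc.hasFDerivAt_convolution_left (lsmul ℝ ℝ) (hη.of_le (by simp)) hf x).fderiv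
  have hce : ConvolutionExistsAt (fderiv ℝ η) f x ((lsmul ℝ ℝ).precompL (ℝ × ℝ)) volume :=
    (hc.fderiv ℝ).convolutionExists_left _ (hη.continuous_fderiv (by simp)) hf x
  rw [h1, convolution_eq_swap, ContinuousLinearMap.integral_apply]
  · rfl
  · have h2 := hce.integrable_swap
    exact h2

end

/-- the duality behind `GradLe` -/
theorem grad_conv {η : ℝ × ℝ → ℝ} (hη : ContDiff ℝ ∞ η) (hc : HasCompactSupport η)
    (hev : ∀ x, η (-x) = η x) (hpos : ∀ x, 0 ≤ η x) (hint : ∫ x, η x = 1)
    (hsup : tsupport η ⊆ closedBall 0 (1 / 4))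
    {g : ℝ × ℝ → ℝ} (hg : Integrable g) {e : ℝ × ℝ} {K : ℝ} (hK : GradLe g e K) :
    ∫ x in sq, |fderiv ℝ (η ⋆[lsmul ℝ ℝ, volume] g) x e| ≤ K := by
  have hodd : ∀ x, fderiv ℝ η (-x) e = - fderiv ℝ η x e := by
    intro x
    have h1 : η = fun y => η (-y) := funext fun y => (hev y).symm
    have h2 : HasFDerivAt (fun y : ℝ × ℝ => η (-y)) ((fderiv ℝ η (-(-x))).comp
        (-ContinuousLinearMap.id ℝ (ℝ × ℝ))) (-x) := by
      have h3 : HasFDerivAt (fun y : ℝ × ℝ => -y) (-ContinuousLinearMap.id ℝ (ℝ × ℝ)) (-x) :=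
        (hasFDerivAt_id (-x)).neg
      exact ((hη.differentiable (by simp)) (-(-x))).hasFDerivAt.comp (-x) h3
    have h4 : fderiv ℝ η (-x) = (fderiv ℝ η (-(-x))).comp
        (-ContinuousLinearMap.id ℝ (ℝ × ℝ)) := by
      conv_lhs => rw [h1]
      exact h2.fderiv
    rw [h4]
    simp
  have hDc : Continuous fun x => fderiv ℝ η x e :=
    (hη.continuous_fderiv (by simp)).clm_apply continuous_const
  have hgs : ContDiff ℝ ∞ (η ⋆[lsmul ℝ ℝ, volume] g) :=
    hc.contDiff_convolution_left _ hη hg.locallyIntegrable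
  have hGc : Continuous fun x => fderiv ℝ (η ⋆[lsmul ℝ ℝ, volume] g) x e :=
    (hgs.continuous_fderiv (by simp)).clm_apply continuous_const
  have hsqm : MeasurableSet sq := measurableSet_Icc.prod measurableSet_Icc
  have hsqc : IsCompact sq := isCompact_Icc.prod isCompact_Icc
  set G : ℝ × ℝ → ℝ := fun x => fderiv ℝ (η ⋆[lsmul ℝ ℝ, volume] g) x e with hG
  set ψ : ℝ × ℝ → ℝ := sq.indicator fun x => if 0 ≤ G x then (1 : ℝ) else -1 with hψ
  have hψm : Measurable ψ := by
    refine Measurable.indicator ?_ hsqm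
    exact Measurable.ite (measurableSet_le measurable_const hGc.measurable) measurable_const
      measurable_const
  have hψ1 : ∀ x, |ψ x| ≤ 1 := by
    intro x
    by_cases hx : x ∈ sq
    · rw [hψ, indicator_of_mem hx]
      split_ifs <;> simp
    · simp [hψ, indicator_of_notMem hx]
  have hψi : Integrable ψ := by
    have h1 : IntegrableOn (fun _ : ℝ × ℝ => (1 : ℝ)) sq := continuous_const.continuousOn.integrableOn_compact hsqc
    have h2 : Integrable (sq.indicator fun _ : ℝ × ℝ => (1 : ℝ)) := (integrable_indicator_iff hsqm).2 h1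
    refine h2.mono' hψm.aestronglyMeasurable (Eventually.of_forall fun x => ?_)
    rw [Real.norm_eq_abs]
    by_cases hx : x ∈ sq
    · rw [indicator_of_mem hx]; exact hψ1 x
    · simp [hψ, indicator_of_notMem hx]
  have h1 : ∫ x in sq, |G x| = ∫ x, ψ x * G x := by
    rw [← integral_indicator hsqm]
    refine integral_congr_ae (Eventually.of_forall fun x => ?_)
    simp only
    by_cases hx : x ∈ sq
    · rw [indicator_of_mem hx, hψ, indicator_of_mem hx]
      split_ifs with h
      · rw [abs_of_nonneg h, one_mul]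
      · rw [abs_of_neg (not_le.1 h), neg_one_mul]
    · rw [indicator_of_notMem hx, hψ, indicator_of_notMem hx, zero_mul]
  set φ : ℝ × ℝ → ℝ := η ⋆[lsmul ℝ ℝ, volume] ψ with hφ
  have hφs : ContDiff ℝ ∞ φ := hc.contDiff_convolution_left _ hη hψi.locallyIntegrable
  have hφ1 : ∀ x, |φ x| ≤ 1 := by
    intro x
    have h2 : |φ x| ≤ ∫ t, η t := by
      rw [hφ, convolution_lsmul, ← Real.norm_eq_abs]
      refine norm_integral_le_of_norm_le (hη.continuous.integrable_of_hasCompactSupport hc)
        (Eventually.of_forall fun t => ?_)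
      rw [norm_smul, Real.norm_eq_abs, Real.norm_eq_abs, abs_of_nonneg (hpos t)]
      exact mul_le_of_le_one_right (hpos t) (hψ1 _)
    rwa [hint] at h2
  have hsupp : Function.support φ ⊆ Icc (-(3 / 4) : ℝ) (3 / 4) ×ˢ Icc (-(3 / 4) : ℝ) (3 / 4) := by
    refine (support_convolution_subset _).trans ?_
    rintro x ⟨a, ha, b, hb, rfl⟩
    have ha' := hsup (subset_tsupport _ ha)
    have hb' : b ∈ sq := by
      by_contra hb'
      exact hb (by simp [hψ, indicator_of_notMem hb'])
    rw [mem_closedBall, dist_zero_right, Prod.norm_def, max_le_iff, Real.norm_eq_abs,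
      Real.norm_eq_abs, abs_le, abs_le] at ha'
    obtain ⟨⟨hb1, hb2⟩, hb3, hb4⟩ := hb'
    refine ⟨⟨?_, ?_⟩, ?_, ?_⟩
    · show _ ≤ a.1 + b.1
      linarith [ha'.1.1]
    · show a.1 + b.1 ≤ _
      linarith [ha'.1.2]
    · show _ ≤ a.2 + b.2
      linarith [ha'.2.1]
    · show a.2 + b.2 ≤ _
      linarith [ha'.2.2]
  have hts : tsupport φ ⊆ Icc (-(3 / 4) : ℝ) (3 / 4) ×ˢ Icc (-(3 / 4) : ℝ) (3 / 4) :=
    closure_minimal hsupp (isClosed_Icc.prod isClosed_Icc)
  have hφc : HasCompactSupport φ :=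
    (isCompact_Icc.prod isCompact_Icc).of_isClosed_subset (isClosed_tsupport _) hts
  have hφS : tsupport φ ⊆ Sq := hts.trans (Set.prod_mono
    (fun t ht => ⟨by linarith [ht.1], by linarith [ht.2]⟩)
    (fun t ht => ⟨by linarith [ht.1], by linarith [ht.2]⟩))
  have h2 : ∫ x, ψ x * G x = - ∫ q, g q * fderiv ℝ φ q e := by
    have h3 : ∀ x, ψ x * G x = ∫ q, ψ x * (fderiv ℝ η (x - q) e * g q) := by
      intro x
      rw [hG]
      simp only
      rw [fderiv_conv hη hc hg.locallyIntegrable, integral_const_mul]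
    have h4 : ∀ q, g q * fderiv ℝ φ q e = - ∫ x, ψ x * (fderiv ℝ η (x - q) e * g q) := by
      intro q
      rw [hφ, fderiv_conv hη hc hψi.locallyIntegrable, ← integral_const_mul, ← integral_neg]
      refine integral_congr_ae (Eventually.of_forall fun x => ?_)
      simp only
      have := hodd (x - q)
      rw [neg_sub] at this
      rw [this]
      ring
    simp_rw [h3, h4]
    rw [integral_neg, neg_neg]
    refine integral_integral_swap ?_
    obtain ⟨C, hC⟩ := (hc.fderiv_apply (𝕜 := ℝ) e).exists_bound_of_continuous hDc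
    have h5 : Integrable (fun z : (ℝ × ℝ) × (ℝ × ℝ) => ψ z.1 * g z.2) (volume.prod volume) :=
      hψi.mul_prod hg
    have h6 : Integrable (fun z : (ℝ × ℝ) × (ℝ × ℝ) => fderiv ℝ η (z.1 - z.2) e *
        (ψ z.1 * g z.2)) (volume.prod volume) := by
      refine h5.bdd_mul (c := C) ?_ ?_
      · exact (hDc.comp (by fun_prop)).aestronglyMeasurable
      · exact Eventually.of_forall fun z => hC _
    refine h6.congr (Eventually.of_forall fun z => ?_)
    simp only [Function.uncurry]
    ring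
  rw [h1, h2]
  exact (neg_le_abs _).trans (hK φ hφs hφc hφS hφ1)

/-- The planar inequality. -/
theorem planar {g : ℝ × ℝ → ℝ} (hg : Integrable g) {K : ℝ} (h1 : GradLe g (1, 0) K)
    (h2 : GradLe g (0, 1) K) :
    ∫⁻ x in sq, ENNReal.ofReal (g x ^ 2) ≤ ENNReal.ofReal (((∫ x, |g x|) + K) ^ 2) := by
  set b : ℕ → ContDiffBump (0 : ℝ × ℝ) := fun n =>
    { rIn := 1 / (8 * ((n : ℝ) + 1))
      rOut := 1 / (4 * ((n : ℝ) + 1))
      rIn_pos := by positivity
      rIn_lt_rOut := by
        rw [div_lt_div_iff₀ (by positivity) (by positivity)]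
        have : (0 : ℝ) < (n : ℝ) + 1 := by positivity
        linarith } with hb
  have hout : Tendsto (fun n => (b n).rOut) atTop (𝓝 0) := by
    have h3 : (fun n => (b n).rOut) = fun n : ℕ => (1 / 4 : ℝ) * (1 / ((n : ℝ) + 1)) := by
      funext n
      show (1 : ℝ) / (4 * ((n : ℝ) + 1)) = _
      rw [one_div_mul_one_div]
    rw [h3]
    have := (tendsto_one_div_add_atTop_nhds_zero_nat (𝕜 := ℝ)).const_mul (1 / 4 : ℝ)
    simpa using this
  have hae := ContDiffBump.ae_convolution_tendsto_right_of_locallyIntegrable (μ := volume)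
    (φ := b) (l := atTop) (K := 2) hout (Eventually.of_forall fun n => by
      show (1 : ℝ) / (4 * ((n : ℝ) + 1)) ≤ 2 * (1 / (8 * ((n : ℝ) + 1)))
      have : (0 : ℝ) < (n : ℝ) + 1 := by positivity
      apply le_of_eq
      field_simp
      norm_num) hg.locallyIntegrable
  set η : ℕ → ℝ × ℝ → ℝ := fun n => (b n).normed volume with hη
  have hηs : ∀ n, ContDiff ℝ ∞ (η n) := fun n => (b n).contDiff_normed
  have hηc : ∀ n, HasCompactSupport (η n) := fun n => (b n).hasCompactSupport_normed
  have hηt : ∀ n, tsupport (η n) ⊆ closedBall 0 (1 / 4) := by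
    intro n
    rw [hη]
    simp only
    rw [(b n).tsupport_normed_eq]
    refine closedBall_subset_closedBall ?_
    show (1 : ℝ) / (4 * ((n : ℝ) + 1)) ≤ 1 / 4
    rw [div_le_div_iff₀ (by positivity) (by positivity)]
    have : (0 : ℝ) ≤ (n : ℝ) := by positivity
    linarith
  have hn : ∀ n, ∫ x in sq, (η n ⋆[lsmul ℝ ℝ, volume] g) x ^ 2 ≤ ((∫ x, |g x|) + K) ^ 2 := by
    intro n
    have hs : ContDiff ℝ ∞ (η n ⋆[lsmul ℝ ℝ, volume] g) :=
      (hηc n).contDiff_convolution_left _ (hηs n) hg.locallyIntegrable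
    have h3 := gn_smooth (hs.of_le (by simp) : ContDiff ℝ 1 _) (a := -(1 / 2)) (b := 1 / 2)
      (by norm_num)
    have h4 := grad_conv (hηs n) (hηc n) ((b n).normed_neg) ((b n).nonneg_normed)
      ((b n).integral_normed) (hηt n) hg h1
    have h5 := grad_conv (hηs n) (hηc n) ((b n).normed_neg) ((b n).nonneg_normed)
      ((b n).integral_normed) (hηt n) hg h2
    have h6 : ∫ x in sq, |(η n ⋆[lsmul ℝ ℝ, volume] g) x| ≤ ∫ x, |g x| := by
      have h7 : ∀ x, |(η n ⋆[lsmul ℝ ℝ, volume] g) x| ≤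
          (η n ⋆[lsmul ℝ ℝ, volume] fun y => |g y|) x := by
        intro x
        rw [convolution_lsmul, convolution_lsmul, ← Real.norm_eq_abs]
        refine (norm_integral_le_integral_norm _).trans (le_of_eq ?_)
        refine integral_congr_ae (Eventually.of_forall fun t => ?_)
        simp only [Real.norm_eq_abs, smul_eq_mul]
        rw [abs_mul, abs_of_nonneg (show 0 ≤ η n t from (b n).nonneg_normed t)]
      have h8 : Integrable (η n ⋆[lsmul ℝ ℝ, volume] fun y => |g y|) :=
        Integrable.integrable_convolution _ (b n).integrable_normed hg.abs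
      have h9 : Integrable (η n ⋆[lsmul ℝ ℝ, volume] g) :=
        Integrable.integrable_convolution _ (b n).integrable_normed hg
      calc ∫ x in sq, |(η n ⋆[lsmul ℝ ℝ, volume] g) x|
          ≤ ∫ x, |(η n ⋆[lsmul ℝ ℝ, volume] g) x| :=
            setIntegral_le_integral h9.abs (Eventually.of_forall fun x => abs_nonneg _)
        _ ≤ ∫ x, (η n ⋆[lsmul ℝ ℝ, volume] fun y => |g y|) x :=
            integral_mono h9.abs h8 h7
        _ = ∫ x, |g x| := by
            rw [integral_convolution _ (b n).integrable_normed hg.abs, (b n).integral_normed]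
            simp
    have hL : (1 / 2 : ℝ) - -(1 / 2) = 1 := by norm_num
    rw [hL, div_one] at h3
    refine h3.trans ?_
    rw [pow_two]
    have h10 : (0 : ℝ) ≤ ∫ x in sq, |(η n ⋆[lsmul ℝ ℝ, volume] g) x| :=
      integral_nonneg fun x => abs_nonneg _
    refine mul_le_mul (add_le_add h6 h4) (add_le_add h6 h5) ?_ ?_
    · exact add_nonneg h10 (integral_nonneg fun x => abs_nonneg _)
    · exact add_nonneg (integral_nonneg fun x => abs_nonneg _)
        ((integral_nonneg fun x => abs_nonneg _).trans h4)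
  have hlim : ∀ᵐ x ∂(volume.restrict sq), Tendsto (fun n => ENNReal.ofReal
      ((η n ⋆[lsmul ℝ ℝ, volume] g) x ^ 2)) atTop (𝓝 (ENNReal.ofReal (g x ^ 2))) := by
    filter_upwards [ae_restrict_of_ae hae] with x hx
    exact (ENNReal.continuous_ofReal.tendsto _).comp (hx.pow 2)
  calc ∫⁻ x in sq, ENNReal.ofReal (g x ^ 2)
      = ∫⁻ x in sq, liminf (fun n => ENNReal.ofReal
          ((η n ⋆[lsmul ℝ ℝ, volume] g) x ^ 2)) atTop :=
        lintegral_congr_ae (hlim.mono fun x hx => hx.liminf_eq.symm)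
    _ ≤ liminf (fun n => ∫⁻ x in sq, ENNReal.ofReal
          ((η n ⋆[lsmul ℝ ℝ, volume] g) x ^ 2)) atTop := by
        refine lintegral_liminf_le fun n => ?_
        exact ENNReal.measurable_ofReal.comp
          (((hηc n).contDiff_convolution_left _ (hηs n) hg.locallyIntegrable).continuous.pow 2).measurable
    _ ≤ ENNReal.ofReal (((∫ x, |g x|) + K) ^ 2) := by
        refine liminf_le_of_frequently_le' (Frequently.of_forall fun n => ?_)
        have hs : Continuous (η n ⋆[lsmul ℝ ℝ, volume] g) :=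
          ((hηc n).contDiff_convolution_left _ (hηs n) hg.locallyIntegrable).continuous
        rw [← ofReal_integral_eq_lintegral_ofReal]
        · exact ENNReal.ofReal_le_ofReal (hn n)
        · exact (hs.pow 2).continuousOn.integrableOn_compact (isCompact_Icc.prod isCompact_Icc)
        · exact Eventually.of_forall fun x => sq_nonneg _

end Vale.Agent.P247.H683
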