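import Vale.Agent.P247.H683.Core

/-!
# P247, package CO: positivity in a box, covering, transversality of two boxes
-/

open scoped ContDiff Topology
open Set MeasureTheory Filter Metric

noncomputable section

namespace Vale.Agent.P247.H683

open Vale.Agent.P247.H74 Vale.Agent.P247.H574

variable {D : Data} (b : Box D)

theorem box_I {p : ℂ × ℂ} (hp : p ∈ PD 2) (w : ℂ) :
    D.J (b.Θ p) (fderiv ℝ b.Θ p (0, w)) = fderiv ℝ b.Θ p (0, Complex.I * w) := by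
  have h1 : ((0 : ℂ), w) = w.re • ((0 : ℂ), (1 : ℂ)) + w.im • ((0 : ℂ), Complex.I) := by
    ext <;> simp
  have h2 : ((0 : ℂ), Complex.I * w) = w.re • ((0 : ℂ), Complex.I) -
      w.im • ((0 : ℂ), (1 : ℂ)) := by
    refine Prod.ext (by simp) ?_
    apply Complex.ext <;> simp
  rw [h1, h2, map_add, map_add, map_sub, map_smul, map_smul, map_smul, map_smul, map_smul,
    map_smul, b.hol p hp, D.J_sq, smul_neg, sub_eq_add_neg]

theorem box_j {p : ℂ × ℂ} (hp : p ∈ PD 2) (ζ w : ℂ) : ∃ ξ w' : ℂ,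
    D.J (b.Θ p) (fderiv ℝ b.Θ p (ζ, w)) = fderiv ℝ b.Θ p (ξ, w') ∧
    ξ + b.m p * (starRingEnd ℂ) ξ = Complex.I * (ζ + b.m p * (starRingEnd ℂ) ζ) := by
  obtain ⟨ξ₀, h0⟩ := (b.graph p hp 0 (b.A p)).1 (by ring) ζ
  obtain ⟨ξ₁, h1⟩ := (b.graph p hp 1 (b.m p + b.A p)).1 (by ring) ζ
  rw [zero_mul, zero_mul, zero_add, zero_add] at h0
  rw [one_mul, one_mul] at h1
  have key : ∀ w, D.J (b.Θ p) (fderiv ℝ b.Θ p (ζ, w)) = fderiv ℝ b.Θ p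
      (ξ₀, b.A p * (starRingEnd ℂ) ξ₀ + Complex.I * (w - b.A p * (starRingEnd ℂ) ζ)) := by
    intro w
    have e1 : (ζ, w) = (ζ, b.A p * (starRingEnd ℂ) ζ) + ((0 : ℂ), w - b.A p * (starRingEnd ℂ) ζ) := by
      ext <;> simp
    have e2 : (ξ₀, b.A p * (starRingEnd ℂ) ξ₀ + Complex.I * (w - b.A p * (starRingEnd ℂ) ζ)) =
        (ξ₀, b.A p * (starRingEnd ℂ) ξ₀) + ((0 : ℂ), Complex.I * (w - b.A p * (starRingEnd ℂ) ζ)) := by
      ext <;> simp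
    rw [e1, e2, map_add, map_add, map_add, h0, box_I b hp]
  refine ⟨ξ₀, _, key w, ?_⟩
  have h2 := (key (ζ + (b.m p + b.A p) * (starRingEnd ℂ) ζ)).symm.trans h1
  have h3 := (b.imm p hp).1 h2
  have h4 : ξ₀ = ξ₁ := congrArg Prod.fst h3
  have h5 : b.A p * (starRingEnd ℂ) ξ₀ + Complex.I * (ζ + (b.m p + b.A p) * (starRingEnd ℂ) ζ -
      b.A p * (starRingEnd ℂ) ζ) = ξ₁ + (b.m p + b.A p) * (starRingEnd ℂ) ξ₁ := congrArg Prod.snd h3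
  rw [← h4] at h5
  linear_combination -h5

theorem area_lower {m ζ ξ : ℂ} (hm : ‖m‖ ≤ 1 / 2)
    (h : ξ + m * (starRingEnd ℂ) ξ = Complex.I * (ζ + m * (starRingEnd ℂ) ζ)) :
    ‖ζ‖ ^ 2 / 3 ≤ ζ.re * ξ.im - ζ.im * ξ.re := by
  have h1 := congrArg Complex.re h
  have h2 := congrArg Complex.im h
  simp at h1 h2
  have h3 : |((starRingEnd ℂ) m * ζ ^ 2).re| ≤ ‖m‖ * ‖ζ‖ ^ 2 := by
    refine (Complex.abs_re_le_norm _).trans ?_
    rw [norm_mul, norm_pow, Complex.norm_conj]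
  have h4 : ((starRingEnd ℂ) m * ζ ^ 2).re = m.re * (ζ.re ^ 2 - ζ.im ^ 2) +
      2 * m.im * ζ.re * ζ.im := by
    simp [pow_two]
    ring
  rw [h4] at h3
  have h5 : ‖ζ‖ ^ 2 = ζ.re ^ 2 + ζ.im ^ 2 := by
    rw [Complex.sq_norm, Complex.normSq_apply]; ring
  have h6 : ‖m‖ ^ 2 = m.re ^ 2 + m.im ^ 2 := by
    rw [Complex.sq_norm, Complex.normSq_apply]; ring
  set r := ‖m‖ with hr
  have hr0 : 0 ≤ r := norm_nonneg _
  set a := m.re
  set c := m.im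
  set x := ζ.re
  set y := ζ.im
  set s := ξ.re
  set t := ξ.im
  rw [h5] at h3 ⊢
  have h7 : (1 - r ^ 2) * (x * t - y * s) = (1 + r ^ 2) * (x ^ 2 + y ^ 2) +
      2 * (a * (x ^ 2 - y ^ 2) + 2 * c * x * y) := by
    rw [h6]
    have e1 : (1 + a) * s + c * t + (c * x + (1 - a) * y) = 0 := by linarith
    have e2 : c * s + (1 - a) * t - ((1 + a) * x + c * y) = 0 := by linarith
    linear_combination (-(1 - a) * y - c * x) * e1 + ((1 + a) * x + c * y) * e2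
  have h8 := (abs_le.1 h3).1
  have h9 : (1 - r) ^ 2 * (x ^ 2 + y ^ 2) ≤ (1 - r ^ 2) * (x * t - y * s) := by
    rw [h7]; nlinarith
  have h10 : 0 < 1 - r ^ 2 := by nlinarith
  have h11 : (1 - r ^ 2) * ((x ^ 2 + y ^ 2) / 3) ≤ (1 - r) ^ 2 * (x ^ 2 + y ^ 2) := by
    have : (1 - r ^ 2) / 3 ≤ (1 - r) ^ 2 := by nlinarith
    nlinarith [sq_nonneg x, sq_nonneg y, mul_le_mul_of_nonneg_right this
      (by positivity : 0 ≤ x ^ 2 + y ^ 2)]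
  exact le_of_mul_le_mul_left (h11.trans h9) h10

theorem P1_Θ {p : ℂ × ℂ} (hp : p ∈ PD 2) (v : ℂ × ℂ) : P1 b (b.Θ p) (fderiv ℝ b.Θ p v) = v.1 := by
  rw [P1, ContinuousLinearMap.comp_apply, dinv b hp]
  rfl

theorem pf_pos (hm : ∀ p ∈ PD 2, ‖b.m p‖ ≤ 1 / 2) {f : ℂ × ℂ → ℝ} (hf : ∀ p, 0 ≤ f p) (x u : R4) :
    ext b f x * (‖P1 b x u‖ ^ 2 / 3) ≤ pf b f x u (D.J x u) := by
  by_cases hx : x ∈ b.Θ '' PD 2
  · obtain ⟨p, hp, rfl⟩ := hx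
    obtain ⟨⟨ζ, w⟩, rfl⟩ := (b.imm p hp).2 u
    obtain ⟨ξ, w', h1, h2⟩ := box_j b hp ζ w
    rw [pf_ap, h1, P1_Θ b hp, P1_Θ b hp, ext_Θ b f hp]
    exact mul_le_mul_of_nonneg_left (area_lower (hm p hp) h2) (hf p)
  · rw [pf_ap, ext_off b f hx, zero_mul, zero_mul]

theorem ext_nn {f : ℂ × ℂ → ℝ} (hf : ∀ p, 0 ≤ f p) (x : R4) : 0 ≤ ext b f x := by
  by_cases hx : x ∈ b.Θ '' PD 2
  · rw [ext_on b f hx]; exact hf _
  · rw [ext_off b f hx]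

theorem pf_nn (hm : ∀ p ∈ PD 2, ‖b.m p‖ ≤ 1 / 2) {f : ℂ × ℂ → ℝ} (hf : ∀ p, 0 ≤ f p) (x u : R4) :
    0 ≤ pf b f x u (D.J x u) :=
  (mul_nonneg (ext_nn b hf x) (by positivity)).trans (pf_pos b hm hf x u)

/-- the image of a box contains a ball -/
theorem ball_sub {M : ℝ} (hM : 0 < M)
    (lo : ∀ p ∈ PD 2, ∀ q ∈ PD 2, ‖p - q‖ ≤ M * ‖b.Θ p - b.Θ q‖) {r : ℝ} (hr : 0 < r) (hr2 : r < 2) :
    ball (b.Θ 0) (r / M) ⊆ b.Θ '' ball 0 r := by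
  have hPD : closedBall (0 : ℂ × ℂ) r ⊆ PD 2 := by
    intro p hp
    rw [mem_closedBall_zero_iff] at hp
    refine ⟨?_, ?_⟩
    · rw [mem_ball_zero_iff]; exact ((norm_fst_le p).trans hp).trans_lt hr2
    · rw [mem_ball_zero_iff]; exact ((norm_snd_le p).trans hp).trans_lt hr2
  have h0 : (0 : ℂ × ℂ) ∈ PD 2 := hPD (by simp [hr.le])
  have hb : ball (0 : ℂ × ℂ) r ⊆ PD 2 := ball_subset_closedBall.trans hPD
  refine (convex_ball (b.Θ 0) (r / M)).isPreconnected.subset_of_closure_inter_subset ?_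
    ⟨b.Θ 0, mem_ball_self (by positivity), 0, mem_ball_self hr, rfl⟩ ?_
  · rw [isOpen_iff_mem_nhds]
    rintro _ ⟨p, hp, rfl⟩
    have h1 : ∀ᶠ y in 𝓝 (b.Θ p), inv b y ∈ ball (0 : ℂ × ℂ) r := by
      apply (nhd b (hb hp)).1.continuousAt.eventually_mem
      rw [inv_Θ b (hb hp)]
      exact isOpen_ball.mem_nhds hp
    filter_upwards [(nhd b (hb hp)).2, h1] with y hy hy'
    exact ⟨inv b y, hy', hy.2⟩
  · rintro x ⟨hx, hx2⟩
    have hc : IsClosed (b.Θ '' closedBall 0 r) :=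
      ((isCompact_closedBall _ _).image_of_continuousOn (b.smooth.continuousOn.mono hPD)).isClosed
    obtain ⟨p, hp, rfl⟩ := closure_minimal (image_mono ball_subset_closedBall) hc hx
    refine ⟨p, ?_, rfl⟩
    rw [mem_ball, dist_eq_norm, lt_div_iff₀ hM] at hx2
    rw [mem_ball_zero_iff]
    have h2 := lo p (hPD hp) 0 h0
    rw [sub_zero] at h2
    linarith

end Vale.Agent.P247.H683
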