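import Vale.Agent.P247.H683.Cur

/-!
# P247, package CO: transport of forms by a box
-/

open scoped ContDiff Topology
open Set MeasureTheory Filter Metric

noncomputable section

namespace Vale.Agent.P247.H683

open Vale.Agent.P247.H74 Vale.Agent.P247.H574

theorem cont_glue {X Y : Type*} [TopologicalSpace X] [TopologicalSpace Y] [Zero Y] {f : X → Y}
    {U K : Set X} (hU : IsOpen U) (hK : IsClosed K) (hKU : K ⊆ U) (hf : ContinuousOn f U)
    (h0 : ∀ x ∉ K, f x = 0) : Continuous f := by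
  rw [continuous_iff_continuousAt]
  intro x
  by_cases hx : x ∈ K
  · exact hf.continuousAt (hU.mem_nhds (hKU hx))
  · have : f =ᶠ[𝓝 x] fun _ => 0 := by
      filter_upwards [hK.isOpen_compl.mem_nhds hx] with y hy using h0 y hy
    exact continuousAt_const.congr this.symm

theorem contDiff_glue {E F : Type*} [NormedAddCommGroup E] [NormedSpace ℝ E]
    [NormedAddCommGroup F] [NormedSpace ℝ F] {f : E → F}
    {U K : Set E} (hU : IsOpen U) (hK : IsClosed K) (hKU : K ⊆ U) (hf : ContDiffOn ℝ ∞ f U)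
    (h0 : ∀ x ∉ K, f x = 0) : ContDiff ℝ ∞ f := by
  rw [contDiff_iff_contDiffAt]
  intro x
  by_cases hx : x ∈ K
  · exact hf.contDiffAt (hU.mem_nhds (hKU hx))
  · have : f =ᶠ[𝓝 x] fun _ => 0 := by
      filter_upwards [hK.isOpen_compl.mem_nhds hx] with y hy using h0 y hy
    exact contDiffAt_const.congr_of_eventuallyEq this

theorem isOpen_PD (r : ℝ) : IsOpen (PD r) := isOpen_ball.prod isOpen_ball

variable {D : Data} (b : Box D)

/-- inverse of the chart -/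
def inv (x : R4) : ℂ × ℂ := Function.invFunOn b.Θ (PD 2) x

theorem injOn : Set.InjOn b.Θ (PD 2) := fun p hp q hq h =>
  (b.inj p hp q hq 0 (by
    rw [h]
    funext i
    simp [tr])).1

theorem inv_Θ {p : ℂ × ℂ} (hp : p ∈ PD 2) : inv b (b.Θ p) = p :=
  (injOn b).leftInvOn_invFunOn hp

theorem Θ_cdAt {p : ℂ × ℂ} (hp : p ∈ PD 2) : ContDiffAt ℝ ∞ b.Θ p :=
  b.smooth.contDiffAt ((isOpen_PD 2).mem_nhds hp)

theorem nhd {p : ℂ × ℂ} (hp : p ∈ PD 2) : ContDiffAt ℝ ∞ (inv b) (b.Θ p) ∧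
    ∀ᶠ y in 𝓝 (b.Θ p), inv b y ∈ PD 2 ∧ b.Θ (inv b y) = y := by
  have h1 : ContDiffAt ℝ ∞ b.Θ p := Θ_cdAt b hp
  have hbij := b.imm p hp
  set L : (ℂ × ℂ) ≃L[ℝ] R4 := ContinuousLinearEquiv.ofBijective (fderiv ℝ b.Θ p)
    (LinearMap.ker_eq_bot.2 hbij.1) (LinearMap.range_eq_top.2 hbij.2) with hL
  have hLc : (L : (ℂ × ℂ) →L[ℝ] R4) = fderiv ℝ b.Θ p :=
    ContinuousLinearMap.ext fun v => by
      rw [hL]
      rfl
  have h2 : HasFDerivAt b.Θ (L : (ℂ × ℂ) →L[ℝ] R4) p := by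
    rw [hLc]
    exact (h1.differentiableAt (by simp)).hasFDerivAt
  have h3 := h1.to_localInverse h2 (by simp)
  have hs : HasStrictFDerivAt b.Θ (L : (ℂ × ℂ) →L[ℝ] R4) p := h1.hasStrictFDerivAt' h2 (by simp)
  have h4 : ∀ᶠ y in 𝓝 (b.Θ p), b.Θ (h1.localInverse h2 (by simp) y) = y :=
    hs.eventually_right_inverse
  have h5 : h1.localInverse h2 (by simp) (b.Θ p) = p := hs.localInverse_apply_image
  have h6 : ∀ᶠ y in 𝓝 (b.Θ p), h1.localInverse h2 (by simp) y ∈ PD 2 := by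
    have := h3.continuousAt
    apply this.eventually_mem
    rw [h5]
    exact (isOpen_PD 2).mem_nhds hp
  have h7 : ∀ᶠ y in 𝓝 (b.Θ p), inv b y = h1.localInverse h2 (by simp) y := by
    filter_upwards [h4, h6] with y hy hy'
    conv_lhs => rw [← hy]
    exact inv_Θ b hy'
  refine ⟨h3.congr_of_eventuallyEq h7, ?_⟩
  filter_upwards [h4, h6, h7] with y hy hy' hy''
  rw [hy'']
  exact ⟨hy', hy⟩

theorem isOpen_im : IsOpen (b.Θ '' PD 2) := by
  rw [isOpen_iff_mem_nhds]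
  rintro _ ⟨p, hp, rfl⟩
  filter_upwards [(nhd b hp).2] with y hy
  exact ⟨inv b y, hy.1, hy.2⟩

theorem inv_smooth : ContDiffOn ℝ ∞ (inv b) (b.Θ '' PD 2) := by
  rintro _ ⟨p, hp, rfl⟩
  exact (nhd b hp).1.contDiffWithinAt

theorem inv_mem {x : R4} (hx : x ∈ b.Θ '' PD 2) : inv b x ∈ PD 2 := by
  obtain ⟨p, hp, rfl⟩ := hx
  rwa [inv_Θ b hp]

theorem Θ_inv {x : R4} (hx : x ∈ b.Θ '' PD 2) : b.Θ (inv b x) = x := by
  obtain ⟨p, hp, rfl⟩ := hx
  rw [inv_Θ b hp]

theorem dinv {p : ℂ × ℂ} (hp : p ∈ PD 2) (v : ℂ × ℂ) :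
    fderiv ℝ (inv b) (b.Θ p) (fderiv ℝ b.Θ p v) = v := by
  have h1 : HasFDerivAt (inv b ∘ b.Θ) ((fderiv ℝ (inv b) (b.Θ p)).comp (fderiv ℝ b.Θ p)) p :=
    ((nhd b hp).1.differentiableAt (by simp)).hasFDerivAt.comp p
      ((Θ_cdAt b hp).differentiableAt (by simp)).hasFDerivAt
  have h2 : HasFDerivAt (inv b ∘ b.Θ) (ContinuousLinearMap.id ℝ (ℂ × ℂ)) p := by
    refine (hasFDerivAt_id p).congr_of_eventuallyEq ?_
    filter_upwards [(isOpen_PD 2).mem_nhds hp] with q hq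
    exact inv_Θ b hq
  exact DFunLike.congr_fun (h1.unique h2) v

theorem dinv_bound {M : ℝ} (hM : 0 ≤ M)
    (lo : ∀ p ∈ PD 2, ∀ q ∈ PD 2, ‖p - q‖ ≤ M * ‖b.Θ p - b.Θ q‖) {x : R4}
    (hx : x ∈ b.Θ '' PD 2) : ‖fderiv ℝ (inv b) x‖ ≤ M := by
  refine norm_fderiv_le_of_lip' ℝ hM ?_
  filter_upwards [(isOpen_im b).mem_nhds hx] with y hy
  have := lo _ (inv_mem b hy) _ (inv_mem b hx)
  rwa [Θ_inv b hy, Θ_inv b hx] at this

/-- the `z`-component of the derivative of the inverse -/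
def P1 (x : R4) : R4 →L[ℝ] ℂ := (ContinuousLinearMap.fst ℝ ℂ ℂ).comp (fderiv ℝ (inv b) x)

open Classical in
/-- extension by zero -/
def ext (f : ℂ × ℂ → ℝ) (x : R4) : ℝ := if x ∈ b.Θ '' PD 2 then f (inv b x) else 0

theorem ext_Θ (f : ℂ × ℂ → ℝ) {p : ℂ × ℂ} (hp : p ∈ PD 2) : ext b f (b.Θ p) = f p := by
  rw [ext, if_pos ⟨p, hp, rfl⟩, inv_Θ b hp]

theorem ext_off (f : ℂ × ℂ → ℝ) {x : R4} (hx : x ∉ b.Θ '' PD 2) : ext b f x = 0 := if_neg hx

theorem ext_on (f : ℂ × ℂ → ℝ) {x : R4} (hx : x ∈ b.Θ '' PD 2) : ext b f x = f (inv b x) :=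
  if_pos hx

theorem ext_K {f : ℂ × ℂ → ℝ} {x : R4} (hx : x ∉ b.Θ '' tsupport f) : ext b f x = 0 := by
  by_cases h : x ∈ b.Θ '' PD 2
  · obtain ⟨p, hp, rfl⟩ := h
    rw [ext_Θ b f hp]
    exact image_eq_zero_of_notMem_tsupport fun h => hx ⟨p, h, rfl⟩
  · exact ext_off b f h

theorem K_comp {f : ℂ × ℂ → ℝ} (hc : HasCompactSupport f) (hs : tsupport f ⊆ PD 2) :
    IsCompact (b.Θ '' tsupport f) :=
  hc.isCompact.image_of_continuousOn (b.smooth.continuousOn.mono hs)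

/-- `f dx ∧ dy` transported -/
def pf (f : ℂ × ℂ → ℝ) (x : R4) : F2 :=
  ext b f x • wd (Complex.reCLM.comp (P1 b x)) (Complex.imCLM.comp (P1 b x))

theorem pf_ap (f : ℂ × ℂ → ℝ) (x u v : R4) : pf b f x u v =
    ext b f x * ((P1 b x u).re * (P1 b x v).im - (P1 b x u).im * (P1 b x v).re) := rfl

theorem P1_cont : ContinuousOn (P1 b) (b.Θ '' PD 2) := by
  have h1 : ContinuousOn (fderiv ℝ (inv b)) (b.Θ '' PD 2) :=
    (inv_smooth b).continuousOn_fderiv_of_isOpen (isOpen_im b) (by simp)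
  exact continuousOn_const.clm_comp h1

theorem pf_cf {f : ℂ × ℂ → ℝ} (hf : Continuous f) (hc : HasCompactSupport f)
    (hs : tsupport f ⊆ PD 2) : CF (pf b f) where
  cont := by
    refine cont_glue (isOpen_im b) (K_comp b hc hs).isClosed (image_mono hs) ?_ ?_
    · refine f2_contOn fun u v => ?_
      simp only [pf_ap]
      have h1 : ContinuousOn (ext b f) (b.Θ '' PD 2) := by
        refine ContinuousOn.congr (f := fun x => f (inv b x)) ?_ fun x hx => ext_on b f hx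
        exact hf.comp_continuousOn (inv_smooth b).continuousOn
      have h2 : ∀ u, ContinuousOn (fun x => P1 b x u) (b.Θ '' PD 2) := fun u =>
        (P1_cont b).clm_apply continuousOn_const
      refine h1.mul (((Complex.continuous_re.comp_continuousOn (h2 u)).mul
        (Complex.continuous_im.comp_continuousOn (h2 v))).sub
        ((Complex.continuous_im.comp_continuousOn (h2 u)).mul
        (Complex.continuous_re.comp_continuousOn (h2 v))))
    · intro x hx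
      refine f2_ext fun u v => ?_
      rw [pf_ap, ext_K b hx]
      exact zero_mul _
  supp := by
    refine HasCompactSupport.intro (K_comp b hc hs) fun x hx => ?_
    refine f2_ext fun u v => ?_
    rw [pf_ap, ext_K b hx]
    exact zero_mul _
  alt := fun x u => by
    rw [pf_ap]
    ring

theorem pf_push {f : ℂ × ℂ → ℝ} (hf : Continuous f) (hc : HasCompactSupport f)
    (hs : tsupport f ⊆ PD 2) : IsPush b f (pf b f) where
  cf := pf_cf b hf hc hs
  off := fun x hx => by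
    refine f2_ext fun u v => ?_
    rw [pf_ap, ext_off b f hx]
    exact zero_mul _
  on := fun p hp v w => by
    rw [pf_ap, ext_Θ b f hp]
    have h1 : ∀ v, P1 b (b.Θ p) (fderiv ℝ b.Θ p v) = v.1 := fun v => by
      rw [P1, ContinuousLinearMap.comp_apply, dinv b hp]
      rfl
    rw [h1, h1]

end Vale.Agent.P247.H683
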