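import Vale.Agent.P247.H620.LRoot

/-!
# P247, PUIS: change of variables `z = t ^ q`, measure theory
-/

open scoped ContDiff Topology ENNReal
open Set MeasureTheory Filter Metric

noncomputable section

namespace Vale.Agent.P247.H683.QQ

open Vale.Agent.P247.H620

/-- the integral over the pull-back -/
theorem pull_lint {q : ℕ} (hq : 1 ≤ q) {A B : Set ℂ} {δ : ℝ} (hA : MeasurableSet A)
    (hAB : ∀ t ∈ A, t ^ q ∈ B) (hAδ : ∀ t ∈ A, ‖t‖ ^ q < δ) (φ : ℂ → ℝ≥0∞) :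
    ∫⁻ t in A, ENNReal.ofReal (‖(q : ℂ) * t ^ (q - 1)‖ ^ 2) * φ (t ^ q) ≤
      q * ∫⁻ z in B, φ z := by
  have h0 : (volume : Measure ℂ) {0} = 0 := measure_singleton 0
  have e1 : (A \ {0} : Set ℂ) =ᵐ[volume] A := sdiff_null_ae_eq_self h0
  have hsub : A \ {0} ⊆ ⋃ j ∈ Finset.range q, A ∩ sec q j δ := by
    intro t ht
    have h1 : t ∈ ⋃ j ∈ Finset.range q, sec q j δ := by
      rw [sec_union hq δ]
      exact ⟨hAδ t ht.1, ht.2⟩
    simp only [mem_iUnion, exists_prop] at h1 ⊢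
    obtain ⟨j, hj, hj2⟩ := h1
    exact ⟨j, hj, ht.1, hj2⟩
  have hj : ∀ j, ∫⁻ t in A ∩ sec q j δ, ENNReal.ofReal (‖(q : ℂ) * t ^ (q - 1)‖ ^ 2) * φ (t ^ q) ≤
      ∫⁻ z in B, φ z := by
    intro j
    have hm : MeasurableSet (A ∩ sec q j δ) := hA.inter (sec_meas q j δ)
    have h1 := lintegral_image_eq_lintegral_abs_det_fderiv_mul (volume : Measure ℂ) hm
      (fun s _ => (pow_hasFDerivAt q s).hasFDerivWithinAt)
      ((sec_inj q j δ).mono inter_subset_right) φ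
    have h2 : ∫⁻ t in A ∩ sec q j δ, ENNReal.ofReal (‖(q : ℂ) * t ^ (q - 1)‖ ^ 2) * φ (t ^ q) =
        ∫⁻ z in (fun s : ℂ => s ^ q) '' (A ∩ sec q j δ), φ z := by
      rw [h1]
      refine lintegral_congr fun t => ?_
      rw [det_pow, abs_of_nonneg (by positivity)]
    rw [h2]
    refine lintegral_mono_set ?_
    rintro _ ⟨t, ht, rfl⟩
    exact hAB t ht.1
  calc ∫⁻ t in A, ENNReal.ofReal (‖(q : ℂ) * t ^ (q - 1)‖ ^ 2) * φ (t ^ q)
      = ∫⁻ t in A \ {0}, ENNReal.ofReal (‖(q : ℂ) * t ^ (q - 1)‖ ^ 2) * φ (t ^ q) :=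
        (setLIntegral_congr e1).symm
    _ ≤ ∫⁻ t in ⋃ j ∈ Finset.range q, A ∩ sec q j δ,
        ENNReal.ofReal (‖(q : ℂ) * t ^ (q - 1)‖ ^ 2) * φ (t ^ q) := lintegral_mono_set hsub
    _ ≤ ∑ j ∈ Finset.range q, ∫⁻ t in A ∩ sec q j δ,
        ENNReal.ofReal (‖(q : ℂ) * t ^ (q - 1)‖ ^ 2) * φ (t ^ q) := by
        have := lintegral_iUnion_le (μ := (volume : Measure ℂ))
          (fun j : Finset.range q => A ∩ sec q j δ)
          (fun t => ENNReal.ofReal (‖(q : ℂ) * t ^ (q - 1)‖ ^ 2) * φ (t ^ q))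
        rw [iUnion_subtype, tsum_fintype] at this
        refine this.trans (le_of_eq ?_)
        exact Finset.sum_coe_sort (Finset.range q) fun j => ∫⁻ t in A ∩ sec q j δ,
          ENNReal.ofReal (‖(q : ℂ) * t ^ (q - 1)‖ ^ 2) * φ (t ^ q)
    _ ≤ ∑ _j ∈ Finset.range q, ∫⁻ z in B, φ z := Finset.sum_le_sum fun j _ => hj j
    _ = q * ∫⁻ z in B, φ z := by simp

/-- `t ↦ t ^ q` is quasi measure preserving -/
theorem quasi_pow {q : ℕ} (hq : 1 ≤ q) :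
    Measure.QuasiMeasurePreserving (fun t : ℂ => t ^ q) volume volume := by
  have hc : Measurable fun t : ℂ => t ^ q := by fun_prop
  refine ⟨hc, ?_⟩
  refine Measure.AbsolutelyContinuous.mk fun s hs h0 => ?_
  rw [Measure.map_apply hc hs]
  have hcov : (fun t : ℂ => t ^ q) ⁻¹' s ⊆
      ⋃ n : ℕ, ((fun t : ℂ => t ^ q) ⁻¹' s ∩ {t | ‖t‖ ^ q < n}) := by
    intro t ht
    obtain ⟨n, hn⟩ := exists_nat_gt (‖t‖ ^ q)
    exact mem_iUnion.2 ⟨n, ht, hn⟩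
  refine measure_mono_null hcov (measure_iUnion_null fun n => ?_)
  set A := (fun t : ℂ => t ^ q) ⁻¹' s ∩ {t | ‖t‖ ^ q < (n : ℝ)} with hA
  have hAm : MeasurableSet A :=
    (hc hs).inter (measurableSet_lt (by fun_prop) measurable_const)
  have h1 := pull_lint hq (B := s) (δ := n) hAm (fun t ht => ht.1) (fun t ht => ht.2) (fun _ => 1)
  rw [setLIntegral_one, h0, mul_zero, nonpos_iff_eq_zero, lintegral_eq_zero_iff (by fun_prop)] at h1
  have h2 : ∀ᵐ t ∂(volume.restrict A), t = 0 := by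
    filter_upwards [h1] with t ht
    by_contra h3
    simp only [Pi.zero_apply, mul_one, ENNReal.ofReal_eq_zero] at ht
    have h4 : (q : ℂ) * t ^ (q - 1) ≠ 0 :=
      mul_ne_zero (Nat.cast_ne_zero.2 (by omega)) (pow_ne_zero _ h3)
    have h5 : 0 < ‖(q : ℂ) * t ^ (q - 1)‖ ^ 2 := by positivity
    linarith
  rw [ae_restrict_iff' hAm] at h2
  have h3 : ∀ᵐ t : ℂ, t ≠ 0 := by
    rw [ae_iff]; simp
  have h4 : ∀ᵐ t : ℂ, t ∉ A := by
    filter_upwards [h2, h3] with t ht ht2 ht3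
    exact ht2 (ht ht3)
  rw [ae_iff] at h4
  simpa using h4

theorem aem_pow {q : ℕ} (hq : 1 ≤ q) {r r' : ℝ} (hr : 0 ≤ r') (h : r' ^ q ≤ r) {g : ℂ → ℝ≥0∞}
    (hg : AEMeasurable g (volume.restrict (ball 0 r))) :
    AEMeasurable (fun t => g (t ^ q)) (volume.restrict (ball 0 r')) := by
  obtain ⟨G0, hG0, he⟩ := hg
  have he' : ∀ᵐ t ∂(volume : Measure ℂ), t ^ q ∈ ball (0:ℂ) r → g (t ^ q) = G0 (t ^ q) :=
    (quasi_pow hq).ae ((ae_restrict_iff' measurableSet_ball).1 he)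
  refine ⟨fun t => G0 (t ^ q), hG0.comp (by fun_prop), ?_⟩
  filter_upwards [ae_restrict_of_ae he', ae_restrict_mem measurableSet_ball] with x hx hx2
  refine hx ?_
  rw [mem_ball_zero_iff] at hx2 ⊢
  rw [norm_pow]
  calc ‖x‖ ^ q < r' ^ q := pow_lt_pow_left₀ hx2 (norm_nonneg _) (by omega)
    _ ≤ r := h

theorem pow_sub_le {q : ℕ} {t s : ℂ} (ht : ‖t‖ ≤ 1) (hs : ‖s‖ ≤ 1) :
    ‖t ^ q - s ^ q‖ ≤ q * ‖t - s‖ := by
  induction q with
  | zero => simp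
  | succ q ih =>
    have e1 : t ^ (q + 1) - s ^ (q + 1) = t ^ q * (t - s) + (t ^ q - s ^ q) * s := by ring
    rw [e1]
    have h1 : ‖t ^ q‖ ≤ 1 := by
      rw [norm_pow]
      exact pow_le_one₀ (norm_nonneg _) ht
    calc _ ≤ ‖t ^ q * (t - s)‖ + ‖(t ^ q - s ^ q) * s‖ := norm_add_le _ _
      _ ≤ 1 * ‖t - s‖ + (q * ‖t - s‖) * 1 := by
          rw [norm_mul, norm_mul]
          gcongr
      _ = _ := by push_cast; ring

/-- the Morrey bound for the pull-back -/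
theorem morrey_pow {q : ℕ} (hq : 1 ≤ q) {r r' K ε : ℝ} (hr : 0 < r') (hr1 : r' ≤ 1)
    (h : r' ^ q ≤ r) (hK : 0 ≤ K) (hε : 0 < ε) {g : ℂ → ℝ≥0∞}
    (hM : ∀ x ρ, 0 < ρ → ∫⁻ z in ball x ρ ∩ ball 0 r, g z ^ 2 ≤ ENNReal.ofReal (K * ρ ^ (2 * ε)))
    (x : ℂ) (ρ : ℝ) (hρ : 0 < ρ) :
    ∫⁻ t in ball x ρ ∩ ball 0 r', (ENNReal.ofReal ‖(q : ℂ) * t ^ (q - 1)‖ * g (t ^ q)) ^ 2 ≤
      ENNReal.ofReal ((q * (K * (2 * q) ^ (2 * ε))) * ρ ^ (2 * ε)) := by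
  rcases (ball x ρ ∩ ball (0:ℂ) r').eq_empty_or_nonempty with he | ⟨x', hx'⟩
  · rw [he]; simp
  have hq0 : (0:ℝ) < q := by exact_mod_cast hq
  have hA : MeasurableSet (ball x ρ ∩ ball (0:ℂ) r') := measurableSet_ball.inter measurableSet_ball
  have hlt : ∀ t ∈ ball x ρ ∩ ball (0:ℂ) r', ‖t‖ ^ q < r := fun t ht => by
    have := mem_ball_zero_iff.1 ht.2
    exact (pow_lt_pow_left₀ this (norm_nonneg _) (by omega)).trans_le h
  have hAB : ∀ t ∈ ball x ρ ∩ ball (0:ℂ) r', t ^ q ∈ ball (x' ^ q) (2 * q * ρ) ∩ ball (0:ℂ) r := by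
    intro t ht
    refine ⟨?_, ?_⟩
    · rw [mem_ball, dist_eq_norm]
      have h1 : ‖t - x'‖ < 2 * ρ := by
        have h2 := ht.1
        have h3 := hx'.1
        rw [mem_ball] at h2 h3
        rw [← dist_eq_norm]
        have := dist_triangle_right t x' x
        linarith
      calc _ ≤ q * ‖t - x'‖ := pow_sub_le ((mem_ball_zero_iff.1 ht.2).le.trans hr1)
            ((mem_ball_zero_iff.1 hx'.2).le.trans hr1)
        _ < q * (2 * ρ) := by gcongr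
        _ = _ := by ring
    · rw [mem_ball_zero_iff, norm_pow]
      exact hlt t ht
  have h1 := pull_lint hq hA hAB hlt (fun z => g z ^ 2)
  calc ∫⁻ t in ball x ρ ∩ ball 0 r', (ENNReal.ofReal ‖(q : ℂ) * t ^ (q - 1)‖ * g (t ^ q)) ^ 2
      = ∫⁻ t in ball x ρ ∩ ball 0 r', ENNReal.ofReal (‖(q : ℂ) * t ^ (q - 1)‖ ^ 2) * g (t ^ q) ^ 2 := by
        refine lintegral_congr fun t => ?_
        rw [mul_pow, ENNReal.ofReal_pow (norm_nonneg _)]
    _ ≤ q * ∫⁻ z in ball (x' ^ q) (2 * q * ρ) ∩ ball (0:ℂ) r, g z ^ 2 := h1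
    _ ≤ q * ENNReal.ofReal (K * (2 * q * ρ) ^ (2 * ε)) := by
        gcongr
        exact hM _ _ (by positivity)
    _ = _ := by
        rw [← ENNReal.ofReal_natCast, ← ENNReal.ofReal_mul (by positivity),
          Real.mul_rpow (by positivity) hρ.le]
        congr 1; ring

end Vale.Agent.P247.H683.QQ
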