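import Vale.Agent.P247.H324.SPM.Scale
import Vale.Agent.P247.H324.MG.Belt2

/-!
# P247, PUIS: Hölder bound on a punctured disc from a Morrey bound of `∂̄`
-/

open scoped ContDiff Topology ENNReal
open Set MeasureTheory Filter Metric

noncomputable section

namespace Vale.Agent.P247.H683.QQ

open Vale.Agent.P247.H324 Vale.Agent.P272.CT

/-- Hölder bound near the puncture -/
theorem hol_pb {u q : ℂ → ℂ} {G : ℂ → ℝ≥0∞} {R K ε A : ℝ} (hR : 0 < R)
    (hε : 0 < ε) (hK : 0 ≤ K) (hG : AEMeasurable G (volume.restrict (ball 0 R)))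
    (hM : ∀ x : ℂ, ∀ ρ : ℝ, 0 < ρ → ∫⁻ w in ball x ρ ∩ ball 0 R, G w ≤ ENNReal.ofReal (K * ρ ^ (1 + ε)))
    (hu : ContinuousOn u (ball 0 R \ {0})) (hb : ∀ z ∈ ball (0:ℂ) R \ {0}, ‖u z‖ ≤ A)
    (hqm : AEStronglyMeasurable q (volume.restrict (ball 0 R)))
    (hq : ∀ᵐ w ∂(volume.restrict (ball (0:ℂ) R)), ‖q w‖ₑ ≤ G w)
    (hw : WDb (ball 0 R \ {0}) u q) :
    ∃ h C : ℝ, 0 < h ∧ h < 1 ∧ 0 ≤ C ∧ ∀ z ∈ ball (0:ℂ) (R / 2) \ {0}, ∀ w ∈ ball (0:ℂ) (R / 2) \ {0},
      ‖u z - u w‖ ≤ C * ‖z - w‖ ^ h := by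
  have hmaps1 : MapsTo (sc 0 R) (ball 0 1) (ball 0 R) := by
    intro z hz
    have h1 : sc 0 R z ∈ sc 0 R '' ball 0 1 := mem_image_of_mem _ hz
    rw [sc_image_ball 0 0 hR 1] at h1
    have h2 : sc 0 R 0 = 0 := by simp [sc]
    rwa [h2, mul_one] at h1
  have hmaps2 : MapsTo (sc 0 R) pd (ball 0 R \ {0}) := by
    intro z hz
    refine ⟨hmaps1 hz.1, ?_⟩
    intro h
    have : sc 0 R z = sc 0 R 0 := by rw [h]; simp [sc]
    exact hz.2 (sc_injective 0 hR this)
  have hquasi : Measure.QuasiMeasurePreserving (sc 0 R) (volume.restrict (ball 0 1))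
      (volume.restrict (ball 0 R)) := (sc_quasi 0 hR).restrict hmaps1
  set u' : ℂ → ℂ := fun z => u (sc 0 R z) with hu'
  set q' : ℂ → ℂ := fun z => (R:ℂ) • q (sc 0 R z) with hq'
  set G' : ℂ → ℝ≥0∞ := fun z => ENNReal.ofReal R * G (sc 0 R z) with hG'
  have hcont : Continuous (sc 0 R) := by unfold sc; fun_prop
  have hmor : Mor (K * R ^ ε) ε G' := by
    refine ⟨(hG.comp_quasiMeasurePreserving hquasi).const_mul _, by positivity, fun x r hr => ?_⟩
    rw [lintegral_const_mul' _ _ ENNReal.ofReal_ne_top,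
      sc_lintegral 0 hR (measurableSet_ball.inter measurableSet_ball) G]
    have himg : sc 0 R '' (ball x r ∩ ball 0 1) ⊆ ball (sc 0 R x) (R * r) ∩ ball 0 R := by
      rintro _ ⟨z, ⟨hz1, hz2⟩, rfl⟩
      refine ⟨?_, hmaps1 hz2⟩
      rw [← sc_image_ball 0 x hR r]
      exact mem_image_of_mem _ hz1
    calc ENNReal.ofReal R * (ENNReal.ofReal ((R ^ 2)⁻¹) *
          ∫⁻ w in sc 0 R '' (ball x r ∩ ball 0 1), G w)
        ≤ ENNReal.ofReal R * (ENNReal.ofReal ((R ^ 2)⁻¹) *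
          ENNReal.ofReal (K * (R * r) ^ (1 + ε))) := by
          gcongr
          exact (lintegral_mono_set himg).trans (hM _ _ (by positivity))
      _ = ENNReal.ofReal (K * R ^ ε * r ^ (1 + ε)) := by
          rw [← ENNReal.ofReal_mul (by positivity), ← ENNReal.ofReal_mul (by positivity)]
          congr 1
          rw [Real.mul_rpow hR.le hr.le, Real.rpow_add hR, Real.rpow_one]
          field_simp
  have hdom : Dom G' 1 0 q' := by
    refine ⟨(hqm.comp_quasiMeasurePreserving hquasi).const_smul (R:ℂ), ?_⟩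
    filter_upwards [hquasi.ae hq] with z hz
    simp only [hq', hG']
    rw [enorm_smul, Real.rpow_zero, mul_one, ENNReal.ofReal_one, mul_one]
    have : ‖(R:ℂ)‖ₑ = ENNReal.ofReal R := by
      rw [← ofReal_norm, Complex.norm_real, Real.norm_of_nonneg hR.le]
    rw [this]
    gcongr
  obtain ⟨H, hH, hdec⟩ := wdecomp hmor hε zero_le_one hdom
    (hu.comp hcont.continuousOn hmaps2) (B := A) (fun z hz => hb _ (hmaps2 hz))
    (WDb.scale hR hw hmaps2)
  set h : ℝ := min (1/2) (ε/2) with hh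
  have h0 : 0 < h := lt_min (by norm_num) (half_pos hε)
  have h1 : h < 1 := (min_le_left _ _).trans_lt (by norm_num)
  have h2 : h < ε := (min_le_right _ _).trans_lt (half_lt_self hε)
  obtain ⟨K1, hK1, hlip⟩ : ∃ K1 : ℝ, 0 ≤ K1 ∧ ∀ z ∈ ball (0:ℂ) (1/2), ∀ w ∈ ball (0:ℂ) (1/2),
      ‖H z - H w‖ ≤ K1 * ‖z - w‖ := by
    have hc : ContinuousOn (fun z => ‖deriv H z‖) (closedBall (0:ℂ) (1/2)) := by
      have h1 : DifferentiableOn ℂ (deriv H) (ball 0 1) := hH.deriv isOpen_ball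
      exact (h1.continuousOn.mono (closedBall_subset_ball (by norm_num))).norm
    obtain ⟨K, hK⟩ := (isCompact_closedBall (0:ℂ) (1/2)).bddAbove_image hc
    refine ⟨max K 0, le_max_right _ _, fun z hz w hw => ?_⟩
    exact (convex_closedBall (0:ℂ) (1/2)).norm_image_sub_le_of_norm_deriv_le (f := H)
      (C := max K 0) (x := w) (y := z) (fun x hx => hH.differentiableAt
        (isOpen_ball.mem_nhds (closedBall_subset_ball (by norm_num) hx)))
      (fun x hx => (hK ⟨x, hx, rfl⟩).trans (le_max_left _ _)) (ball_subset_closedBall hw)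
      (ball_subset_closedBall hz)
  set K2 : ℝ := 4 * (1 * ((K * R ^ ε) * kc (1 + h) ε)) / Real.pi with hK2
  have hK20 : 0 ≤ K2 := by
    have := kc_pos (β := 1 + h) (ε := ε) (by linarith)
    have := Real.pi_pos
    positivity
  have hkey : ∀ z ∈ ball (0:ℂ) (1/2) \ {0}, ∀ w ∈ ball (0:ℂ) (1/2) \ {0},
      ‖u' z - u' w‖ ≤ (K1 + K2) * ‖z - w‖ ^ h := by
    intro z hz w hw
    have hz1 : z ∈ pd := ⟨ball_subset_ball (by norm_num) hz.1, hz.2⟩
    have hw1 : w ∈ pd := ⟨ball_subset_ball (by norm_num) hw.1, hw.2⟩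
    rw [show u' z = H z + cauT q' z from hdec z hz1, show u' w = H w + cauT q' w from hdec w hw1]
    have e1 : H z + cauT q' z - (H w + cauT q' w) = (H z - H w) + (cauT q' z - cauT q' w) := by ring
    rw [e1]
    have hd : ‖z - w‖ ≤ 1 := by
      have i1 := mem_ball_zero_iff.1 hz.1
      have i2 := mem_ball_zero_iff.1 hw.1
      have := norm_sub_le z w
      linarith
    have hle : ‖z - w‖ ≤ ‖z - w‖ ^ h := by
      rcases eq_or_lt_of_le (norm_nonneg (z - w)) with h3 | h3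
      · rw [← h3, Real.zero_rpow h0.ne']
      · calc ‖z - w‖ = ‖z - w‖ ^ (1:ℝ) := (Real.rpow_one _).symm
          _ ≤ _ := Real.rpow_le_rpow_of_exponent_ge h3 hd h1.le
    calc _ ≤ ‖H z - H w‖ + ‖cauT q' z - cauT q' w‖ := norm_add_le _ _
      _ ≤ K1 * ‖z - w‖ ^ h + K2 * ‖z - w‖ ^ h := by
          refine add_le_add ((hlip z hz.1 w hw.1).trans (by gcongr)) ?_
          exact hdom.cauT_holder zero_le_one hmor hε h0.le h1.le h2 z w
      _ = _ := by ring
  refine ⟨h, (K1 + K2) * (R ^ h)⁻¹, h0, h1, by positivity, fun z hz w hw => ?_⟩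
  have hRc : (R:ℂ) ≠ 0 := by exact_mod_cast hR.ne'
  have hback : ∀ z ∈ ball (0:ℂ) (R/2) \ {0}, ((R:ℂ)⁻¹ * z) ∈ ball (0:ℂ) (1/2) \ {0} ∧
      sc 0 R ((R:ℂ)⁻¹ * z) = z := by
    intro z hz
    refine ⟨⟨?_, ?_⟩, ?_⟩
    · have := mem_ball_zero_iff.1 hz.1
      rw [mem_ball_zero_iff, norm_mul, norm_inv, Complex.norm_real, Real.norm_of_nonneg hR.le,
        inv_mul_lt_iff₀ hR]
      linarith
    · exact mul_ne_zero (inv_ne_zero hRc) hz.2
    · rw [sc_eq, mul_inv_cancel_left₀ hRc]; ring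
  obtain ⟨a1, a2⟩ := hback z hz
  obtain ⟨b1, b2⟩ := hback w hw
  have := hkey _ a1 _ b1
  simp only [hu', a2, b2] at this
  refine this.trans (le_of_eq ?_)
  rw [← mul_sub, norm_mul, norm_inv, Complex.norm_real, Real.norm_of_nonneg hR.le,
    Real.mul_rpow (by positivity) (norm_nonneg _), Real.inv_rpow hR.le]
  ring

end Vale.Agent.P247.H683.QQ
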