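import Vale.Agent.P247.H683.PS2
import Vale.Agent.P247.H683.Q1
import Vale.Agent.P247.H683.Q2
import Vale.Agent.P247.H667.Ind
import Vale.Agent.P247.H734.Dich2

/-!
# P247, PUIS: the concrete stage of the induction
-/

open scoped ContDiff Topology ENNReal
open Set MeasureTheory Filter Metric

noncomputable section

namespace Vale.Agent.P247.H683.QQ

open Vale.Agent.P247.H324 Vale.Agent.P247.H667 Vale.Agent.P247.H620 Vale.Agent.P247.H683.PS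
open Vale.Agent.P272.CT (WDb)

/-- first coefficient in the variable `t` -/
def nu (m : ℂ × ℂ → ℂ) (q : ℕ) (p : ℂ × ℂ) : ℂ :=
  ((starRingEnd ℂ p.1) / p.1) ^ (q - 1) * m (p.1 ^ q, p.2)

/-- second coefficient in the variable `t` -/
def al (A : ℂ × ℂ → ℂ) (q : ℕ) (p : ℂ × ℂ) : ℂ :=
  (q : ℂ) * (starRingEnd ℂ p.1) ^ (q - 1) * A (p.1 ^ q, p.2)

/-- the stage of the induction, with all data -/
structure QS (m A : ℂ × ℂ → ℂ) (y0 : ℂ) (η R : ℝ) (k : ℕ) (r : ℝ) (Y : ℂ → Fin k → ℂ) (q : ℕ)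
    (D : ℂ → Fin k → ℂ →L[ℝ] ℂ) (g : ℂ → ℝ≥0∞) (K ε : ℝ) : Prop where
  rpos : 0 < r
  r1 : r ≤ 1
  q1 : 1 ≤ q
  rq : r ^ q ≤ R
  K0 : 0 ≤ K
  ε0 : 0 < ε
  ε1 : ε ≤ 1
  ms : MS k (pb r) Y D
  near : ∀ t ∈ pb r, ∀ i, ‖Y t i - y0‖ < η
  lim : ∀ δ > 0, ∃ s > 0, ∀ t ∈ pb r, ‖t‖ < s → ∀ i, ‖Y t i - y0‖ < δ
  gm : AEMeasurable g (volume.restrict (ball 0 r))
  gD : ∀ t ∈ pb r, ∀ i, ‖D t i‖ₑ ≤ g t
  mor : ∀ x ρ, 0 < ρ → ∫⁻ t in ball x ρ ∩ ball 0 r, g t ^ 2 ≤ ENNReal.ofReal (K * ρ ^ (2 * ε))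
  eqn : ∀ t ∈ pb r, ∀ i, pzb (D t i) = nu m q (t, Y t i) * pz (D t i) + al A q (t, Y t i)

/-- the stage of the induction -/
def Q (m A : ℂ × ℂ → ℂ) (y0 : ℂ) (η R : ℝ) (k : ℕ) (r : ℝ) (Y : ℂ → Fin k → ℂ) : Prop :=
  ∃ q D g K ε, QS m A y0 η R k r Y q D g K ε

variable {m A : ℂ × ℂ → ℂ} {y0 : ℂ} {η R : ℝ} {k : ℕ} {r r' : ℝ} {Y : ℂ → Fin k → ℂ} {q : ℕ}
  {D : ℂ → Fin k → ℂ →L[ℝ] ℂ} {g : ℂ → ℝ≥0∞} {K ε : ℝ}

theorem QS.shr (h : QS m A y0 η R k r Y q D g K ε) (h0 : 0 < r') (hr : r' ≤ r) :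
    QS m A y0 η R k r' Y q D g K ε where
  rpos := h0
  r1 := hr.trans h.r1
  q1 := h.q1
  rq := (pow_le_pow_left₀ h0.le hr q).trans h.rq
  K0 := h.K0
  ε0 := h.ε0
  ε1 := h.ε1
  ms := h.ms.mono (pb_mono hr)
  near t ht := h.near t (pb_mono hr ht)
  lim δ hδ := by
    obtain ⟨s, hs, h1⟩ := h.lim δ hδ
    exact ⟨s, hs, fun t ht => h1 t (pb_mono hr ht)⟩
  gm := h.gm.mono_measure (Measure.restrict_mono_set _ (ball_subset_ball hr))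
  gD t ht := h.gD t (pb_mono hr ht)
  mor x ρ hρ := (lintegral_mono_set (inter_subset_inter_right _ (ball_subset_ball hr))).trans
    (h.mor x ρ hρ)
  eqn t ht := h.eqn t (pb_mono hr ht)

theorem QS.split (h : QS m A y0 η R k r Y q D g K ε) {n : ℕ} {θ : ℂ → ℂ → ℝ}
    (hθ : ContinuousOn (fun p : ℂ × ℂ => θ p.1 p.2) (pb r ×ˢ univ))
    (hne : ∀ z ∈ pb r, ∀ i, θ z (Y z i) ≠ 1) (hn : ∀ z ∈ pb r, (MS.cl θ Y z).card = n) :
    QS m A y0 η R n r (fun z => sb n (MS.cl θ Y z) (Y z)) q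
      (fun z => sb n (MS.cl θ Y z) (D z)) g K ε where
  rpos := h.rpos
  r1 := h.r1
  q1 := h.q1
  rq := h.rq
  K0 := h.K0
  ε0 := h.ε0
  ε1 := h.ε1
  ms := MS.split (isOpen_pb r) h.ms hθ hne hn
  near t ht i := by
    obtain ⟨j, -, hj⟩ := sb_mem (hn t ht) i
    show ‖sb n (MS.cl θ Y t) (Y t) i - y0‖ < η
    rw [hj ℂ]
    exact h.near t ht j
  lim δ hδ := by
    obtain ⟨s, hs, h1⟩ := h.lim δ hδ
    refine ⟨s, hs, fun t ht hts i => ?_⟩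
    obtain ⟨j, -, hj⟩ := sb_mem (hn t ht) i
    show ‖sb n (MS.cl θ Y t) (Y t) i - y0‖ < δ
    rw [hj ℂ]
    exact h1 t ht hts j
  gm := h.gm
  gD t ht i := by
    obtain ⟨j, -, hj⟩ := sb_mem (hn t ht) i
    show ‖sb n (MS.cl θ Y t) (D t) i‖ₑ ≤ g t
    rw [hj (ℂ →L[ℝ] ℂ)]
    exact h.gD t ht j
  mor := h.mor
  eqn t ht i := by
    obtain ⟨j, -, hj⟩ := sb_mem (hn t ht) i
    show pzb (sb n (MS.cl θ Y t) (D t) i) = nu m q (t, sb n (MS.cl θ Y t) (Y t) i) *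
      pz (sb n (MS.cl θ Y t) (D t) i) + al A q (t, sb n (MS.cl θ Y t) (Y t) i)
    rw [hj (ℂ →L[ℝ] ℂ), hj ℂ]
    exact h.eqn t ht j

/-! ### pull back -/

theorem pz_dpow (q : ℕ) (t : ℂ) : pz (dpow q t) = q * t ^ (q - 1) := by
  rw [pz, dpow_apply, dpow_apply]
  have := Complex.I_mul_I
  simp only [smul_eq_mul]
  linear_combination (-(1/2 : ℂ) * (q * t ^ (q - 1))) * this

theorem pzb_dpow (q : ℕ) (t : ℂ) : pzb (dpow q t) = 0 := by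
  rw [pzb, dpow_apply, dpow_apply]
  have := Complex.I_mul_I
  simp only [smul_eq_mul]
  linear_combination ((1/2 : ℂ) * (q * t ^ (q - 1))) * this

theorem norm_dpow (q : ℕ) (t : ℂ) : ‖dpow q t‖ ≤ ‖(q : ℂ) * t ^ (q - 1)‖ := by
  refine ContinuousLinearMap.opNorm_le_bound _ (norm_nonneg _) fun v => ?_
  rw [dpow_apply, norm_mul]

theorem det_dpow_ne {q : ℕ} (hq : 1 ≤ q) {t : ℂ} (ht : t ≠ 0) : (dpow q t).det ≠ 0 := by
  rw [det_pow]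
  have h4 : (q : ℂ) * t ^ (q - 1) ≠ 0 :=
    mul_ne_zero (Nat.cast_ne_zero.2 (by omega)) (pow_ne_zero _ ht)
  have := norm_pos_iff.2 h4
  positivity

theorem ms_pull (h : MS k (pb r) Y D) (hq : 1 ≤ q) (hr : r' ^ q ≤ r) :
    MS k (pb r') (fun t => Y (t ^ q)) (fun t i => (D (t ^ q) i).comp (dpow q t)) where
  cont F hF := (h.cont F hF).comp (continuous_pow q).continuousOn fun _ ht => pow_mem_pb hq hr ht
  chain F hF := by
    have hfd : ∀ t : ℂ, fderiv ℝ (fun t : ℂ => t ^ q) t = dpow q t := fun t =>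
      (pow_hasFDerivAt q t).fderiv
    have hsm : ContDiff ℝ 1 fun t : ℂ => t ^ q := contDiff_id.pow q
    have h1 := (h.chain F hF).comp_right (isOpen_pb r) (isOpen_pb r') (g := fun t => t ^ q)
      hsm.contDiffOn (fun t ht => by
        rw [hfd]
        exact det_dpow_ne hq (mem_pb.1 ht).2) (fun t ht => pow_mem_pb hq hr ht)
    refine h1.congr (isOpen_pb r').measurableSet (fun _ _ => rfl) fun t _ => ?_
    show (∑ i, (fderiv ℝ F (Y (t ^ q) i)).comp (D (t ^ q) i)).comp (fderiv ℝ (fun t : ℂ => t ^ q) t) = _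
    rw [hfd]
    refine ContinuousLinearMap.ext fun v => ?_
    rw [ContinuousLinearMap.comp_apply, _root_.sum_apply, _root_.sum_apply]
    rfl

theorem conj_div_pow (s : ℂ) {p q : ℕ} (hp : 1 ≤ p) (hq : 1 ≤ q) :
    ((starRingEnd ℂ s) / s) ^ (p - 1) * ((starRingEnd ℂ (s ^ p)) / s ^ p) ^ (q - 1) =
      ((starRingEnd ℂ s) / s) ^ (q * p - 1) := by
  rw [map_pow, ← div_pow, ← pow_mul, ← pow_add]
  congr 1
  obtain ⟨p', rfl⟩ : ∃ p', p = p' + 1 := ⟨p - 1, by omega⟩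
  obtain ⟨q', rfl⟩ : ∃ q', q = q' + 1 := ⟨q - 1, by omega⟩
  simp only [Nat.add_sub_cancel]
  have : (q' + 1) * (p' + 1) = p' + (p' + 1) * q' + 1 := by ring
  omega

theorem conj_pow_pow (s : ℂ) {p q : ℕ} (hp : 1 ≤ p) (hq : 1 ≤ q) :
    (starRingEnd ℂ s) ^ (p - 1) * (starRingEnd ℂ (s ^ p)) ^ (q - 1) =
      (starRingEnd ℂ s) ^ (q * p - 1) := by
  rw [map_pow, ← pow_mul, ← pow_add]
  congr 1
  obtain ⟨p', rfl⟩ : ∃ p', p = p' + 1 := ⟨p - 1, by omega⟩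
  obtain ⟨q', rfl⟩ : ∃ q', q = q' + 1 := ⟨q - 1, by omega⟩
  simp only [Nat.add_sub_cancel]
  have : (q' + 1) * (p' + 1) = p' + (p' + 1) * q' + 1 := by ring
  omega

theorem QS.pull (h : QS m A y0 η R k r Y q D g K ε) {p : ℕ} (hp : 1 ≤ p) (h0 : 0 < r')
    (hr : r' ^ p ≤ r) :
    QS m A y0 η R k r' (fun t => Y (t ^ p)) (q * p) (fun t i => (D (t ^ p) i).comp (dpow p t))
      (fun t => ENNReal.ofReal ‖(p : ℂ) * t ^ (p - 1)‖ * g (t ^ p))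
      (p * (K * (2 * p) ^ (2 * ε))) ε := by
  have hr1 : r' ≤ 1 := by
    by_contra hcon
    push Not at hcon
    have := one_lt_pow₀ hcon (show p ≠ 0 by omega)
    linarith [h.r1]
  have hK := h.K0
  refine ⟨h0, hr1, Nat.mul_pos h.q1 hp, ?_, by positivity, h.ε0, h.ε1, ms_pull h.ms hp hr,
    fun t ht => h.near _ (pow_mem_pb hp hr ht), ?_, ?_, ?_, ?_, ?_⟩
  · calc r' ^ (q * p) = (r' ^ p) ^ q := by rw [← pow_mul, mul_comm]
      _ ≤ r ^ q := pow_le_pow_left₀ (by positivity) hr q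
      _ ≤ R := h.rq
  · intro δ hδ
    obtain ⟨s, hs, h1⟩ := h.lim δ hδ
    refine ⟨s, hs, fun t ht hts i => h1 _ (pow_mem_pb hp hr ht) ?_ i⟩
    rw [norm_pow]
    have ht1 : ‖t‖ ≤ 1 := (mem_pb.1 ht).1.le.trans hr1
    exact (pow_le_of_le_one (norm_nonneg _) ht1 (by omega)).trans_lt hts
  · have := aem_pow hp h0.le hr h.gm
    refine AEMeasurable.mul ?_ this
    exact (by fun_prop : Measurable fun t : ℂ =>
      ENNReal.ofReal ‖(p : ℂ) * t ^ (p - 1)‖).aemeasurable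
  · intro t ht i
    have h1 := h.gD _ (pow_mem_pb hp hr ht) i
    have h2 : ‖(D (t ^ p) i).comp (dpow p t)‖ₑ ≤ ‖D (t ^ p) i‖ₑ * ‖dpow p t‖ₑ := by
      rw [← ofReal_norm, ← ofReal_norm, ← ofReal_norm, ← ENNReal.ofReal_mul (norm_nonneg _)]
      exact ENNReal.ofReal_le_ofReal (ContinuousLinearMap.opNorm_comp_le _ _)
    have h3 : ‖dpow p t‖ₑ ≤ ENNReal.ofReal ‖(p : ℂ) * t ^ (p - 1)‖ := by
      rw [← ofReal_norm]
      exact ENNReal.ofReal_le_ofReal (norm_dpow p t)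
    calc _ ≤ ‖D (t ^ p) i‖ₑ * ‖dpow p t‖ₑ := h2
      _ ≤ g (t ^ p) * ENNReal.ofReal ‖(p : ℂ) * t ^ (p - 1)‖ := by gcongr
      _ = _ := mul_comm _ _
  · exact fun x ρ hρ => morrey_pow hp h0 hr1 hr h.K0 h.ε0 h.mor x ρ hρ
  · intro t ht i
    have ht0 : t ≠ 0 := (mem_pb.1 ht).2
    have h1 := h.eqn _ (pow_mem_pb hp hr ht) i
    obtain ⟨e1, e2⟩ := pz_comp (D (t ^ p) i) (dpow p t)
    rw [pz_dpow, pzb_dpow, map_zero, zero_smul, add_zero, smul_eq_mul] at e1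
    rw [pz_dpow, pzb_dpow, zero_smul, zero_add, smul_eq_mul] at e2
    show pzb ((D (t ^ p) i).comp (dpow p t)) = nu m (q * p) (t, Y (t ^ p) i) *
      pz ((D (t ^ p) i).comp (dpow p t)) + al A (q * p) (t, Y (t ^ p) i)
    rw [e1, e2, h1]
    simp only [nu, al]
    rw [← conj_div_pow t hp h.q1, ← conj_pow_pow t hp h.q1]
    have e3 : t ^ (q * p) = (t ^ p) ^ q := by rw [← pow_mul, mul_comm]
    rw [e3, map_mul, map_natCast, map_pow (starRingEnd ℂ) t (p - 1), Nat.cast_mul]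
    have e4 : (starRingEnd ℂ t / t) ^ (p - 1) * t ^ (p - 1) = starRingEnd ℂ t ^ (p - 1) := by
      rw [← mul_pow, div_mul_cancel₀ _ ht0]
    linear_combination (-(p : ℂ) * ((starRingEnd ℂ (t ^ p)) / t ^ p) ^ (q - 1) *
      m ((t ^ p) ^ q, Y (t ^ p) i) * pz (D (t ^ p) i)) * e4

end Vale.Agent.P247.H683.QQ
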