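import Vale.Agent.P247.H683.Q3

/-!
# P247, PUIS: Hölder bound of the mean and the dichotomy for the concrete stage
-/

open scoped ContDiff Topology ENNReal
open Set MeasureTheory Filter Metric

noncomputable section

namespace Vale.Agent.P247.H683.QQ

open Vale.Agent.P247.H324 Vale.Agent.P247.H667 Vale.Agent.P247.H620 Vale.Agent.P247.H683.PS
open Vale.Agent.P272.CT (WDb)

variable {m A : ℂ × ℂ → ℂ} {y0 : ℂ} {η R : ℝ} {k : ℕ} {r r' : ℝ} {Y : ℂ → Fin k → ℂ} {q : ℕ}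
  {D : ℂ → Fin k → ℂ →L[ℝ] ℂ} {g : ℂ → ℝ≥0∞} {K ε : ℝ}

/-! ### the twist -/

theorem norm_cd {x : ℂ} (hx : x ≠ 0) : ‖(starRingEnd ℂ) x / x‖ = 1 := by
  rw [norm_div, RCLike.norm_conj, div_self (norm_ne_zero_iff.2 hx)]

theorem norm_cd_le (x : ℂ) : ‖(starRingEnd ℂ) x / x‖ ≤ 1 := by
  rcases eq_or_ne x 0 with rfl | hx
  · simp
  · exact (norm_cd hx).le

theorem cd_sub {x y : ℂ} (hx : x ≠ 0) (hy : y ≠ 0) :
    ‖(starRingEnd ℂ) x / x - (starRingEnd ℂ) y / y‖ ≤ 2 * (‖x - y‖ / ‖y‖) := by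
  have hx' := norm_pos_iff.2 hx
  have hy' := norm_pos_iff.2 hy
  have e1 : (starRingEnd ℂ) x / x - (starRingEnd ℂ) y / y =
      ((starRingEnd ℂ) x * (y - x) + x * ((starRingEnd ℂ) (x - y))) / (x * y) := by
    rw [map_sub]
    field_simp
    ring
  rw [e1, norm_div, norm_mul, div_le_iff₀ (by positivity)]
  calc ‖(starRingEnd ℂ) x * (y - x) + x * ((starRingEnd ℂ) (x - y))‖
      ≤ ‖(starRingEnd ℂ) x * (y - x)‖ + ‖x * ((starRingEnd ℂ) (x - y))‖ := norm_add_le _ _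
    _ = 2 * (‖x‖ * ‖x - y‖) := by
        rw [norm_mul, norm_mul, RCLike.norm_conj, RCLike.norm_conj, norm_sub_rev y x]; ring
    _ = _ := by field_simp

/-- the twisted function -/
def tw (N : ℕ) (n : ℂ → ℂ) (x : ℂ) : ℂ := if x = 0 then 0 else ((starRingEnd ℂ) x / x) ^ N * n x

theorem tw_zero (N : ℕ) (n : ℂ → ℂ) : tw N n 0 = 0 := if_pos rfl

theorem tw_ne {N : ℕ} {n : ℂ → ℂ} {x : ℂ} (hx : x ≠ 0) :
    tw N n x = ((starRingEnd ℂ) x / x) ^ N * n x := if_neg hx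

theorem tw_hol {N : ℕ} {n : ℂ → ℂ} {ρ H h : ℝ} (hρ : 0 < ρ) (h0 : 0 < h) (h1 : h < 1) (hH : 0 ≤ H)
    (hn : ∀ x ∈ ball (0:ℂ) ρ, ∀ y ∈ ball (0:ℂ) ρ, ‖n x - n y‖ ≤ H * ‖x - y‖ ^ h) (hn0 : n 0 = 0) :
    ∀ x ∈ ball (0:ℂ) ρ, ∀ y ∈ ball (0:ℂ) ρ,
      ‖tw N n x - tw N n y‖ ≤ (H + 2 * N * H + 2 * H) * ‖x - y‖ ^ h := by
  intro x hx y hy
  have hz : (0:ℂ) ∈ ball (0:ℂ) ρ := mem_ball_self hρ
  have hb : ∀ x ∈ ball (0:ℂ) ρ, ‖n x‖ ≤ H * ‖x‖ ^ h := by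
    intro x hx
    have := hn x hx 0 hz
    rwa [hn0, sub_zero, sub_zero] at this
  have hu : ∀ x : ℂ, ‖((starRingEnd ℂ) x / x) ^ N‖ ≤ 1 := fun x => by
    rw [norm_pow]
    exact pow_le_one₀ (norm_nonneg _) (norm_cd_le x)
  have hN : (0:ℝ) ≤ N := Nat.cast_nonneg _
  have hge : ∀ s : ℝ, 0 ≤ s → H * s ≤ (H + 2 * N * H + 2 * H) * s := by
    intro s hs
    have : 0 ≤ (2 * N * H + 2 * H) * s := by positivity
    linarith
  rcases eq_or_ne x 0 with rfl | hx0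
  · rw [tw_zero]
    rcases eq_or_ne y 0 with rfl | hy0
    · rw [tw_zero, sub_zero, norm_zero]; positivity
    · rw [tw_ne hy0, zero_sub, norm_neg, norm_mul, zero_sub, norm_neg]
      calc _ ≤ 1 * (H * ‖y‖ ^ h) := mul_le_mul (hu y) (hb y hy) (norm_nonneg _) zero_le_one
        _ = H * ‖y‖ ^ h := one_mul _
        _ ≤ _ := hge _ (by positivity)
  rcases eq_or_ne y 0 with rfl | hy0
  · rw [tw_zero, tw_ne hx0, sub_zero, sub_zero, norm_mul]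
    calc _ ≤ 1 * (H * ‖x‖ ^ h) := mul_le_mul (hu x) (hb x hx) (norm_nonneg _) zero_le_one
      _ = H * ‖x‖ ^ h := one_mul _
      _ ≤ _ := hge _ (by positivity)
  rw [tw_ne hx0, tw_ne hy0]
  set a := ((starRingEnd ℂ) x / x) ^ N with ha
  set b := ((starRingEnd ℂ) y / y) ^ N with hb'
  have e1 : a * n x - b * n y = a * (n x - n y) + (a - b) * n y := by ring
  have hyp : 0 < ‖y‖ := norm_pos_iff.2 hy0
  have i1 : ‖a * (n x - n y)‖ ≤ H * ‖x - y‖ ^ h := by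
    rw [norm_mul]
    calc _ ≤ 1 * (H * ‖x - y‖ ^ h) := mul_le_mul (hu x) (hn x hx y hy) (norm_nonneg _) zero_le_one
      _ = _ := one_mul _
  have i2 : ‖(a - b) * n y‖ ≤ (2 * N * H + 2 * H) * ‖x - y‖ ^ h := by
    rw [norm_mul]
    by_cases hxy : ‖y‖ ≤ ‖x - y‖
    · have j1 : ‖a - b‖ ≤ 2 := by
        have := norm_sub_le a b
        linarith [hu x, hu y]
      calc ‖a - b‖ * ‖n y‖ ≤ 2 * (H * ‖y‖ ^ h) :=
            mul_le_mul j1 (hb y hy) (norm_nonneg _) (by norm_num)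
        _ ≤ 2 * (H * ‖x - y‖ ^ h) := by gcongr
        _ ≤ _ := by
            have : 0 ≤ 2 * N * H * ‖x - y‖ ^ h := by positivity
            linarith
    · push Not at hxy
      have j1 : ‖a - b‖ ≤ N * (2 * (‖x - y‖ / ‖y‖)) :=
        (pow_sub_le (norm_cd_le x) (norm_cd_le y)).trans (by gcongr; exact cd_sub hx0 hy0)
      have j2 : ‖x - y‖ / ‖y‖ * ‖y‖ ^ h ≤ ‖x - y‖ ^ h := by
        rcases eq_or_lt_of_le (norm_nonneg (x - y)) with h3 | h3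
        · rw [← h3, zero_div, zero_mul, Real.zero_rpow h0.ne']
        · have k1 : ‖x - y‖ / ‖y‖ ≤ 1 := (div_le_one hyp).2 hxy.le
          have k2 : ‖x - y‖ / ‖y‖ ≤ (‖x - y‖ / ‖y‖) ^ h := by
            calc ‖x - y‖ / ‖y‖ = (‖x - y‖ / ‖y‖) ^ (1:ℝ) := (Real.rpow_one _).symm
              _ ≤ _ := Real.rpow_le_rpow_of_exponent_ge (by positivity) k1 h1.le
          calc ‖x - y‖ / ‖y‖ * ‖y‖ ^ h ≤ (‖x - y‖ / ‖y‖) ^ h * ‖y‖ ^ h := by gcongr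
            _ = _ := by
                rw [Real.div_rpow (norm_nonneg _) (norm_nonneg _),
                  div_mul_cancel₀ _ (Real.rpow_pos_of_pos hyp h).ne']
      calc ‖a - b‖ * ‖n y‖ ≤ (N * (2 * (‖x - y‖ / ‖y‖))) * (H * ‖y‖ ^ h) :=
            mul_le_mul j1 (hb y hy) (norm_nonneg _) (by positivity)
        _ = 2 * N * H * (‖x - y‖ / ‖y‖ * ‖y‖ ^ h) := by ring
        _ ≤ 2 * N * H * ‖x - y‖ ^ h := by gcongr
        _ ≤ _ := by
            have : 0 ≤ 2 * H * ‖x - y‖ ^ h := by positivity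
            linarith
  rw [e1]
  calc _ ≤ ‖a * (n x - n y)‖ + ‖(a - b) * n y‖ := norm_add_le _ _
    _ ≤ _ := by linarith

/-! ### the mean -/

/-- the derivative of the mean -/
def dmn (D : ℂ → Fin k → ℂ →L[ℝ] ℂ) (z : ℂ) : ℂ →L[ℝ] ℂ :=
  ((k : ℂ)⁻¹ • ContinuousLinearMap.id ℝ ℂ).comp (∑ i, D z i)

theorem dmn_apply (D : ℂ → Fin k → ℂ →L[ℝ] ℂ) (z v : ℂ) : dmn D z v = mn fun i => D z i v := by
  show (k : ℂ)⁻¹ • ((∑ i, D z i) v) = _
  rw [_root_.sum_apply]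
  rfl

theorem norm_dmn_le {z : ℂ} {T : ℝ} (hT : 0 ≤ T) (h : ∀ i, ‖D z i‖ ≤ T) : ‖dmn D z‖ ≤ T := by
  refine ContinuousLinearMap.opNorm_le_bound _ hT fun v => ?_
  rw [dmn_apply]
  refine norm_mn_le (fun i => ((D z i).le_opNorm v).trans ?_) (by positivity)
  gcongr
  exact h i

theorem enorm_dmn_le {z : ℂ} {g : ℝ≥0∞} (h : ∀ i, ‖D z i‖ₑ ≤ g) : ‖dmn D z‖ₑ ≤ g := by
  rcases eq_or_ne g ⊤ with hg | hg
  · rw [hg]; exact le_top
  · rw [← ofReal_norm, ENNReal.ofReal_le_iff_le_toReal hg]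
    refine norm_dmn_le ENNReal.toReal_nonneg fun i => ?_
    have := h i
    rwa [← ofReal_norm, ENNReal.ofReal_le_iff_le_toReal hg] at this

theorem ms_mean (h : MS k (pb r) Y D) : WG (pb r) (fun z => mn (Y z)) (dmn D) := by
  have h1 := (h.chain (fun y => y) contDiff_id).clm ((k : ℂ)⁻¹ • ContinuousLinearMap.id ℝ ℂ)
  refine h1.congr (isOpen_pb r).measurableSet (fun _ _ => rfl) fun z _ => ?_
  show ((k : ℂ)⁻¹ • ContinuousLinearMap.id ℝ ℂ).comp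
    (∑ i, (fderiv ℝ (fun y : ℂ => y) (Y z i)).comp (D z i)) = dmn D z
  unfold dmn
  congr 1
  refine Finset.sum_congr rfl fun i _ => ?_
  have : fderiv ℝ (fun y : ℂ => y) (Y z i) = ContinuousLinearMap.id ℝ ℂ := fderiv_fun_id
  rw [this, ContinuousLinearMap.id_comp]

theorem norm_mn_sub_lt (hk : 1 ≤ k) {y : Fin k → ℂ} {T : ℝ} (h : ∀ i, ‖y i - y0‖ < T) :
    ‖mn y - y0‖ < T := by
  have : Nonempty (Fin k) := ⟨⟨0, hk⟩⟩
  have hT : 0 < T := (norm_nonneg _).trans_lt (h ⟨0, hk⟩)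
  have h1 : ‖(fun i => y i - y0)‖ < T := (pi_norm_lt_iff hT).2 h
  rw [← mn_sub_const hk]
  exact (norm_mn_le (fun i => norm_le_pi_norm (fun i => y i - y0) i) (norm_nonneg _)).trans_lt h1

theorem QS.mean_hol (h : QS m A y0 η R k r Y q D g K ε) (hk : 1 ≤ k) :
    ∃ s C : ℝ, 0 < s ∧ s < 1 ∧ 0 ≤ C ∧ ∀ z ∈ pb (r / 2), ∀ w ∈ pb (r / 2),
      ‖mn (Y z) - mn (Y w)‖ ≤ C * ‖z - w‖ ^ s := by
  have hwg := ms_mean h.ms
  have hres : volume.restrict (ball (0 : ℂ) r) = volume.restrict (pb r) := by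
    refine Measure.restrict_congr_set ?_
    refine (sdiff_null_ae_eq_self ?_).symm
    simp
  refine hol_pb (u := fun z => mn (Y z)) (q := fun z => pzb (dmn D z))
    (G := fun z => ENNReal.ofReal 1 * (1 + g z)) (K := 1 * (8 + K)) (ε := ε) (A := ‖y0‖ + η) h.rpos
    h.ε0 (by have := h.K0; positivity) ((h.gm.const_add 1).const_mul _)
    (fun x ρ hρ => morrey h.r1 h.rpos h.ε0 h.ε1 h.K0 zero_le_one h.gm h.mor x ρ hρ) ?_ ?_ ?_ ?_ ?_
  · exact continuousOn_const.mul (h.ms.cont (fun y => y) continuous_id)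
  · intro z hz
    have h1 := norm_mn_sub_lt hk (h.near z hz)
    calc ‖mn (Y z)‖ = ‖y0 + (mn (Y z) - y0)‖ := by ring_nf
      _ ≤ ‖y0‖ + ‖mn (Y z) - y0‖ := norm_add_le _ _
      _ ≤ _ := by linarith
  · rw [hres]
    have h2 : LocallyIntegrableOn (dmn D) (pb r) := by
      rw [locallyIntegrableOn_iff (isOpen_pb r).isLocallyClosed]
      exact fun k hk hk2 => hwg.int k hk2 hk
    have h3 := h2.aestronglyMeasurable
    have h4 : ∀ v : ℂ, AEStronglyMeasurable (fun z => dmn D z v) (volume.restrict (pb r)) := fun v =>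
      (ContinuousLinearMap.apply ℝ ℂ v).continuous.comp_aestronglyMeasurable h3
    have h5 : AEStronglyMeasurable (fun z => (1 / 2 : ℂ) • (dmn D z 1 + Complex.I • dmn D z Complex.I))
        (volume.restrict (pb r)) :=
      ((h4 1).add ((h4 Complex.I).const_smul Complex.I)).const_smul (1 / 2 : ℂ)
    exact h5
  · rw [hres]
    filter_upwards [ae_restrict_mem (isOpen_pb r).measurableSet] with z hz
    have h1 : ‖pzb (dmn D z)‖ₑ ≤ ‖dmn D z‖ₑ := by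
      rw [← ofReal_norm, ← ofReal_norm]
      exact ENNReal.ofReal_le_ofReal (norm_pzb_le _)
    refine (h1.trans (enorm_dmn_le (h.gD z hz))).trans ?_
    rw [ENNReal.ofReal_one, one_mul]
    exact le_add_self
  · exact hwg.toWDb

theorem QS.mean_lim (h : QS m A y0 η R k r Y q D g K ε) (hk : 1 ≤ k) :
    Tendsto (fun z => mn (Y z)) (𝓝[≠] 0) (𝓝 y0) := by
  rw [Metric.tendsto_nhds]
  intro δ hδ
  obtain ⟨s, hs, h1⟩ := h.lim δ hδ
  have h2 : ∀ᶠ z : ℂ in 𝓝[≠] 0, z ∈ ball (0:ℂ) (min s r) := mem_nhdsWithin_of_mem_nhds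
    (ball_mem_nhds 0 (lt_min hs h.rpos))
  filter_upwards [h2, self_mem_nhdsWithin] with z hz hz0
  have hz1 : ‖z‖ < min s r := mem_ball_zero_iff.1 hz
  have hzp : z ∈ pb r := mem_pb.2 ⟨hz1.trans_le (min_le_right _ _), hz0⟩
  rw [dist_eq_norm]
  exact norm_mn_sub_lt hk (h1 z hzp (hz1.trans_le (min_le_left _ _)))

/-- the mean with its value at the puncture -/
def me (y0 : ℂ) (Y : ℂ → Fin k → ℂ) (z : ℂ) : ℂ := if z = 0 then y0 else mn (Y z)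

theorem me_zero (y0 : ℂ) (Y : ℂ → Fin k → ℂ) : me y0 Y 0 = y0 := if_pos rfl

theorem me_ne {Y : ℂ → Fin k → ℂ} {z : ℂ} (hz : z ≠ 0) : me y0 Y z = mn (Y z) := if_neg hz

theorem QS.me_hol (h : QS m A y0 η R k r Y q D g K ε) (hk : 1 ≤ k) :
    ∃ s C : ℝ, 0 < s ∧ s < 1 ∧ 0 ≤ C ∧ ∀ z ∈ ball (0:ℂ) (r / 2), ∀ w ∈ ball (0:ℂ) (r / 2),
      ‖me y0 Y z - me y0 Y w‖ ≤ C * ‖z - w‖ ^ s := by
  obtain ⟨s, C, hs, hs1, hC, hh⟩ := h.mean_hol hk
  have hr := h.rpos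
  have key : ∀ z ∈ pb (r / 2), ‖mn (Y z) - y0‖ ≤ C * ‖z‖ ^ s := by
    intro z hz
    have l1 : Tendsto (fun w => ‖mn (Y z) - mn (Y w)‖) (𝓝[≠] 0) (𝓝 ‖mn (Y z) - y0‖) :=
      (tendsto_const_nhds.sub (h.mean_lim hk)).norm
    have l2 : Tendsto (fun w : ℂ => C * ‖z - w‖ ^ s) (𝓝[≠] 0) (𝓝 (C * ‖z‖ ^ s)) := by
      have l3 : Continuous fun w : ℂ => C * ‖z - w‖ ^ s := by
        refine continuous_const.mul (Continuous.rpow_const (by fun_prop) fun w => Or.inr hs.le)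
      have := (l3.tendsto 0).mono_left (nhdsWithin_le_nhds (s := {0}ᶜ))
      simpa using this
    refine le_of_tendsto_of_tendsto l1 l2 ?_
    have h2 : ∀ᶠ z : ℂ in 𝓝[≠] 0, z ∈ ball (0:ℂ) (r / 2) := mem_nhdsWithin_of_mem_nhds
      (ball_mem_nhds 0 (by positivity))
    filter_upwards [h2, self_mem_nhdsWithin] with w hw hw0
    exact hh z hz w ⟨hw, hw0⟩
  refine ⟨s, C, hs, hs1, hC, fun z hz w hw => ?_⟩
  rcases eq_or_ne z 0 with rfl | hz0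
  · rw [me_zero]
    rcases eq_or_ne w 0 with rfl | hw0
    · rw [me_zero, sub_self, norm_zero]; positivity
    · rw [me_ne hw0, norm_sub_rev, zero_sub, norm_neg]
      exact key w ⟨hw, hw0⟩
  rcases eq_or_ne w 0 with rfl | hw0
  · rw [me_zero, me_ne hz0, sub_zero]
    exact key z ⟨hz, hz0⟩
  · rw [me_ne hz0, me_ne hw0]
    exact hh z ⟨hz, hz0⟩ w ⟨hw, hw0⟩

/-- Lipschitz data of the coefficients -/
structure Lp (m A : ℂ × ℂ → ℂ) (y0 : ℂ) (η R L : ℝ) : Prop where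
  L0 : 0 ≤ L
  lm : ∀ z ∈ ball (0:ℂ) R, ∀ z' ∈ ball (0:ℂ) R, ∀ y ∈ ball y0 η, ∀ y' ∈ ball y0 η,
    ‖m (z, y) - m (z', y')‖ ≤ L * (‖z - z'‖ + ‖y - y'‖)
  lA : ∀ z ∈ ball (0:ℂ) R, ∀ z' ∈ ball (0:ℂ) R, ∀ y ∈ ball y0 η, ∀ y' ∈ ball y0 η,
    ‖A (z, y) - A (z', y')‖ ≤ L * (‖z - z'‖ + ‖y - y'‖)
  m0 : m (0, y0) = 0

theorem QS.sh (h : QS m A y0 η R k r Y q D g K ε) :
    SH (pb r) (nu m q) (al A q) (fun i z => Y z i) (fun i z => D z i) where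
  chain := h.ms.chain
  cont := h.ms.cont
  eq := by
    filter_upwards [ae_restrict_mem (isOpen_pb r).measurableSet] with z hz
    exact h.eqn z hz

/-- the dichotomy for the vector -/
theorem QS.dichTh {L : ℝ} (hl : Lp m A y0 η R L) (h : QS m A y0 η R k r Y q D g K ε) (hk : 1 ≤ k) :
    (∃ r' > 0, ∀ z ∈ pb r', Th (Y z) = 0) ∨
      ∃ (M : ℕ) (a : Fin k → ℂ), a ≠ 0 ∧
      Tendsto (fun z => (z ^ M)⁻¹ • Th (Y z)) (𝓝[≠] 0) (𝓝 a) := by
  have hr := h.rpos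
  have hr2 : 0 < r / 2 := by positivity
  have hL := hl.L0
  obtain ⟨s, C, hs, hs1, hC, hh⟩ := h.me_hol hk
  have h2 := h.shr hr2 (by linarith : r / 2 ≤ r)
  have hη : 0 < η := by
    have : ((r / 2 : ℝ) : ℂ) ∈ pb r := by
      rw [mem_pb, Complex.norm_real, Real.norm_of_nonneg hr2.le]
      refine ⟨by linarith, by exact_mod_cast hr2.ne'⟩
    exact (norm_nonneg _).trans_lt (h.near _ this ⟨0, hk⟩)
  have hzq : ∀ z ∈ ball (0:ℂ) (r / 2), z ^ q ∈ ball (0:ℂ) R := by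
    intro z hz
    rw [mem_ball_zero_iff] at hz ⊢
    rw [norm_pow]
    have hq := h.q1
    calc ‖z‖ ^ q < (r / 2) ^ q := pow_lt_pow_left₀ hz (norm_nonneg _) (by omega)
      _ ≤ R := h2.rq
  have hmn : ∀ z ∈ pb (r / 2), mn (Y z) ∈ ball y0 η := by
    intro z hz
    rw [mem_ball, dist_eq_norm]
    exact norm_mn_sub_lt hk (h2.near z hz)
  have hme : ∀ z ∈ ball (0:ℂ) (r / 2), me y0 Y z ∈ ball y0 η := by
    intro z hz
    rcases eq_or_ne z 0 with rfl | hz0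
    · rw [me_zero]; exact mem_ball_self hη
    · rw [me_ne hz0]; exact hmn z ⟨hz, hz0⟩
  have hYi : ∀ z ∈ pb (r / 2), ∀ i, Y z i ∈ ball y0 η := by
    intro z hz i
    rw [mem_ball, dist_eq_norm]
    exact h2.near z hz i
  set n : ℂ → ℂ := fun z => m (z ^ q, me y0 Y z) with hn
  have hn0 : n 0 = 0 := by
    have hq := h.q1
    simp only [hn]
    rw [me_zero, zero_pow (by omega), hl.m0]
  have hnh : ∀ x ∈ ball (0:ℂ) (r / 2), ∀ y ∈ ball (0:ℂ) (r / 2),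
      ‖n x - n y‖ ≤ (L * (q + C)) * ‖x - y‖ ^ s := by
    intro x hx y hy
    have hx1 := mem_ball_zero_iff.1 hx
    have hy1 := mem_ball_zero_iff.1 hy
    have hr1 := h.r1
    have hd : ‖x - y‖ ≤ 1 := by
      have := norm_sub_le x y
      linarith
    have hle : ‖x - y‖ ≤ ‖x - y‖ ^ s := by
      rcases eq_or_lt_of_le (norm_nonneg (x - y)) with h3 | h3
      · rw [← h3, Real.zero_rpow hs.ne']
      · calc ‖x - y‖ = ‖x - y‖ ^ (1:ℝ) := (Real.rpow_one _).symm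
          _ ≤ _ := Real.rpow_le_rpow_of_exponent_ge h3 hd hs1.le
    have i1 := hl.lm _ (hzq x hx) _ (hzq y hy) _ (hme x hx) _ (hme y hy)
    have i2 : ‖x ^ q - y ^ q‖ ≤ q * ‖x - y‖ ^ s :=
      (pow_sub_le (by linarith) (by linarith)).trans (by gcongr)
    calc ‖n x - n y‖ ≤ L * (‖x ^ q - y ^ q‖ + ‖me y0 Y x - me y0 Y y‖) := i1
      _ ≤ L * (q * ‖x - y‖ ^ s + C * ‖x - y‖ ^ s) := by
          gcongr
          exact hh x hx y hy
      _ = _ := by ring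
  have hμ := tw_hol (N := q - 1) hr2 hs hs1 (by positivity) hnh hn0
  have hq1 : (1:ℝ) ≤ q := by exact_mod_cast h.q1
  have hd := (h2.sh).dich (R := r / 2) (K := K) (ε := ε) (A := ‖y0‖ + η) (α₀ := s)
    (L := q * L) (μ := tw (q - 1) n) (g := g) hr2 (by linarith [h.r1]) h.ε0 h.ε1 h.K0 hs hs1
    (by positivity) hμ (tw_zero _ _) ?_ ?_ ?_ ?_ h2.gm h2.gD h2.mor
  · exact hd
  · intro z hz
    have hz0 : z ≠ 0 := hz.2
    rw [tw_ne hz0]
    show _ = ((starRingEnd ℂ) z / z) ^ (q - 1) * m (z ^ q, mn (Y z))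
    simp only [hn]
    rw [me_ne hz0]
  · intro z hz i
    show ‖((starRingEnd ℂ) z / z) ^ (q - 1) * m (z ^ q, Y z i) -
      ((starRingEnd ℂ) z / z) ^ (q - 1) * m (z ^ q, mn (Y z))‖ ≤ q * L * ‖Y z i - mn (Y z)‖
    rw [← mul_sub, norm_mul]
    have i1 := hl.lm _ (hzq z hz.1) _ (hzq z hz.1) _ (hYi z hz i) _ (hmn z hz)
    rw [sub_self, norm_zero, zero_add] at i1
    have i2 : ‖((starRingEnd ℂ) z / z) ^ (q - 1)‖ ≤ 1 := by
      rw [norm_pow]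
      exact pow_le_one₀ (norm_nonneg _) (norm_cd_le z)
    calc _ ≤ 1 * (L * ‖Y z i - mn (Y z)‖) := mul_le_mul i2 i1 (norm_nonneg _) zero_le_one
      _ = 1 * L * ‖Y z i - mn (Y z)‖ := by ring
      _ ≤ _ := by gcongr
  · intro z hz i
    show ‖(q : ℂ) * (starRingEnd ℂ z) ^ (q - 1) * A (z ^ q, Y z i) -
      (q : ℂ) * (starRingEnd ℂ z) ^ (q - 1) * A (z ^ q, mn (Y z))‖ ≤ q * L * ‖Y z i - mn (Y z)‖
    rw [← mul_sub, norm_mul, norm_mul, norm_pow, RCLike.norm_conj, Complex.norm_natCast]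
    have i1 := hl.lA _ (hzq z hz.1) _ (hzq z hz.1) _ (hYi z hz i) _ (hmn z hz)
    rw [sub_self, norm_zero, zero_add] at i1
    have i2 : ‖z‖ ^ (q - 1) ≤ 1 := by
      have := mem_ball_zero_iff.1 hz.1
      exact pow_le_one₀ (norm_nonneg _) (by linarith [h.r1])
    calc _ ≤ (q * 1) * (L * ‖Y z i - mn (Y z)‖) := by gcongr
      _ = _ := by ring
  · intro z hz i
    have h1 := h2.near z hz i
    calc ‖Y z i‖ = ‖y0 + (Y z i - y0)‖ := by ring_nf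
      _ ≤ ‖y0‖ + ‖Y z i - y0‖ := norm_add_le _ _
      _ ≤ _ := by linarith

end Vale.Agent.P247.H683.QQ
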