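import Vale.Agent.P247.H683.Q4
import Vale.Agent.P247.H324.MG.Def

/-!
# P247: `PUIS_statement`
-/

open scoped ContDiff Topology ENNReal
open Set MeasureTheory Filter Metric

noncomputable section

namespace Vale.Agent.P247.H683.QQ

open Vale.Agent.P247.H324 Vale.Agent.P247.H667 Vale.Agent.P247.H620 Vale.Agent.P247.H683.PS

variable {m A : ℂ × ℂ → ℂ} {y0 : ℂ} {η R : ℝ}

/-- the stage satisfies the hypotheses of the induction -/
theorem indH {L : ℝ} (hl : Lp m A y0 η R L) : IndH (Q m A y0 η R) where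
  cont k r Y h F hF := by
    obtain ⟨q, D, g, K, ε, h⟩ := h
    exact h.ms.cont F hF
  shr k r r' Y h h0 hr := by
    obtain ⟨q, D, g, K, ε, h⟩ := h
    exact ⟨q, D, g, K, ε, h.shr h0 hr⟩
  pull k r r' p Y h hp h0 hr := by
    obtain ⟨q, D, g, K, ε, h⟩ := h
    exact ⟨_, _, _, _, _, h.pull hp h0 hr⟩
  split k n r Y θ h _ hθ hne hn := by
    obtain ⟨q, D, g, K, ε, h⟩ := h
    exact ⟨_, _, _, _, _, h.split hθ hne hn⟩
  dich k r Y h hr hk := by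
    obtain ⟨q, D, g, K, ε, h⟩ := h
    exact Vale.Agent.P247.H734.dich_Th hk hr h.ms.cont (h.dichTh hl hk)

/-- lowering the exponent -/
theorem mor_le {R K ε : ℝ} {g : ℂ → ℝ≥0∞} (hR1 : R ≤ 1) (hK : 0 ≤ K) (hε : 0 < ε)
    (h : ∀ x ρ, 0 < ρ → ∫⁻ z in ball x ρ ∩ ball 0 R, g z ^ 2 ≤ ENNReal.ofReal (K * ρ ^ (2 * ε))) :
    ∀ x ρ, 0 < ρ → ∫⁻ z in ball x ρ ∩ ball 0 R, g z ^ 2 ≤
      ENNReal.ofReal (K * ρ ^ (2 * min ε 1)) := by
  intro x ρ hρ
  by_cases h1 : ρ ≤ 1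
  · refine (h x ρ hρ).trans (ENNReal.ofReal_le_ofReal ?_)
    have := Real.rpow_le_rpow_of_exponent_ge hρ h1
      (show 2 * min ε 1 ≤ 2 * ε by have := min_le_left ε 1; linarith)
    gcongr
  · push Not at h1
    have h2 : ∫⁻ z in ball x ρ ∩ ball 0 R, g z ^ 2 ≤ ∫⁻ z in ball 0 1 ∩ ball 0 R, g z ^ 2 := by
      refine lintegral_mono_set fun z hz => ⟨ball_subset_ball hR1 hz.2, hz.2⟩
    refine h2.trans ((h 0 1 one_pos).trans (ENNReal.ofReal_le_ofReal ?_))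
    rw [Real.one_rpow, mul_one]
    have := Real.one_le_rpow h1.le (show 0 ≤ 2 * min ε 1 by
      have := lt_min hε one_pos
      linarith)
    nlinarith

/-- **PUIS** -/
theorem PUIS : PUIS_statement := by
  intro N R K ε L m A g Y D y0 η hB hη hLip hm0 hgap h00
  have hR := hB.Rpos
  have hl : Lp m A y0 η R L := ⟨hB.Lpos, fun z hz z' hz' y hy y' hy' => (hLip z hz z' hz' y hy y' hy').1,
    fun z hz z' hz' y hy y' hy' => (hLip z hz z' hz' y hy y' hy').2, hm0⟩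
  set θ : ℂ → ℂ → ℝ := fun _ y => ‖y - y0‖ / η with hθ
  have hms : MS N (ball 0 R) Y D := ⟨hB.cont, hB.chain⟩
  have hθc : ContinuousOn (fun p : ℂ × ℂ => θ p.1 p.2) (ball 0 R ×ˢ univ) := by
    simp only [hθ]
    fun_prop
  have hθi : ∀ y : ℂ, ‖y - y0‖ / η < 1 ↔ ‖y - y0‖ < η := fun y => div_lt_one hη
  have hne : ∀ z ∈ ball (0:ℂ) R, ∀ i, θ z (Y z i) ≠ 1 := by
    intro z hz i h1
    simp only [hθ] at h1
    rw [div_eq_one_iff_eq hη.ne'] at h1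
    rcases hgap z hz i with h2 | h2 <;> linarith
  set n := (MS.cl θ Y 0).card with hn
  have hcard : ∀ z ∈ ball (0:ℂ) R, (MS.cl θ Y z).card = n := fun z hz =>
    MS.card_const isOpen_ball (convex_ball (0:ℂ) R).isPreconnected hms hθc hne hz (mem_ball_self hR)
  have hsp := MS.split isOpen_ball hms hθc hne hcard
  have hpb : pb R ⊆ ball 0 R := Set.sdiff_subset
  set Y' : ℂ → Fin n → ℂ := fun z => sb n (MS.cl θ Y z) (Y z) with hY'
  set D' : ℂ → Fin n → ℂ →L[ℝ] ℂ := fun z => sb n (MS.cl θ Y z) (D z) with hD'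
  have hnear : ∀ z ∈ ball (0:ℂ) R, ∀ i, ‖Y' z i - y0‖ < η := by
    intro z hz i
    obtain ⟨j, hjm, hj⟩ := sb_mem (hcard z hz) i
    show ‖sb n (MS.cl θ Y z) (Y z) i - y0‖ < η
    rw [hj ℂ]
    exact (hθi _).1 (MS.mem_cl.1 hjm)
  have hY0 : ∀ i, Y' 0 i = y0 := by
    intro i
    obtain ⟨j, hjm, hj⟩ := sb_mem (hcard 0 (mem_ball_self hR)) i
    show sb n (MS.cl θ Y 0) (Y 0) i = y0
    rw [hj ℂ]
    exact h00 j ((hθi _).1 (MS.mem_cl.1 hjm))
  have hQ : QS m A y0 η R n R Y' 1 D' g K (min ε 1) := by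
    refine ⟨hR, hB.Rle, le_rfl, by rw [pow_one], hB.Kpos, lt_min hB.εpos one_pos, min_le_right _ _,
      hsp.mono hpb, fun t ht => hnear t (hpb ht), ?_, hB.gm, ?_,
      mor_le hB.Rle hB.Kpos hB.εpos hB.mor, ?_⟩
    · intro δ hδ
      have h1 := hsp.near (mem_ball_self hR) hδ
      rw [isOpen_ball.nhdsWithin_eq (mem_ball_self hR)] at h1
      obtain ⟨s, hs, h2⟩ := Metric.eventually_nhds_iff_ball.1 h1
      refine ⟨s, hs, fun t _ hts i => ?_⟩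
      obtain ⟨j, hj⟩ := h2 t (mem_ball_zero_iff.2 hts) i
      rw [hY0 j] at hj
      exact hj
    · intro t ht i
      obtain ⟨j, -, hj⟩ := sb_mem (hcard t (hpb ht)) i
      show ‖sb n (MS.cl θ Y t) (D t) i‖ₑ ≤ g t
      rw [hj (ℂ →L[ℝ] ℂ)]
      exact hB.gD t (hpb ht) j
    · intro t ht i
      obtain ⟨j, -, hj⟩ := sb_mem (hcard t (hpb ht)) i
      show pzb (sb n (MS.cl θ Y t) (D t) i) = nu m 1 (t, sb n (MS.cl θ Y t) (Y t) i) *
        pz (sb n (MS.cl θ Y t) (D t) i) + al A 1 (t, sb n (MS.cl θ Y t) (Y t) i)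
      rw [hj (ℂ →L[ℝ] ℂ), hj ℂ]
      have := hB.eqn t (hpb ht) j
      simpa [nu, al] using this
  obtain ⟨q, r', S, hq, hr', hrR, hc, hd, hm⟩ := ind (indH hl) n R Y' hR ⟨_, _, _, _, _, hQ⟩
  refine ⟨q, r', S, hq, hr', hrR, hc, hd, fun t ht => ?_⟩
  have htR : t ^ q ∈ ball (0:ℂ) R := hpb (pow_mem_pb hq hrR ht)
  rw [hm t ht]
  have h1 := map_sb (hcard _ htR) (Y (t ^ q))
  have h2 : MS.cl θ Y (t ^ q) = Finset.univ.filter fun i => ‖Y (t ^ q) i - y0‖ < η := by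
    rw [MS.cl]
    exact Finset.filter_congr fun i _ => hθi _
  rw [h2] at h1
  refine Eq.trans ?_ h1
  simp only [hY', h2]

end Vale.Agent.P247.H683.QQ
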