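import Vale.Agent.P247.H683.Closed
import Vale.Agent.P247.H683.PlanarBV

/-!
# P247, package CO: the slice estimate
-/

open scoped ContDiff Topology
open Set MeasureTheory Filter Metric

noncomputable section

namespace Vale.Agent.P247.H683

open Vale.Agent.P247.H74 Vale.Agent.P247.H574

/-! ### sums of Dirac measures -/

theorem int_dirac_sum {f : ℂ → ℝ} (s : Multiset ℂ) :
    Integrable f (s.map Measure.dirac).sum ∧ ∫ y, f y ∂(s.map Measure.dirac).sum =
      (s.map f).sum := by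
  induction s using Multiset.induction_on with
  | empty => simp
  | cons a s ih =>
    simp only [Multiset.map_cons, Multiset.sum_cons]
    have h1 : Integrable f (Measure.dirac a) := integrable_dirac (by simp)
    refine ⟨h1.add_measure ih.1, ?_⟩
    rw [integral_add_measure h1 ih.1, ih.2, integral_dirac]

theorem sq_of_sum {f g : ℂ → ℝ} (hf1 : ∀ p, f p ≤ 1) (hg : ∀ p, 0 ≤ g p)
    (hfg : ∀ p, f p ≠ 0 → g p = 1) (s : Multiset ℂ) :
    (s.map f).sum ≤ (s.map g).sum ^ 2 := by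
  have h1 : (s.map f).sum ≤ (s.map g).sum := by
    refine Multiset.sum_map_le_sum_map _ _ fun p _ => ?_
    by_cases h : f p = 0
    · rw [h]; exact hg p
    · rw [hfg p h]; exact hf1 p
  by_cases h : ∃ p ∈ s, f p ≠ 0
  · obtain ⟨p, hp, hfp⟩ := h
    have h2 : 1 ≤ (s.map g).sum := by
      rw [← hfg p hfp]
      refine Multiset.single_le_sum (fun x hx => ?_) _ (Multiset.mem_map_of_mem g hp)
      obtain ⟨q, _, rfl⟩ := Multiset.mem_map.1 hx
      exact hg q
    nlinarith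
  · push Not at h
    have h2 : (s.map f).sum = 0 := by
      refine Multiset.sum_eq_zero fun x hx => ?_
      obtain ⟨q, hq, rfl⟩ := Multiset.mem_map.1 hx
      exact h q hq
    rw [h2]
    positivity

theorem intM_sq {ν : Measure ℂ} (hν : IntM ν) {f g : ℂ → ℝ}
    (hf1 : ∀ p, f p ≤ 1) (hg : ∀ p, 0 ≤ g p)
    (hfg : ∀ p, f p ≠ 0 → g p = 1) (hg2 : ∀ p ∉ ball (0 : ℂ) (3 / 4), g p = 0) :
    ∫ y, f y ∂ν ≤ (∫ y, g y ∂ν) ^ 2 := by
  obtain ⟨s, hs⟩ := hν (3 / 4) (by norm_num)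
  have hf2 : ∀ p ∉ ball (0 : ℂ) (3 / 4), f p = 0 := fun p hp => by
    by_contra h
    have := hfg p h
    rw [hg2 p hp] at this
    norm_num at this
  rw [← setIntegral_eq_integral_of_forall_compl_eq_zero hf2,
    ← setIntegral_eq_integral_of_forall_compl_eq_zero hg2, hs, (int_dirac_sum s).2,
    (int_dirac_sum s).2]
  exact sq_of_sum hf1 hg hfg s

/-! ### cut-off functions -/

/-- `1` for `|z| ≤ 1/8`, `0` for `|z| ≥ 1/4` -/
def c1 : ContDiffBump (0 : ℂ) where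
  rIn := 1 / 8
  rOut := 1 / 4
  rIn_pos := by norm_num
  rIn_lt_rOut := by norm_num

/-- `1` for `|z| ≤ 1/4`, `0` for `|z| ≥ 1/2` -/
def c2 : ContDiffBump (0 : ℂ) where
  rIn := 1 / 4
  rOut := 1 / 2
  rIn_pos := by norm_num
  rIn_lt_rOut := by norm_num

/-- `1` for `|z| ≤ 3/4`, `0` for `|z| ≥ 7/8` -/
def c3 : ContDiffBump (0 : ℂ) where
  rIn := 3 / 4
  rOut := 7 / 8
  rIn_pos := by norm_num
  rIn_lt_rOut := by norm_num

theorem bump_off (c : ContDiffBump (0 : ℂ)) {z : ℂ} (hz : c.rOut ≤ ‖z‖) : c z = 0 :=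
  c.zero_of_le_dist (by rwa [dist_zero_right])

theorem bump_on (c : ContDiffBump (0 : ℂ)) {z : ℂ} (hz : ‖z‖ ≤ c.rIn) : c z = 1 :=
  c.one_of_mem_closedBall (by rwa [mem_closedBall, dist_zero_right])

theorem c12 (z : ℂ) (h : c1 z ≠ 0) : c2 z = 1 := by
  refine bump_on c2 ?_
  by_contra h2
  exact h (bump_off c1 (le_of_lt (not_le.1 h2)))

/-- products of functions of `z` and of `y` -/
def tp (a c : ℂ → ℝ) (p : ℂ × ℂ) : ℝ := a p.1 * c p.2

theorem tp_supp {a c : ℂ → ℝ} (ha : ∀ z, 7 / 8 ≤ ‖z‖ → a z = 0) (hc : ∀ z, 7 / 8 ≤ ‖z‖ → c z = 0) :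
    tsupport (tp a c) ⊆ closedBall 0 (7 / 8) ×ˢ closedBall 0 (7 / 8) := by
  refine closure_minimal (fun p hp => ?_) (isClosed_closedBall.prod isClosed_closedBall)
  rw [Function.mem_support, tp] at hp
  have h1 : a p.1 ≠ 0 := left_ne_zero_of_mul hp
  have h2 : c p.2 ≠ 0 := right_ne_zero_of_mul hp
  rw [mem_prod, mem_closedBall_zero_iff, mem_closedBall_zero_iff]
  constructor
  · by_contra h
    exact h1 (ha _ (not_le.1 h).le)
  · by_contra h
    exact h2 (hc _ (not_le.1 h).le)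

theorem sub_PD1 : closedBall (0 : ℂ) (7 / 8) ×ˢ closedBall (0 : ℂ) (7 / 8) ⊆ PD 1 :=
  prod_mono (closedBall_subset_ball (by norm_num)) (closedBall_subset_ball (by norm_num))

theorem PD12 : PD 1 ⊆ PD 2 := prod_mono (ball_subset_ball (by norm_num))
  (ball_subset_ball (by norm_num))

theorem tp_comp {a c : ℂ → ℝ} (ha : ∀ z, 7 / 8 ≤ ‖z‖ → a z = 0) (hc : ∀ z, 7 / 8 ≤ ‖z‖ → c z = 0) :
    HasCompactSupport (tp a c) :=
  ((isCompact_closedBall _ _).prod (isCompact_closedBall _ _)).of_isClosed_subset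
    (isClosed_tsupport _) (tp_supp ha hc)

theorem c1_off (z : ℂ) (hz : 7 / 8 ≤ ‖z‖) : c1 z = 0 := bump_off c1 (by
  show (1 / 4 : ℝ) ≤ ‖z‖
  linarith)
theorem c2_off (z : ℂ) (hz : 7 / 8 ≤ ‖z‖) : c2 z = 0 := bump_off c2 (by
  show (1 / 2 : ℝ) ≤ ‖z‖
  linarith)
theorem c3_off (z : ℂ) (hz : 7 / 8 ≤ ‖z‖) : c3 z = 0 := bump_off c3 hz

/-- the test function of the core -/
def f2 : ℂ × ℂ → ℝ := tp c1 c1

theorem f2_cont' : Continuous f2 := (c1.continuous.comp continuous_fst).mul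
  (c1.continuous.comp continuous_snd)

theorem f2_supp : tsupport f2 ⊆ PD 1 := (tp_supp c1_off c1_off).trans sub_PD1

theorem f2_comp : HasCompactSupport f2 := tp_comp c1_off c1_off

theorem f2_nn (p : ℂ × ℂ) : 0 ≤ f2 p := mul_nonneg c1.nonneg c1.nonneg

theorem f2_one {p : ℂ × ℂ} (hp : ‖p‖ ≤ 1 / 8) : f2 p = 1 := by
  rw [f2, tp, bump_on c1 ((norm_fst_le p).trans hp), bump_on c1 ((norm_snd_le p).trans hp), one_mul]

/-! ### change of variables -/

theorem int_sq (Ψ : ℝ × ℝ → ℝ) : ∫ q, Ψ q = 4 * ∫ z : ℂ, Ψ (2 * z.re, 2 * z.im) := by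
  have h1 : ∫ w : ℂ, Ψ (w.re, w.im) = ∫ q, Ψ q :=
    Complex.volume_preserving_equiv_real_prod.integral_comp
      Complex.measurableEquivRealProd.measurableEmbedding Ψ
  have h2 := Measure.integral_comp_smul (volume : Measure ℂ) (fun w : ℂ => Ψ (w.re, w.im)) 2
  rw [← h1]
  have h3 : (fun x : ℂ => Ψ (((2 : ℝ) • x).re, ((2 : ℝ) • x).im)) =
      fun z : ℂ => Ψ (2 * z.re, 2 * z.im) := by
    funext z
    simp
  rw [h3] at h2
  rw [h2, Complex.finrank_real_complex]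
  norm_num
  ring

theorem integrable_sq {F : ℂ → ℝ} (hF : Integrable F) :
    Integrable fun q : ℝ × ℝ => F (⟨q.1 / 2, q.2 / 2⟩ : ℂ) := by
  have h1 : Integrable fun w : ℂ => F ((1 / 2 : ℝ) • w) := hF.comp_smul (by norm_num)
  have h2 := (Complex.volume_preserving_equiv_real_prod.symm
    Complex.measurableEquivRealProd).integrable_comp_emb
      Complex.measurableEquivRealProd.symm.measurableEmbedding (g := fun w : ℂ => F ((1 / 2 : ℝ) • w))
  refine (h2.2 h1).congr (Eventually.of_forall fun q => ?_)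
  show F ((1 / 2 : ℝ) • (⟨q.1, q.2⟩ : ℂ)) = _
  congr 1
  apply Complex.ext <;> simp <;> ring

end Vale.Agent.P247.H683
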