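import Vale.Agent.P247.H683.Pos
import Vale.Agent.P247.H447.Frame

/-!
# P247, package CO: two transversal boxes
-/

open scoped ContDiff Topology
open Set MeasureTheory Filter Metric

noncomputable section

namespace Vale.Agent.P247.H683

open Vale.Agent.P247.H74 Vale.Agent.P247.H574
open Vale.Agent.P247.H332 (Jst)

/-- uniform frames -/
theorem frames (D : Data) : ∃ K > 0, ∀ x : R4, ∃ v h : R4, ‖v‖ ≤ K ∧ ‖h‖ ≤ K ∧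
    ∀ a c : ℂ, ‖a‖ + ‖c‖ ≤ K * ‖cm D x a v + cm D x c h‖ := by
  obtain ⟨A, A', hA, hA', hAp, hAp', hAA', hA'A, hAJ⟩ := H447.frame D
  obtain ⟨B, hB⟩ := K2H.bdd_of_per hA.continuous hAp
  obtain ⟨B', hB'⟩ := K2H.bdd_of_per hA'.continuous hAp'
  have hB0 : 0 ≤ B := (norm_nonneg _).trans (hB 0)
  have hB0' : 0 ≤ B' := (norm_nonneg _).trans (hB' 0)
  refine ⟨B + 4 * B' + 1, by positivity, fun x => ⟨A x (e 0), A x (e 2), ?_, ?_, fun a c => ?_⟩⟩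
  · have h1 := (A x).le_opNorm (e 0)
    rw [K2A.norm_e, mul_one] at h1
    linarith [hB x]
  · have h1 := (A x).le_opNorm (e 2)
    rw [K2A.norm_e, mul_one] at h1
    linarith [hB x]
  · set w : R4 := a.re • e 0 + a.im • Jst (e 0) + c.re • e 2 + c.im • Jst (e 2) with hw
    have h1 : cm D x a (A x (e 0)) + cm D x c (A x (e 2)) = A x w := by
      rw [cm, cm, hw, ← hAJ, ← hAJ]
      simp only [map_add, map_smul]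
      abel
    rw [h1]
    have h2 : ‖w‖ ≤ B' * ‖A x w‖ := by
      calc ‖w‖ = ‖A' x (A x w)‖ := by rw [hA'A]
        _ ≤ ‖A' x‖ * ‖A x w‖ := (A' x).le_opNorm _
        _ ≤ B' * ‖A x w‖ := mul_le_mul_of_nonneg_right (hB' x) (norm_nonneg _)
    have w0 : w 0 = a.re := by
      show a.re * e 0 0 + a.im * (-(e 0 1)) + c.re * e 2 0 + c.im * (-(e 2 1)) = a.re
      simp [e]
    have w1 : w 1 = a.im := by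
      show a.re * e 0 1 + a.im * (e 0 0) + c.re * e 2 1 + c.im * (e 2 0) = a.im
      simp [e]
    have w2 : w 2 = c.re := by
      show a.re * e 0 2 + a.im * (-(e 0 3)) + c.re * e 2 2 + c.im * (-(e 2 3)) = c.re
      simp [e]
    have w3 : w 3 = c.im := by
      show a.re * e 0 3 + a.im * (e 0 2) + c.re * e 2 3 + c.im * (e 2 2) = c.im
      simp [e]
    have n0 := norm_le_pi_norm w 0
    have n1 := norm_le_pi_norm w 1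
    have n2 := norm_le_pi_norm w 2
    have n3 := norm_le_pi_norm w 3
    rw [w0, Real.norm_eq_abs] at n0
    rw [w1, Real.norm_eq_abs] at n1
    rw [w2, Real.norm_eq_abs] at n2
    rw [w3, Real.norm_eq_abs] at n3
    have h3 := Complex.norm_le_abs_re_add_abs_im a
    have h4 := Complex.norm_le_abs_re_add_abs_im c
    have h5 : 0 ≤ ‖A x w‖ := norm_nonneg _
    nlinarith

/-- `cm` as a linear map of the scalar -/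
def cmL (D : Data) (x a : R4) : ℂ →L[ℝ] R4 :=
  Complex.reCLM.smulRight a + Complex.imCLM.smulRight (D.J x a)

theorem cmL_ap (D : Data) (x a : R4) (w : ℂ) : cmL D x a w = cm D x w a := rfl

theorem lmod_deriv (D : Data) (x₀ v h : R4) (ε : ℝ) (q : ℂ × ℂ × ℂ) (ζ η : ℂ) :
    fderiv ℝ (lmod D x₀ v h ε) q (0, ζ, η) =
      ε • (cm D x₀ ζ h + cm D x₀ η v + cm D x₀ (q.1 * η) h) := by
  have h1 : HasFDerivAt (fun q : ℂ × ℂ × ℂ => q.1) (ContinuousLinearMap.fst ℝ ℂ (ℂ × ℂ)) q :=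
    hasFDerivAt_fst
  have h2 : HasFDerivAt (fun q : ℂ × ℂ × ℂ => q.2.1) ((ContinuousLinearMap.fst ℝ ℂ ℂ).comp
      (ContinuousLinearMap.snd ℝ ℂ (ℂ × ℂ))) q :=
    ((ContinuousLinearMap.fst ℝ ℂ ℂ).comp (ContinuousLinearMap.snd ℝ ℂ (ℂ × ℂ))).hasFDerivAt
  have h3 : HasFDerivAt (fun q : ℂ × ℂ × ℂ => q.2.2) ((ContinuousLinearMap.snd ℝ ℂ ℂ).comp
      (ContinuousLinearMap.snd ℝ ℂ (ℂ × ℂ))) q :=
    ((ContinuousLinearMap.snd ℝ ℂ ℂ).comp (ContinuousLinearMap.snd ℝ ℂ (ℂ × ℂ))).hasFDerivAt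
  have h4 := h1.mul h3
  have h5 := (((cmL D x₀ h).hasFDerivAt.comp q h2).add ((cmL D x₀ v).hasFDerivAt.comp q h3)).add
    ((cmL D x₀ h).hasFDerivAt.comp q h4)
  have h6 : HasFDerivAt (lmod D x₀ v h ε) _ q := (h5.const_smul ε).const_add x₀
  rw [h6.fderiv]
  have : q.1 • η + q.2.2 • (0 : ℂ) = q.1 * η := by simp
  show ε • (cmL D x₀ h ζ + cmL D x₀ v η + cmL D x₀ h (q.1 • η + q.2.2 • (0 : ℂ))) = _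
  rw [this, cmL_ap, cmL_ap, cmL_ap]

/-- the data of two transversal boxes -/
structure Pair (D : Data) (x₀ : R4) (ε C : ℝ) (b b' : Box D) : Prop where
  c0 : b.Θ 0 = x₀
  c0' : b'.Θ 0 = x₀
  m : ∀ p ∈ PD 2, ‖b.m p‖ ≤ 1 / 2
  m' : ∀ p ∈ PD 2, ‖b'.m p‖ ≤ 1 / 2
  lo : ∀ p ∈ PD 2, ∀ q ∈ PD 2, ‖p - q‖ ≤ C / ε * ‖b.Θ p - b.Θ q‖
  lo' : ∀ p ∈ PD 2, ∀ q ∈ PD 2, ‖p - q‖ ≤ C / ε * ‖b'.Θ p - b'.Θ q‖
  up : ∀ p ∈ PD 2, ∀ q ∈ PD 2, ‖b.Θ p - b.Θ q‖ ≤ C * ε * ‖p - q‖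
  up' : ∀ p ∈ PD 2, ∀ q ∈ PD 2, ‖b'.Θ p - b'.Θ q‖ ≤ C * ε * ‖p - q‖
  tr : ∀ p ∈ PD 2, ∀ p' ∈ PD 2, ∀ X X' : ℂ × ℂ, fderiv ℝ b.Θ p X = fderiv ℝ b'.Θ p' X' →
    ‖fderiv ℝ b.Θ p X‖ ≤ C * ε * (‖X.1‖ + ‖X'.1‖)

/-- `BX` with `C¹` closeness to the affine model -/
def BXS_statement : Prop := ∀ (D : Data) (K δ : ℝ), 0 < K → 0 < δ → ∃ C > 0, ∃ ε₀ > 0,
  ∀ ε, 0 < ε → ε ≤ ε₀ → ∀ x₀ v h : R4, ‖v‖ ≤ K → ‖h‖ ≤ K →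
  (∀ a b : ℂ, ‖a‖ + ‖b‖ ≤ K * ‖cm D x₀ a v + cm D x₀ b h‖) →
  ∃ Ξ : ℂ × ℂ × ℂ → R4,
    ContDiffOn ℝ ∞ Ξ (ball (0 : ℂ) 2 ×ˢ ball (0 : ℂ) 2 ×ˢ ball (0 : ℂ) 2) ∧
    (∀ q ∈ ball (0 : ℂ) 2 ×ˢ ball (0 : ℂ) 2 ×ˢ ball (0 : ℂ) 2,
      ‖fderiv ℝ Ξ q - fderiv ℝ (lmod D x₀ v h ε) q‖ ≤ ε * δ) ∧
    ∀ l ∈ ball (0 : ℂ) 2, ∃ b : Box D, (∀ p ∈ PD 2, b.Θ p = Ξ (l, p.1, p.2)) ∧
      b.Θ (0, 0) = x₀ ∧ (∀ p ∈ PD 2, ‖b.m p‖ ≤ 1 / 2) ∧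
      ∀ p ∈ PD 2, ∀ q ∈ PD 2, ε / C * ‖p - q‖ ≤ ‖b.Θ p - b.Θ q‖ ∧
        ‖b.Θ p - b.Θ q‖ ≤ C * ε * ‖p - q‖

theorem box_deriv {D : Data} {Ξ : ℂ × ℂ × ℂ → R4}
    (hΞ : ContDiffOn ℝ ∞ Ξ (ball (0 : ℂ) 2 ×ˢ ball (0 : ℂ) 2 ×ˢ ball (0 : ℂ) 2)) {l : ℂ}
    (hl : l ∈ ball (0 : ℂ) 2) (b : Box D) (hb : ∀ p ∈ PD 2, b.Θ p = Ξ (l, p.1, p.2)) {p : ℂ × ℂ}
    (hp : p ∈ PD 2) (X : ℂ × ℂ) : fderiv ℝ b.Θ p X = fderiv ℝ Ξ (l, p) (0, X) := by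
  have hq : ((l, p) : ℂ × ℂ × ℂ) ∈ ball (0 : ℂ) 2 ×ˢ ball (0 : ℂ) 2 ×ˢ ball (0 : ℂ) 2 := ⟨hl, hp⟩
  have ho : IsOpen (ball (0 : ℂ) 2 ×ˢ ball (0 : ℂ) 2 ×ˢ ball (0 : ℂ) 2) :=
    isOpen_ball.prod (isOpen_ball.prod isOpen_ball)
  have h1 : HasFDerivAt Ξ (fderiv ℝ Ξ (l, p)) (l, p) :=
    ((hΞ.contDiffAt (ho.mem_nhds hq)).differentiableAt (by simp)).hasFDerivAt
  have h2 : HasFDerivAt (fun p : ℂ × ℂ => ((l, p) : ℂ × ℂ × ℂ))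
      (ContinuousLinearMap.inr ℝ ℂ (ℂ × ℂ)) p := hasFDerivAt_prodMk_right l p
  have h3 := h1.comp p h2
  have h4 : b.Θ =ᶠ[𝓝 p] Ξ ∘ fun p : ℂ × ℂ => ((l, p) : ℂ × ℂ × ℂ) := by
    filter_upwards [(isOpen_PD 2).mem_nhds hp] with q hq
    exact hb q hq
  rw [(h3.congr_of_eventuallyEq h4).fderiv]
  rfl

theorem box_close {D : Data} {x₀ v h : R4} {ε δ : ℝ} {Ξ : ℂ × ℂ × ℂ → R4}
    (hΞ : ContDiffOn ℝ ∞ Ξ (ball (0 : ℂ) 2 ×ˢ ball (0 : ℂ) 2 ×ˢ ball (0 : ℂ) 2))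
    (hc : ∀ q ∈ ball (0 : ℂ) 2 ×ˢ ball (0 : ℂ) 2 ×ˢ ball (0 : ℂ) 2,
      ‖fderiv ℝ Ξ q - fderiv ℝ (lmod D x₀ v h ε) q‖ ≤ ε * δ) {l : ℂ}
    (hl : l ∈ ball (0 : ℂ) 2) (b : Box D) (hb : ∀ p ∈ PD 2, b.Θ p = Ξ (l, p.1, p.2)) {p : ℂ × ℂ}
    (hp : p ∈ PD 2) (X : ℂ × ℂ) : ‖fderiv ℝ b.Θ p X -
      ε • (cm D x₀ X.1 h + cm D x₀ X.2 v + cm D x₀ (l * X.2) h)‖ ≤ ε * δ * ‖X‖ := by
  have hq : ((l, p) : ℂ × ℂ × ℂ) ∈ ball (0 : ℂ) 2 ×ˢ ball (0 : ℂ) 2 ×ˢ ball (0 : ℂ) 2 := ⟨hl, hp⟩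
  rw [box_deriv hΞ hl b hb hp, ← lmod_deriv D x₀ v h ε (l, p) X.1 X.2]
  have h1 := (fderiv ℝ Ξ (l, p) - fderiv ℝ (lmod D x₀ v h ε) (l, p)).le_opNorm (0, X)
  rw [_root_.sub_apply] at h1
  have h2 : ‖((0 : ℂ), X)‖ = ‖X‖ := by
    rw [Prod.norm_def, norm_zero]
    exact max_eq_right (norm_nonneg _)
  rw [h2] at h1
  exact h1.trans (mul_le_mul_of_nonneg_right (hc _ hq) (norm_nonneg _))

theorem pairs (hBX : BXS_statement) (D : Data) : ∃ C > 0, ∃ ε₀ > 0, ∀ ε, 0 < ε → ε ≤ ε₀ →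
    ∀ x₀ : R4, ∃ b b' : Box D, Pair D x₀ ε C b b' := by
  obtain ⟨K, hK, hfr⟩ := frames D
  obtain ⟨C, hC, ε₀, hε₀, hbx⟩ := hBX D K (1 / (6 * K)) hK (by positivity)
  refine ⟨6 * C, by positivity, ε₀, hε₀, fun ε hε hεε x₀ => ?_⟩
  obtain ⟨v, h, hv, hh, hvh⟩ := hfr x₀
  obtain ⟨Ξ, hΞ, hc, hl⟩ := hbx ε hε hεε x₀ v h hv hh hvh
  have l0 : (0 : ℂ) ∈ ball (0 : ℂ) 2 := mem_ball_self (by norm_num)
  have l1 : (1 : ℂ) ∈ ball (0 : ℂ) 2 := by rw [mem_ball_zero_iff]; norm_num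
  obtain ⟨b, hb1, hb2, hb3, hb4⟩ := hl 0 l0
  obtain ⟨b', hb1', hb2', hb3', hb4'⟩ := hl 1 l1
  have lo : ∀ b : Box D, (∀ p ∈ PD 2, ∀ q ∈ PD 2, ε / C * ‖p - q‖ ≤ ‖b.Θ p - b.Θ q‖ ∧
        ‖b.Θ p - b.Θ q‖ ≤ C * ε * ‖p - q‖) → ∀ p ∈ PD 2, ∀ q ∈ PD 2,
        ‖p - q‖ ≤ 6 * C / ε * ‖b.Θ p - b.Θ q‖ := by
    intro b hb p hp q hq
    have h1 := (hb p hp q hq).1
    have h2 : ‖p - q‖ = C / ε * (ε / C * ‖p - q‖) := by field_simp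
    rw [h2]
    calc C / ε * (ε / C * ‖p - q‖) ≤ C / ε * ‖b.Θ p - b.Θ q‖ :=
          mul_le_mul_of_nonneg_left h1 (by positivity)
      _ ≤ 6 * C / ε * ‖b.Θ p - b.Θ q‖ := by
          apply mul_le_mul_of_nonneg_right _ (norm_nonneg _)
          rw [div_le_div_iff_of_pos_right hε]
          linarith
  have up : ∀ b : Box D, (∀ p ∈ PD 2, ∀ q ∈ PD 2, ε / C * ‖p - q‖ ≤ ‖b.Θ p - b.Θ q‖ ∧
        ‖b.Θ p - b.Θ q‖ ≤ C * ε * ‖p - q‖) → ∀ p ∈ PD 2, ∀ q ∈ PD 2,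
        ‖b.Θ p - b.Θ q‖ ≤ 6 * C * ε * ‖p - q‖ := by
    intro b hb p hp q hq
    refine ((hb p hp q hq).2).trans (mul_le_mul_of_nonneg_right ?_ (norm_nonneg _))
    nlinarith [mul_pos hC hε]
  refine ⟨b, b', hb2, hb2', hb3, hb3', lo b hb4, lo b' hb4', up b hb4, up b' hb4', ?_⟩
  intro p hp p' hp' X X' hXX
  have k1 := box_close hΞ hc l0 b hb1 hp X
  have k2 := box_close hΞ hc l1 b' hb1' hp' X'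
  rw [zero_mul] at k1
  rw [one_mul] at k2
  have k3 : ‖ε • (cm D x₀ (X.2 - X'.2) v + cm D x₀ (X.1 - X'.1 - X'.2) h)‖ ≤
      ε * (1 / (6 * K)) * (‖X‖ + ‖X'‖) := by
    have e1 : ε • (cm D x₀ (X.2 - X'.2) v + cm D x₀ (X.1 - X'.1 - X'.2) h) =
        (fderiv ℝ b'.Θ p' X' - ε • (cm D x₀ X'.1 h + cm D x₀ X'.2 v + cm D x₀ X'.2 h)) -
        (fderiv ℝ b.Θ p X - ε • (cm D x₀ X.1 h + cm D x₀ X.2 v + cm D x₀ 0 h)) := by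
      rw [hXX]
      have c0 : cm D x₀ 0 h = 0 := by simp [cm]
      have c1 : ∀ a c : ℂ, ∀ w, cm D x₀ (a - c) w = cm D x₀ a w - cm D x₀ c w := fun a c w => by
        rw [← cmL_ap, ← cmL_ap, ← cmL_ap, map_sub]
      rw [c0, c1, c1, c1]
      module
    rw [e1]
    calc _ ≤ ‖fderiv ℝ b'.Θ p' X' - ε • (cm D x₀ X'.1 h + cm D x₀ X'.2 v + cm D x₀ X'.2 h)‖ +
        ‖fderiv ℝ b.Θ p X - ε • (cm D x₀ X.1 h + cm D x₀ X.2 v + cm D x₀ 0 h)‖ := norm_sub_le _ _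
      _ ≤ _ := by linarith
  rw [norm_smul, Real.norm_eq_abs, abs_of_pos hε, mul_assoc] at k3
  have k4 := le_of_mul_le_mul_left k3 hε
  have k5 := (hvh (X.2 - X'.2) (X.1 - X'.1 - X'.2)).trans (mul_le_mul_of_nonneg_left k4 hK.le)
  have k6 : K * (1 / (6 * K) * (‖X‖ + ‖X'‖)) = (‖X‖ + ‖X'‖) / 6 := by field_simp
  rw [k6] at k5
  have k7 : ‖X'.2‖ ≤ ‖X.1‖ + ‖X'.1‖ + ‖X.1 - X'.1 - X'.2‖ := by
    calc ‖X'.2‖ = ‖X.1 - X'.1 - (X.1 - X'.1 - X'.2)‖ := by congr 1; ring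
      _ ≤ ‖X.1 - X'.1‖ + ‖X.1 - X'.1 - X'.2‖ := norm_sub_le _ _
      _ ≤ _ := by linarith [norm_sub_le X.1 X'.1]
  have k8 : ‖X.2‖ ≤ ‖X.2 - X'.2‖ + ‖X'.2‖ := by
    calc ‖X.2‖ = ‖X.2 - X'.2 + X'.2‖ := by congr 1; ring
      _ ≤ _ := norm_add_le _ _
  have k9 : ‖X‖ ≤ ‖X.1‖ + ‖X.2‖ := by
    rw [Prod.norm_def]
    exact max_le (by linarith [norm_nonneg X.2]) (by linarith [norm_nonneg X.1])
  have k10 : ‖X'‖ ≤ ‖X'.1‖ + ‖X'.2‖ := by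
    rw [Prod.norm_def]
    exact max_le (by linarith [norm_nonneg X'.2]) (by linarith [norm_nonneg X'.1])
  have n1 := norm_nonneg (X.2 - X'.2)
  have n2 := norm_nonneg (X.1 - X'.1 - X'.2)
  have k11 : ‖X‖ ≤ 6 * (‖X.1‖ + ‖X'.1‖) := by
    linarith [norm_nonneg X', norm_nonneg X.1, norm_nonneg X'.1]
  have k12 : ‖fderiv ℝ b.Θ p‖ ≤ C * ε := by
    refine norm_fderiv_le_of_lip' ℝ (by positivity) ?_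
    filter_upwards [(isOpen_PD 2).mem_nhds hp] with y hy
    exact (hb4 y hy p hp).2
  calc ‖fderiv ℝ b.Θ p X‖ ≤ ‖fderiv ℝ b.Θ p‖ * ‖X‖ := ContinuousLinearMap.le_opNorm _ _
    _ ≤ (C * ε) * (6 * (‖X.1‖ + ‖X'.1‖)) := by gcongr
    _ = 6 * C * ε * (‖X.1‖ + ‖X'.1‖) := by ring

end Vale.Agent.P247.H683
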